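import Mathlib
import Vale.Agent.P309.Basic

/-!
# Top of the spectrum of a symmetrised Gaussian matrix

An elementary proof, by tridiagonalisation, of the sharp upper edge bound: a symmetrised
Gaussian matrix of size `m` is at most `2 r + s` as a quadratic form, unless one of `m` Gaussian
norms exceeds `r` or one of `m` diagonal entries exceeds `s`.
-/

namespace Vale.Agent.P150

open MeasureTheory ProbabilityTheory Finset
open scoped ENNReal

/-- The standard Gaussian measure on `ι → ℝ`. -/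
noncomputable def gauss (ι : Type*) [Fintype ι] : Measure (ι → ℝ) :=
  Measure.pi fun _ => gaussianReal 0 1

instance (ι : Type*) [Fintype ι] : IsProbabilityMeasure (gauss ι) :=
  inferInstanceAs (IsProbabilityMeasure (Measure.pi fun _ : ι => gaussianReal 0 1))

/-- The linear map with rows `R i`. -/
def rowMap {κ ι : Type*} [Fintype κ] (R : ι → κ → ℝ) (x : κ → ℝ) (i : ι) : ℝ :=
  ∑ k, R i k * x k

lemma continuous_rowMap {κ ι : Type*} [Fintype κ] (R : ι → κ → ℝ) : Continuous (rowMap R) := by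
  unfold rowMap
  fun_prop

lemma measurable_rowMap {κ ι : Type*} [Fintype κ] [Fintype ι] (R : ι → κ → ℝ) :
    Measurable (rowMap R) :=
  (continuous_rowMap R).measurable

/-- Orthonormal rows send a standard Gaussian vector to a standard Gaussian vector. -/
lemma gauss_map_rowMap {κ ι : Type*} [Fintype κ] [Fintype ι] [DecidableEq ι] (R : ι → κ → ℝ)
    (hR : ∀ i j, ∑ k, R i k * R j k = if i = j then 1 else 0) :
    (gauss κ).map (rowMap R) = gauss ι := by
  set e := MeasurableEquiv.toLp 2 (ι → ℝ)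
  apply e.map_measurableEquiv_injective
  have h2 : (gauss ι).map e = stdGaussian (EuclideanSpace ℝ ι) := map_pi_eq_stdGaussian
  rw [h2, Measure.map_map e.measurable (measurable_rowMap R)]
  have : IsProbabilityMeasure ((gauss κ).map (e ∘ rowMap R)) :=
    Measure.isProbabilityMeasure_map (e.measurable.comp (measurable_rowMap R)).aemeasurable
  apply Measure.ext_of_charFun
  ext t
  rw [charFun_stdGaussian, charFun_apply,
    integral_map (e.measurable.comp (measurable_rowMap R)).aemeasurable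
      (Measurable.aestronglyMeasurable (by fun_prop))]
  set u : EuclideanSpace ℝ κ := WithLp.toLp 2 fun k => ∑ i, R i k * t i with hu
  have hin : ∀ x : κ → ℝ,
      inner ℝ ((e ∘ rowMap R) x) t = inner ℝ (WithLp.toLp 2 x : EuclideanSpace ℝ κ) u := by
    intro x
    simp only [Function.comp_apply, e, MeasurableEquiv.toLp_apply, hu, PiLp.inner_apply,
      RCLike.inner_apply, conj_trivial, rowMap, mul_sum, sum_mul]
    rw [sum_comm]
    exact sum_congr rfl fun k _ => sum_congr rfl fun i _ => by ring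
  simp only [hin]
  have h3 : ∫ x, Complex.exp (↑(inner ℝ (WithLp.toLp 2 x : EuclideanSpace ℝ κ) u) * Complex.I)
      ∂(gauss κ) = charFun (stdGaussian (EuclideanSpace ℝ κ)) u := by
    rw [charFun_apply, ← map_pi_eq_stdGaussian (ι := κ)]
    exact (integral_map (μ := gauss κ)
      (φ := fun x : κ → ℝ => (WithLp.toLp 2 x : EuclideanSpace ℝ κ))
      (f := fun y : EuclideanSpace ℝ κ => Complex.exp (↑(inner ℝ y u) * Complex.I))
      (MeasurableEquiv.toLp 2 (κ → ℝ)).measurable.aemeasurable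
      (Continuous.aestronglyMeasurable (by fun_prop))).symm
  rw [h3, charFun_stdGaussian]
  have hn : ‖u‖ ^ 2 = ‖t‖ ^ 2 := by
    rw [EuclideanSpace.real_norm_sq_eq, EuclideanSpace.real_norm_sq_eq]
    simp only [hu, sq, sum_mul_sum]
    rw [sum_comm]
    refine sum_congr rfl fun i _ => ?_
    rw [sum_comm, sum_eq_single i]
    · rw [← sum_congr rfl fun k _ => (show R i k * R i k * (t i * t i)
        = R i k * t i * (R i k * t i) by ring), ← sum_mul, hR, if_pos rfl, one_mul]
    · intro j _ hj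
      rw [← sum_congr rfl fun k _ => (show R i k * R j k * (t i * t j)
        = R i k * t i * (R j k * t j) by ring), ← sum_mul, hR, if_neg hj.symm, zero_mul]
    · exact fun h => absurd (mem_univ i) h
  have hn' : ((‖u‖ : ℂ)) ^ 2 = ((‖t‖ : ℂ)) ^ 2 := by exact_mod_cast hn
  rw [hn']

/-- Restriction along an injective map of indices. -/
lemma gauss_map_comp {κ ι : Type*} [Fintype κ] [Fintype ι] [DecidableEq ι] [DecidableEq κ]
    (φ : ι → κ) (hφ : Function.Injective φ) :
    (gauss κ).map (fun x i => x (φ i)) = gauss ι := by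
  have h := gauss_map_rowMap (fun i k => if k = φ i then (1:ℝ) else 0) (fun i j => by
    rcases eq_or_ne i j with rfl | h
    · simp
    · simp [h, hφ.ne h.symm])
  rw [← h]
  congr 1
  funext x i
  simp [rowMap]

/-- Tail of a squared Gaussian norm. -/
lemma gauss_sq_tail {ι : Type*} [Fintype ι] {a C : ℝ} (ha : 0 ≤ a) (hC : 0 ≤ C)
    (h : 1 ≤ C ^ 2 * (1 - 2 * a)) (R : ℝ) :
    gauss ι {x | R < ∑ i, x i ^ 2}
      ≤ ENNReal.ofReal (Real.exp (-a * R) * C ^ Fintype.card ι) := by
  have hset : MeasurableSet {x : ι → ℝ | R < ∑ i, x i ^ 2} :=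
    measurableSet_lt measurable_const (by fun_prop)
  calc gauss ι {x | R < ∑ i, x i ^ 2}
      = ∫⁻ x, Set.indicator {x | R < ∑ i, x i ^ 2} 1 x ∂gauss ι :=
        (lintegral_indicator_one hset).symm
    _ ≤ ∫⁻ x, ENNReal.ofReal (Real.exp (-a * R)) *
          ∏ i, ENNReal.ofReal (Real.exp (a * x i ^ 2)) ∂gauss ι := by
        refine lintegral_mono fun x => ?_
        by_cases hx : x ∈ {x : ι → ℝ | R < ∑ i, x i ^ 2}
        · rw [Set.indicator_of_mem hx, Pi.one_apply,
            ← ENNReal.ofReal_prod_of_nonneg (fun i _ => (Real.exp_pos _).le),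
            ← ENNReal.ofReal_mul (Real.exp_pos _).le, ← Real.exp_sum, ← Real.exp_add,
            ENNReal.one_le_ofReal]
          refine Real.one_le_exp ?_
          rw [← Finset.mul_sum]
          have := mul_le_mul_of_nonneg_left (le_of_lt (show R < ∑ i, x i ^ 2 from hx)) ha
          linarith
        · rw [Set.indicator_of_notMem hx]; exact bot_le
    _ = ENNReal.ofReal (Real.exp (-a * R)) *
          ∏ _i : ι, ∫⁻ t, ENNReal.ofReal (Real.exp (a * t ^ 2)) ∂gaussianReal 0 1 := by
        rw [lintegral_const_mul _ (by fun_prop)]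
        congr 1
        exact P309.lintegral_pi_prod_self (gaussianReal 0 1)
          (fun _ t => ENNReal.ofReal (Real.exp (a * t ^ 2))) (fun _ => by fun_prop)
    _ ≤ ENNReal.ofReal (Real.exp (-a * R)) * ∏ _i : ι, ENNReal.ofReal C := by
        gcongr
        exact P309.lintegral_exp_sq_gaussian hC h
    _ = _ := by
        rw [Finset.prod_const, ← ENNReal.ofReal_pow hC,
          ← ENNReal.ofReal_mul (Real.exp_pos _).le, Finset.card_univ]

/-- Tail of one coordinate. -/
lemma gauss_coord_tail {ι : Type*} [Fintype ι] [DecidableEq ι] (i : ι) {t : ℝ} (ht : 0 ≤ t) :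
    gauss ι {x | t < |x i|} ≤ ENNReal.ofReal (2 * Real.exp (-t ^ 2 / 4)) := by
  have h := gauss_map_comp (κ := ι) (fun _ : Fin 1 => i) (fun a b _ => Subsingleton.elim a b)
  have hm : MeasurableSet {y : Fin 1 → ℝ | t ^ 2 < ∑ j, y j ^ 2} :=
    measurableSet_lt measurable_const (by fun_prop)
  have e : {x : ι → ℝ | t < |x i|}
      = (fun x (_ : Fin 1) => x i) ⁻¹' {y : Fin 1 → ℝ | t ^ 2 < ∑ j, y j ^ 2} := by
    ext x
    simp [sq_lt_sq, abs_of_nonneg ht]
  rw [e, ← Measure.map_apply (by fun_prop) hm, h]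
  refine (gauss_sq_tail (a := 1 / 4) (C := 2) (by norm_num) (by norm_num) (by norm_num) _).trans
    (ENNReal.ofReal_le_ofReal (le_of_eq ?_))
  rw [Fintype.card_fin, pow_one]
  ring_nf

/-! ### The recursion -/

/-- Quadratic form of the symmetrisation `(A + Aᵀ)/√2`. -/
noncomputable def quadForm {m : ℕ} (A : Fin m × Fin m → ℝ) (x : Fin m → ℝ) : ℝ :=
  √2 * ∑ i, ∑ j, A (i, j) * x i * x j

/-- The symmetrised matrix boosted by `r` along `u` exceeds level `L`. -/
def badSet (r L : ℝ) {m : ℕ} (u : Fin m → ℝ) : Set (Fin m × Fin m → ℝ) :=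
  {A | ∃ x : Fin m → ℝ, L * ∑ i, x i ^ 2 < quadForm A x + r * (∑ i, u i * x i) ^ 2}

lemma isOpen_badPairs (r L : ℝ) (m : ℕ) :
    IsOpen {z : (Fin m → ℝ) × (Fin m × Fin m → ℝ) | z.2 ∈ badSet r L z.1} := by
  have e : {z : (Fin m → ℝ) × (Fin m × Fin m → ℝ) | z.2 ∈ badSet r L z.1}
      = ⋃ x : Fin m → ℝ, {z | L * ∑ i, x i ^ 2
          < quadForm z.2 x + r * (∑ i, z.1 i * x i) ^ 2} := by
    ext z
    simp [badSet]
  rw [e]
  refine isOpen_iUnion fun x => isOpen_lt continuous_const (Continuous.add ?_ (by fun_prop))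
  simp only [quadForm]
  fun_prop

lemma measurableSet_badSet (r L : ℝ) {m : ℕ} (u : Fin m → ℝ) :
    MeasurableSet (badSet r L u) :=
  ((isOpen_badPairs r L m).preimage (Continuous.prodMk continuous_const continuous_id)).measurableSet

lemma exists_frame {m : ℕ} (u : Fin (m + 1) → ℝ) (hu : ∑ i, u i ^ 2 ≤ 1) :
    ∃ O : Fin (m + 1) → Fin (m + 1) → ℝ, (∀ i j, ∑ k, O i k * O j k = if i = j then 1 else 0) ∧
      (∀ i j, ∑ k, O k i * O k j = if i = j then 1 else 0) ∧
      ∃ c : ℝ, |c| ≤ 1 ∧ ∀ k, u k = c * O k 0 := by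
  obtain ⟨v, hv, c, hc, huv⟩ : ∃ v : Fin (m + 1) → ℝ, ∑ i, v i ^ 2 = 1 ∧
      ∃ c : ℝ, |c| ≤ 1 ∧ ∀ k, u k = c * v k := by
    rcases eq_or_ne (∑ i, u i ^ 2) 0 with h0 | h0
    · refine ⟨fun i => if i = 0 then 1 else 0, by simp, 0, by simp, fun k => ?_⟩
      rw [zero_mul]
      exact pow_eq_zero_iff two_ne_zero |>.1
        ((sum_eq_zero_iff_of_nonneg fun i _ => sq_nonneg (u i)).1 h0 k (mem_univ k))
    · have hS : 0 < ∑ i, u i ^ 2 := lt_of_le_of_ne (sum_nonneg fun i _ => sq_nonneg _) h0.symm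
      refine ⟨fun i => u i / √(∑ i, u i ^ 2), ?_, √(∑ i, u i ^ 2), ?_, fun k => ?_⟩
      · simp only [div_pow, Real.sq_sqrt hS.le, ← sum_div, div_self h0]
      · rw [abs_of_nonneg (Real.sqrt_nonneg _)]
        exact Real.sqrt_le_one.2 hu
      · field_simp
  set e : EuclideanSpace ℝ (Fin (m + 1)) := WithLp.toLp 2 v
  have he : ‖e‖ = 1 := by
    rw [← pow_left_inj₀ (norm_nonneg _) zero_le_one two_ne_zero, EuclideanSpace.real_norm_sq_eq,
      one_pow]
    exact hv
  have ho : Orthonormal ℝ (({0} : Set (Fin (m + 1))).domRestrict fun _ => e) :=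
    orthonormal_iff_ite.2 fun i j => by
      obtain ⟨i, rfl⟩ := i
      obtain ⟨j, rfl⟩ := j
      simp [Set.domRestrict, he]
  obtain ⟨b, hb⟩ := ho.exists_orthonormalBasis_extension_of_card_eq
    (by simp [finrank_euclideanSpace])
  refine ⟨fun k i => b i k, fun i j => ?_, fun i j => ?_, c, hc, fun k => ?_⟩
  · have := b.sum_inner_mul_inner (EuclideanSpace.single i (1:ℝ)) (EuclideanSpace.single j 1)
    simp only [EuclideanSpace.inner_single_left, EuclideanSpace.inner_single_right, map_one,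
      one_mul, PiLp.single_apply, eq_comm (a := j)] at this
    simpa using this
  · have := b.inner_eq_ite i j
    simp only [PiLp.inner_apply, RCLike.inner_apply, conj_trivial] at this
    rw [← this]
    exact sum_congr rfl fun k _ => mul_comm _ _
  · rw [huv]
    change c * v k = c * b 0 k
    rw [hb 0 rfl]

/-- Rotating the direction of the boost to the first axis. -/
lemma gauss_badSet_le (r L : ℝ) (hr : 0 ≤ r) {m : ℕ} (u : Fin (m + 1) → ℝ)
    (hu : ∑ i, u i ^ 2 ≤ 1) :
    gauss (Fin (m + 1) × Fin (m + 1)) (badSet r L u)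
      ≤ gauss (Fin (m + 1) × Fin (m + 1)) (badSet r L (Pi.single 0 1)) := by
  obtain ⟨O, hrow, hcol, c, hc, huO⟩ := exists_frame u hu
  let R : Fin (m + 1) × Fin (m + 1) → Fin (m + 1) × Fin (m + 1) → ℝ :=
    fun q k => O k.1 q.1 * O k.2 q.2
  have hR : ∀ q q', ∑ k, R q k * R q' k = if q = q' then 1 else 0 := by
    intro q q'
    simp only [R, Fintype.sum_prod_type]
    rw [show (∑ a, ∑ b, O a q.1 * O b q.2 * (O a q'.1 * O b q'.2))
      = (∑ a, O a q.1 * O a q'.1) * ∑ b, O b q.2 * O b q'.2 by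
      rw [sum_mul_sum]; exact sum_congr rfl fun a _ => sum_congr rfl fun b _ => by ring]
    rw [hcol, hcol]
    simp only [Prod.ext_iff]
    split_ifs with h1 h2 h3 <;> simp_all
  have hsub : badSet r L u ⊆ rowMap R ⁻¹' badSet r L (Pi.single 0 1) := by
    rintro A ⟨x, hx⟩
    refine ⟨fun i => ∑ a, O a i * x a, ?_⟩
    have hN : ∑ i, (∑ a, O a i * x a) ^ 2 = ∑ a, x a ^ 2 := by
      simp only [sq, sum_mul_sum]
      rw [sum_comm]
      refine sum_congr rfl fun a _ => ?_
      rw [sum_comm, sum_congr rfl fun b _ => (show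
        (∑ i, O a i * x a * (O b i * x b)) = (∑ i, O a i * O b i) * (x a * x b) by
          rw [sum_mul]; exact sum_congr rfl fun i _ => by ring)]
      simp [hrow]
    have hback : ∀ k, ∑ i, O k i * ∑ a, O a i * x a = x k := by
      intro k
      simp only [mul_sum, ← mul_assoc]
      rw [sum_comm]
      simp only [← sum_mul, hrow]
      simp
    have hQ : quadForm (rowMap R A) (fun i => ∑ a, O a i * x a) = quadForm A x := by
      simp only [quadForm]
      congr 1
      have flat : ∀ (B : Fin (m + 1) × Fin (m + 1) → ℝ) (z : Fin (m + 1) → ℝ),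
          ∑ i, ∑ j, B (i, j) * z i * z j = ∑ q, B q * (z q.1 * z q.2) := by
        intro B z
        rw [Fintype.sum_prod_type]
        exact sum_congr rfl fun i _ => sum_congr rfl fun j _ => mul_assoc _ _ _
      rw [flat, flat]
      simp only [rowMap, sum_mul]
      rw [sum_comm]
      refine sum_congr rfl fun k _ => ?_
      conv_rhs => rw [← hback k.1, ← hback k.2, sum_mul_sum]
      rw [Fintype.sum_prod_type, mul_sum]
      refine sum_congr rfl fun i _ => ?_
      rw [mul_sum]
      refine sum_congr rfl fun j _ => ?_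
      simp only [R, mul_sum, sum_mul]
      conv_rhs => rw [sum_comm]
      exact sum_congr rfl fun a _ => sum_congr rfl fun b _ => by ring
    have h1 : ∑ i, (Pi.single 0 1 : Fin (m + 1) → ℝ) i * ∑ a, O a i * x a = ∑ a, O a 0 * x a := by
      simp [Pi.single_apply]
    rw [hN, hQ, h1]
    refine hx.trans_le (add_le_add le_rfl (mul_le_mul_of_nonneg_left ?_ hr))
    simp only [huO, mul_assoc, ← mul_sum]
    rw [mul_pow]
    exact mul_le_of_le_one_left (sq_nonneg _) ((sq_le_one_iff_abs_le_one c).2 hc)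
  calc gauss _ (badSet r L u) ≤ gauss _ (rowMap R ⁻¹' badSet r L (Pi.single 0 1)) :=
        measure_mono hsub
    _ = (gauss _).map (rowMap R) (badSet r L (Pi.single 0 1)) :=
        (Measure.map_apply (measurable_rowMap R) (measurableSet_badSet r L _)).symm
    _ = _ := by rw [gauss_map_rowMap R hR]

/-- Failure probability of one step: a long Gaussian vector or a large diagonal entry. -/
noncomputable def stepFail (r s a C : ℝ) (n : ℕ) : ℝ :=
  Real.exp (-a * r ^ 2) * C ^ n + 2 * Real.exp (-s ^ 2 / 8)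

/-- Rows extracting the symmetrised first row and the lower corner. -/
noncomputable def peelRows (m : ℕ) :
    Fin m ⊕ (Fin m × Fin m) → Fin (m + 1) × Fin (m + 1) → ℝ
  | Sum.inl j, k => (if k = (0, j.succ) then 1 / √2 else 0)
      + (if k = (j.succ, 0) then 1 / √2 else 0)
  | Sum.inr q, k => if k = (q.1.succ, q.2.succ) then 1 else 0

lemma peelRows_orth (m : ℕ) (q q' : Fin m ⊕ (Fin m × Fin m)) :
    ∑ k, peelRows m q k * peelRows m q' k = if q = q' then 1 else 0 := by
  have h2 : (1 / √2 : ℝ) * (1 / √2) + 1 / √2 * (1 / √2) = 1 := by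
    rw [div_mul_div_comm, Real.mul_self_sqrt (by norm_num)]
    norm_num
  rcases q with j | a <;> rcases q' with j' | b
  · rcases eq_or_ne j j' with rfl | h
    · simp [peelRows, mul_add, sum_add_distrib, (Fin.succ_ne_zero j).symm]
      norm_num at h2
      linarith
    · simp [peelRows, mul_add, sum_add_distrib, h, Ne.symm h, (Fin.succ_ne_zero _).symm]
  · simp [peelRows, sum_add_distrib, (Fin.succ_ne_zero _).symm]
  · simp [peelRows, mul_add, sum_add_distrib, (Fin.succ_ne_zero _).symm]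
  · rcases eq_or_ne a b with rfl | h
    · simp [peelRows]
    · have h' : (b.1.succ, b.2.succ) ≠ ((a.1.succ, a.2.succ) : Fin (m + 1) × Fin (m + 1)) :=
        fun hh => h (Prod.ext (Fin.succ_inj.1 (congrArg Prod.fst hh)).symm
          (Fin.succ_inj.1 (congrArg Prod.snd hh)).symm)
      simp [peelRows, h, h'.symm, h']

/-- The symmetrised first row and the lower corner. -/
noncomputable def peel (m : ℕ) (A : Fin (m + 1) × Fin (m + 1) → ℝ) :
    (Fin m → ℝ) × (Fin m × Fin m → ℝ) :=
  MeasurableEquiv.sumPiEquivProdPi (fun _ : Fin m ⊕ (Fin m × Fin m) => ℝ)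
    (rowMap (peelRows m) A)

lemma measurable_peel (m : ℕ) : Measurable (peel m) :=
  (MeasurableEquiv.measurable _).comp (measurable_rowMap _)

lemma gauss_map_peel (m : ℕ) :
    (gauss (Fin (m + 1) × Fin (m + 1))).map (peel m)
      = (gauss (Fin m)).prod (gauss (Fin m × Fin m)) := by
  change (gauss (Fin (m + 1) × Fin (m + 1))).map
    ((MeasurableEquiv.sumPiEquivProdPi fun _ : Fin m ⊕ (Fin m × Fin m) => ℝ) ∘
      rowMap (peelRows m)) = _
  rw [← Measure.map_map (MeasurableEquiv.measurable _) (measurable_rowMap _),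
    gauss_map_rowMap _ (peelRows_orth m)]
  exact (measurePreserving_sumPiEquivProdPi
    (fun _ : Fin m ⊕ (Fin m × Fin m) => gaussianReal 0 1)).map_eq

lemma peel_fst (m : ℕ) (A : Fin (m + 1) × Fin (m + 1) → ℝ) (j : Fin m) :
    (peel m A).1 j = (A (0, j.succ) + A (j.succ, 0)) / √2 := by
  simp [peel, rowMap, peelRows, MeasurableEquiv.sumPiEquivProdPi, Equiv.sumPiEquivProdPi,
    add_mul, sum_add_distrib]
  ring

lemma peel_snd (m : ℕ) (A : Fin (m + 1) × Fin (m + 1) → ℝ) (q : Fin m × Fin m) :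
    (peel m A).2 q = A (q.1.succ, q.2.succ) := by
  simp [peel, rowMap, peelRows, MeasurableEquiv.sumPiEquivProdPi, Equiv.sumPiEquivProdPi]

lemma quadForm_succ (m : ℕ) (A : Fin (m + 1) × Fin (m + 1) → ℝ) (x : Fin (m + 1) → ℝ) :
    quadForm A x = √2 * A (0, 0) * x 0 ^ 2
      + 2 * x 0 * (∑ i, (peel m A).1 i * x i.succ)
      + quadForm (peel m A).2 (fun i => x i.succ) := by
  have h22 : √2 * √2 = 2 := Real.mul_self_sqrt (by norm_num)
  have hwy : 2 * x 0 * (∑ i, (peel m A).1 i * x i.succ)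
      = √2 * ((∑ i : Fin m, A (0, i.succ) * x 0 * x i.succ)
        + ∑ i : Fin m, A (i.succ, 0) * x i.succ * x 0) := by
    rw [← sum_add_distrib, mul_sum, mul_sum]
    refine sum_congr rfl fun i _ => ?_
    rw [peel_fst]
    field_simp
    linear_combination (-(x 0 * x i.succ * (A (0, i.succ) + A (i.succ, 0)))) * h22
  rw [hwy]
  simp only [quadForm, peel_snd, Fin.sum_univ_succ, sum_add_distrib]
  ring

lemma cross_le {m : ℕ} (w y : Fin m → ℝ) {r t : ℝ} (hr : 0 ≤ r)
    (hw : ∑ i, w i ^ 2 ≤ r ^ 2) :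
    2 * t * (∑ i, w i * y i)
      ≤ r * t ^ 2 + r * (∑ i, w i / √(∑ i, w i ^ 2) * y i) ^ 2 := by
  set N := √(∑ i, w i ^ 2) with hNdef
  have hN0 : 0 ≤ N := Real.sqrt_nonneg _
  have hN : N ≤ r := Real.sqrt_le_iff.2 ⟨hr, hw⟩
  have e : ∑ i, w i * y i = N * ∑ i, w i / N * y i := by
    rw [mul_sum]
    refine sum_congr rfl fun i _ => ?_
    rcases eq_or_ne N 0 with h0 | h0
    · have h1 := (Real.sqrt_eq_zero (sum_nonneg fun i _ => sq_nonneg _)).1 h0
      have : w i = 0 := pow_eq_zero_iff two_ne_zero |>.1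
        ((sum_eq_zero_iff_of_nonneg fun i _ => sq_nonneg (w i)).1 h1 i (mem_univ i))
      simp [this]
    · field_simp
  rw [e]
  have := mul_nonneg hN0 (sq_nonneg (t - ∑ i, w i / N * y i))
  have := mul_le_mul_of_nonneg_right hN (sq_nonneg t)
  have := mul_le_mul_of_nonneg_right hN (sq_nonneg (∑ i, w i / N * y i))
  linarith

/-- The pairs (row, corner) for which the recursion fails. -/
def badPairs (r L : ℝ) (m : ℕ) : Set ((Fin m → ℝ) × (Fin m × Fin m → ℝ)) :=
  {z | z.2 ∈ badSet r L (fun i => z.1 i / √(∑ i, z.1 i ^ 2))}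

lemma measurableSet_badPairs (r L : ℝ) (m : ℕ) : MeasurableSet (badPairs r L m) :=
  (isOpen_badPairs r L m).measurableSet.preimage
    ((measurable_pi_lambda _ fun i => by fun_prop).prodMk measurable_snd :
      Measurable fun z : (Fin m → ℝ) × (Fin m × Fin m → ℝ) =>
        ((fun i => z.1 i / √(∑ i, z.1 i ^ 2)), z.2))

lemma badPairs_slice (r L : ℝ) (m : ℕ) (w : Fin m → ℝ) :
    Prod.mk w ⁻¹' badPairs r L m = badSet r L (fun i => w i / √(∑ i, w i ^ 2)) := by
  ext A
  rfl

lemma unit_le (m : ℕ) (w : Fin m → ℝ) : ∑ i, (w i / √(∑ i, w i ^ 2)) ^ 2 ≤ 1 := by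
  simp only [div_pow, ← sum_div, Real.sq_sqrt (sum_nonneg fun i _ => sq_nonneg (w i))]
  exact div_self_le_one _

lemma badSet_succ_subset {r s L : ℝ} (hr : 0 ≤ r) (hL : 2 * r + s ≤ L) (m : ℕ) :
    badSet r L (Pi.single 0 1 : Fin (m + 1) → ℝ) ⊆
      peel m ⁻¹' ({w : Fin m → ℝ | r ^ 2 < ∑ i, w i ^ 2} ×ˢ Set.univ) ∪
        {A | s / √2 < |A (0, 0)|} ∪ peel m ⁻¹' badPairs r L m := by
  rintro A ⟨x, hx⟩
  by_contra hA
  simp only [Set.mem_union, not_or, Set.mem_preimage] at hA
  obtain ⟨⟨hw, h00⟩, hy⟩ := hA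
  have hw' : ∑ i, (peel m A).1 i ^ 2 ≤ r ^ 2 := not_lt.1 fun h => hw ⟨h, trivial⟩
  have h00' : |A (0, 0)| ≤ s / √2 := not_lt.1 h00
  have hy' := not_lt.1 fun h => hy ⟨fun i => x i.succ, h⟩
  have hcross := cross_le (t := x 0) (peel m A).1 (fun i => x i.succ) hr hw'
  have h0 : √2 * A (0, 0) ≤ s := by
    have := (le_abs_self _).trans h00'
    rwa [le_div_iff₀ (by positivity), mul_comm] at this
  have hsx : ∑ i, x i ^ 2 = x 0 ^ 2 + ∑ i : Fin m, x i.succ ^ 2 := Fin.sum_univ_succ _
  have hux : ∑ i, (Pi.single 0 1 : Fin (m + 1) → ℝ) i * x i = x 0 := by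
    simp [Pi.single_apply]
  rw [hux, hsx, quadForm_succ] at hx
  have := mul_le_mul_of_nonneg_right h0 (sq_nonneg (x 0))
  have := mul_le_mul_of_nonneg_right hL (sq_nonneg (x 0))
  linarith

/-- The edge bound. -/
theorem gauss_edge {r s a C L : ℝ} (hr : 0 ≤ r) (hs : 0 ≤ s) (ha : 0 ≤ a) (hC : 1 ≤ C)
    (haC : 1 ≤ C ^ 2 * (1 - 2 * a)) (hL : 2 * r + s ≤ L) {n : ℕ} :
    ∀ m ≤ n, ∀ u : Fin m → ℝ, (∑ i, u i ^ 2 ≤ 1) →
      gauss (Fin m × Fin m) (badSet r L u) ≤ m * ENNReal.ofReal (stepFail r s a C n) := by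
  intro m
  induction m with
  | zero =>
    intro _ u _
    have : badSet r L u = ∅ := by
      ext A
      simp [badSet, quadForm]
    simp [this]
  | succ m ih =>
    intro hm u hu
    refine (gauss_badSet_le r L hr u hu).trans ((measure_mono (badSet_succ_subset hr hL m)).trans ?_)
    refine ((measure_union_le _ _).trans (add_le_add (measure_union_le _ _) le_rfl)).trans ?_
    have p1 : gauss (Fin (m + 1) × Fin (m + 1))
        (peel m ⁻¹' ({w : Fin m → ℝ | r ^ 2 < ∑ i, w i ^ 2} ×ˢ Set.univ))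
        ≤ ENNReal.ofReal (Real.exp (-a * r ^ 2) * C ^ n) := by
      rw [← Measure.map_apply (measurable_peel m)
        ((measurableSet_lt measurable_const (by fun_prop)).prod MeasurableSet.univ),
        gauss_map_peel, Measure.prod_prod, measure_univ, mul_one]
      refine (gauss_sq_tail ha (zero_le_one.trans hC) haC _).trans
        (ENNReal.ofReal_le_ofReal ?_)
      rw [Fintype.card_fin]
      exact mul_le_mul_of_nonneg_left (pow_le_pow_right₀ hC (by omega)) (Real.exp_pos _).le
    have p2 : gauss (Fin (m + 1) × Fin (m + 1)) {A | s / √2 < |A (0, 0)|}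
        ≤ ENNReal.ofReal (2 * Real.exp (-s ^ 2 / 8)) := by
      refine (gauss_coord_tail (0, 0) (div_nonneg hs (Real.sqrt_nonneg _))).trans
        (ENNReal.ofReal_le_ofReal (le_of_eq ?_))
      rw [div_pow, Real.sq_sqrt (by norm_num)]
      ring_nf
    have p3 : gauss (Fin (m + 1) × Fin (m + 1)) (peel m ⁻¹' badPairs r L m)
        ≤ m * ENNReal.ofReal (stepFail r s a C n) := by
      rw [← Measure.map_apply (measurable_peel m) (measurableSet_badPairs r L m),
        gauss_map_peel, Measure.prod_apply (measurableSet_badPairs r L m)]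
      calc ∫⁻ w, gauss (Fin m × Fin m) (Prod.mk w ⁻¹' badPairs r L m) ∂gauss (Fin m)
          ≤ ∫⁻ _w, (m : ℝ≥0∞) * ENNReal.ofReal (stepFail r s a C n) ∂gauss (Fin m) := by
            refine lintegral_mono fun w => ?_
            rw [badPairs_slice]
            exact ih (by omega) (fun i => w i / √(∑ i, w i ^ 2)) (unit_le m w)
        _ = _ := by simp
    refine (add_le_add (add_le_add p1 p2) p3).trans (le_of_eq ?_)
    rw [stepFail, ← ENNReal.ofReal_add (by positivity) (by positivity)]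
    push_cast
    ring

end Vale.Agent.P150
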