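import Mathlib

/-!
# The two-spin inequality

Two spins with fields of hyperbolic tangents `p`, `q` and a coupling whose hyperbolic tangent
is `T`; weights are unnormalised.
-/

namespace Vale.Agent.P150

/-- Sum over the four values of two spins. -/
def sum4 (F : ℝ → ℝ → ℝ) : ℝ := F 1 1 + F 1 (-1) + (F (-1) 1 + F (-1) (-1))

/-- Pair weight. -/
def om (p q T s t : ℝ) : ℝ := (1 + p * s) * (1 + q * t) * (1 + T * s * t)

/-- Conditional mean of a spin with field `p`, given the other spin `t`. -/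
noncomputable def cmean (p T t : ℝ) : ℝ := (p + T * t) / (1 + p * T * t)

/-- Conditional variance. -/
noncomputable def cvar (p T t : ℝ) : ℝ := 1 - cmean p T t ^ 2

/-- Cross term of the two spins. -/
noncomputable def crossTerm (p q T a b c : ℝ) : ℝ :=
  sum4 fun s t =>
    om p q T s t * ((s - cmean p T t) * (a + t * b)) * ((t - cmean q T s) * (c + s * b))

/-- Gradient form of the coupling. -/
noncomputable def gradTerm (p q T a b c : ℝ) : ℝ :=
  sum4 fun s t => om p q T s t * (cvar p T t * (a + t * b)) * (cvar q T s * (c + s * b))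

/-- Second-order weight of the first spin. -/
noncomputable def secTerm (p q T a b : ℝ) : ℝ :=
  sum4 fun s t => om p q T s t * (cvar p T t ^ 2 * cmean p T t ^ 2 * (a + t * b) ^ 2)

/-- Dirichlet weight of the first spin. -/
noncomputable def dirTerm (p q T a b : ℝ) : ℝ :=
  sum4 fun s t => om p q T s t * (cvar p T t * (a + t * b) ^ 2)

/-- Coefficient polynomial of `a c`. -/
def c00 (p q T : ℝ) : ℝ :=
  (1 + p * q * T) * (1 + q * q * T * T) * (1 + p * p * T * T)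
    - 2 * q * T * (1 + p * p * T * T) * (p + q * T)
    - 2 * p * T * (1 + q * q * T * T) * (q + p * T) + 4 * p * q * T * T * (p * q + T)

/-- Coefficient polynomial of `a b`. -/
def c10 (p q T : ℝ) : ℝ :=
  (p + q * T) * (1 + q * q * T * T) * (1 + p * p * T * T)
    - 2 * q * T * (1 + p * p * T * T) * (1 + p * q * T)
    - 2 * p * T * (1 + q * q * T * T) * (p * q + T) + 4 * p * q * T * T * (q + p * T)

/-- Coefficient polynomial of `b ^ 2`. -/
def c11 (p q T : ℝ) : ℝ :=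
  (p * q + T) * (1 + q * q * T * T) * (1 + p * p * T * T)
    - 2 * q * T * (1 + p * p * T * T) * (q + p * T)
    - 2 * p * T * (1 + q * q * T * T) * (p + q * T) + 4 * p * q * T * T * (1 + p * q * T)

/-- `(1 - p²T²)(1 - q²T²)`. -/
def pq2 (p q T : ℝ) : ℝ := (1 - p * p * T * T) * (1 - q * q * T * T)

/-- Numerator of `a c`. -/
def n00 (p q T J : ℝ) : ℝ := -T * (1 - p * q * T) * pq2 p q T + J * (1 - T * T) * c00 p q T

/-- Numerator of `a b`. -/
def n10 (p q T J : ℝ) : ℝ := (-p * T + q * T * T) * pq2 p q T + J * (1 - T * T) * c10 p q T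

/-- Numerator of `b ^ 2`. -/
def n11 (p q T J : ℝ) : ℝ := (1 - p * q * T * T * T) * pq2 p q T + J * (1 - T * T) * c11 p q T

variable {p q T J : ℝ}

lemma denom_pos (hp : |p| ≤ 1) (hT : |T| ≤ 1 / 25) {t : ℝ} (ht : |t| ≤ 1) :
    0 < 1 + p * T * t := by
  have h : |p * T * t| ≤ 1 / 25 := by
    rw [abs_mul, abs_mul]
    calc |p| * |T| * |t| ≤ 1 * (1 / 25) * 1 := by gcongr
      _ = 1 / 25 := by norm_num
  have := neg_abs_le (p * T * t)
  linarith

lemma cvar_eq (hp : |p| ≤ 1) (hT : |T| ≤ 1 / 25) {t : ℝ} (ht : t = 1 ∨ t = -1) :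
    cvar p T t = (1 - p * p) * (1 - T * T) / (1 + p * T * t) ^ 2 := by
  have ht1 : |t| ≤ 1 := by rcases ht with rfl | rfl <;> norm_num
  have h := (denom_pos hp hT ht1).ne'
  rw [cvar, cmean]
  field_simp
  rcases ht with rfl | rfl <;> ring

lemma cross_point (hp : |p| ≤ 1) (hq : |q| ≤ 1) (hT : |T| ≤ 1 / 25) {s t : ℝ}
    (hs : s = 1 ∨ s = -1) (ht : t = 1 ∨ t = -1) :
    om p q T s t * (s - cmean p T t) * (t - cmean q T s)
      = ((1 - p * p) * (1 - q * q) * (1 - T * T) / pq2 p q T) *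
        (s * t * (1 - T * s * t) * (1 - p * T * t) * (1 - q * T * s)) := by
  have hs1 : |s| ≤ 1 := by rcases hs with rfl | rfl <;> norm_num
  have ht1 : |t| ≤ 1 := by rcases ht with rfl | rfl <;> norm_num
  have hA := (denom_pos hp hT ht1).ne'
  have hA' := (denom_pos hp hT (t := -t) (by rwa [abs_neg])).ne'
  have hB := (denom_pos hq hT hs1).ne'
  have hB' := (denom_pos hq hT (t := -s) (by rwa [abs_neg])).ne'
  have ea : s - cmean p T t = ((s - p) + T * t * (p * s - 1)) / (1 + p * T * t) := by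
    rw [cmean, sub_div' hA]
    ring
  have eb : t - cmean q T s = ((t - q) + T * s * (q * t - 1)) / (1 + q * T * s) := by
    rw [cmean, sub_div' hB]
    ring
  have e : pq2 p q T = (1 + p * T * t) * (1 + q * T * s) *
      ((1 + p * T * -t) * (1 + q * T * -s)) := by
    rcases hs with rfl | rfl <;> rcases ht with rfl | rfl <;> rw [pq2] <;> ring
  have hAB := mul_ne_zero hA hB
  have hAB' := mul_ne_zero hA' hB'
  rw [ea, eb, mul_assoc, div_mul_div_comm, ← mul_div_assoc, e, div_mul_eq_mul_div,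
    div_eq_div_iff hAB (mul_ne_zero hAB hAB')]
  rcases hs with rfl | rfl <;> rcases ht with rfl | rfl <;> simp only [om] <;> ring

lemma grad_point (hp : |p| ≤ 1) (hq : |q| ≤ 1) (hT : |T| ≤ 1 / 25) {s t : ℝ}
    (hs : s = 1 ∨ s = -1) (ht : t = 1 ∨ t = -1) :
    om p q T s t * cvar p T t * cvar q T s
      = ((1 - p * p) * (1 - q * q) * (1 - T * T) ^ 2 / pq2 p q T ^ 2) *
        (om p q T s t * (1 - p * T * t) ^ 2 * (1 - q * T * s) ^ 2) := by
  have hs1 : |s| ≤ 1 := by rcases hs with rfl | rfl <;> norm_num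
  have ht1 : |t| ≤ 1 := by rcases ht with rfl | rfl <;> norm_num
  have hA := (denom_pos hp hT ht1).ne'
  have hA' := (denom_pos hp hT (t := -t) (by rwa [abs_neg])).ne'
  have hB := (denom_pos hq hT hs1).ne'
  have hB' := (denom_pos hq hT (t := -s) (by rwa [abs_neg])).ne'
  have e : pq2 p q T = (1 + p * T * t) * (1 + q * T * s) *
      ((1 + p * T * -t) * (1 + q * T * -s)) := by
    rcases hs with rfl | rfl <;> rcases ht with rfl | rfl <;> rw [pq2] <;> ring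
  have h1 := mul_ne_zero (pow_ne_zero 2 hA) (pow_ne_zero 2 hB)
  have h2 : ((1 + p * T * t) * (1 + q * T * s) *
      ((1 + p * T * -t) * (1 + q * T * -s))) ^ 2 ≠ 0 :=
    pow_ne_zero 2 (mul_ne_zero (mul_ne_zero hA hB) (mul_ne_zero hA' hB'))
  rw [cvar_eq hp hT ht, cvar_eq hq hT hs, e, mul_assoc, div_mul_div_comm, ← mul_div_assoc,
    div_mul_eq_mul_div, div_eq_div_iff h1 h2]
  ring

lemma cross_identity (hp : |p| ≤ 1) (hq : |q| ≤ 1) (hT : |T| ≤ 1 / 25) (a b c : ℝ) :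
    crossTerm p q T a b c
      = 4 * ((1 - p * p) * (1 - q * q) * (1 - T * T) / pq2 p q T) *
        (-T * (1 - p * q * T) * (a * c) + (-p * T + q * T * T) * (a * b)
          + (-q * T + p * T * T) * (c * b) + (1 - p * q * T * T * T) * b ^ 2) := by
  have f : ∀ s t : ℝ, om p q T s t * ((s - cmean p T t) * (a + t * b))
      * ((t - cmean q T s) * (c + s * b))
      = om p q T s t * (s - cmean p T t) * (t - cmean q T s) * ((a + t * b) * (c + s * b)) :=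
    fun s t => by ring
  simp only [crossTerm, sum4, f]
  rw [cross_point hp hq hT (Or.inl rfl) (Or.inl rfl), cross_point hp hq hT (Or.inl rfl) (Or.inr rfl),
    cross_point hp hq hT (Or.inr rfl) (Or.inl rfl), cross_point hp hq hT (Or.inr rfl) (Or.inr rfl)]
  generalize (1 - p * p) * (1 - q * q) * (1 - T * T) / pq2 p q T = K
  ring

lemma grad_identity (hp : |p| ≤ 1) (hq : |q| ≤ 1) (hT : |T| ≤ 1 / 25) (a b c : ℝ) :
    gradTerm p q T a b c
      = 4 * ((1 - p * p) * (1 - q * q) * (1 - T * T) ^ 2 / pq2 p q T ^ 2) *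
        (c00 p q T * (a * c) + c10 p q T * (a * b) + c10 q p T * (c * b)
          + c11 p q T * b ^ 2) := by
  have f : ∀ s t : ℝ, om p q T s t * (cvar p T t * (a + t * b)) * (cvar q T s * (c + s * b))
      = om p q T s t * cvar p T t * cvar q T s * ((a + t * b) * (c + s * b)) :=
    fun s t => by ring
  simp only [gradTerm, sum4, f]
  rw [grad_point hp hq hT (Or.inl rfl) (Or.inl rfl), grad_point hp hq hT (Or.inl rfl) (Or.inr rfl),
    grad_point hp hq hT (Or.inr rfl) (Or.inl rfl), grad_point hp hq hT (Or.inr rfl) (Or.inr rfl)]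
  generalize (1 - p * p) * (1 - q * q) * (1 - T * T) ^ 2 / pq2 p q T ^ 2 = K
  simp only [om, c00, c10, c11]
  ring

lemma key_identity (hp : |p| ≤ 1) (hq : |q| ≤ 1) (hT : |T| ≤ 1 / 25) (a b c : ℝ) :
    crossTerm p q T a b c + J * gradTerm p q T a b c
      = 4 * ((1 - p * p) * (1 - q * q) * (1 - T * T) / pq2 p q T ^ 2) *
        (n00 p q T J * (a * c) + n10 p q T J * (a * b) + n10 q p T J * (c * b)
          + n11 p q T J * b ^ 2) := by
  have e : pq2 q p T = pq2 p q T := by rw [pq2, pq2]; ring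
  have hpos : 0 < pq2 p q T := by
    have h1 := denom_pos hp hT (t := 1) (by norm_num)
    have h2 := denom_pos hp hT (t := -1) (by norm_num)
    have h3 := denom_pos hq hT (t := 1) (by norm_num)
    have h4 := denom_pos hq hT (t := -1) (by norm_num)
    calc (0:ℝ) < (1 + p * T * 1) * (1 + p * T * (-1)) *
          ((1 + q * T * 1) * (1 + q * T * (-1))) := by positivity
      _ = _ := by rw [pq2]; ring
  rw [cross_identity hp hq hT, grad_identity hp hq hT, n00, n10, n10, n11, e]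
  field_simp
  ring

lemma bd_mul {x y a b : ℝ} (hx : |x| ≤ a) (hy : |y| ≤ b) : |x * y| ≤ a * b := by
  rw [abs_mul]
  exact mul_le_mul hx hy (abs_nonneg _) ((abs_nonneg _).trans hx)

lemma bd_add {x y a b : ℝ} (hx : |x| ≤ a) (hy : |y| ≤ b) : |x + y| ≤ a + b :=
  (abs_add_le x y).trans (add_le_add hx hy)

lemma bd_sub {x y a b : ℝ} (hx : |x| ≤ a) (hy : |y| ≤ b) : |x - y| ≤ a + b :=
  (abs_sub x y).trans (add_le_add hx hy)

lemma bd_const {a : ℝ} (ha : 0 ≤ a) : |a| ≤ a := (abs_of_nonneg ha).le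

/-- The remainder of `c00`. -/
def r00 (p q T : ℝ) : ℝ :=
  (p * p + q * q + p * p * q * q * T * T) * (1 + p * q * T) - 2 * q * q * (1 + p * p * T * T)
    - 2 * p * p * (1 + q * q * T * T) + 4 * p * q * (p * q + T)
    - 2 * p * q * (p * p + q * q) * T

/-- The remainder of `c10`. -/
def r10 (p q T : ℝ) : ℝ :=
  q + (p + q * T) * T * (p * p + q * q + p * p * q * q * T * T)
    - 2 * q * (1 + p * p * T * T) * (1 + p * q * T)
    - 2 * p * (1 + q * q * T * T) * (p * q + T) + 4 * p * q * T * (q + p * T)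

lemma n00_bound (hp : |p| ≤ 1) (hq : |q| ≤ 1) (hT : |T| ≤ 1 / 25)
    (hJ : |J - T| ≤ |T| ^ 3) :
    |n00 p q T J| ≤ 2 * |p * q| * T ^ 2 + 20 * |T| ^ 3 := by
  have hpq := bd_mul hp hq
  have hpp := bd_mul hp hp
  have hqq := bd_mul hq hq
  have hP : |p * p * T * T| ≤ 1 * 1 * (1 / 25) * (1 / 25) := bd_mul (bd_mul hpp hT) hT
  have hQ : |q * q * T * T| ≤ 1 * 1 * (1 / 25) * (1 / 25) := bd_mul (bd_mul hqq hT) hT
  have h1 := bd_const (zero_le_one' ℝ)
  have h2 := bd_const (zero_le_two (α := ℝ))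
  have h4 := bd_const (show (0:ℝ) ≤ 4 by norm_num)
  have hr : |r00 p q T| ≤ 12 := by
    refine le_trans (bd_sub (bd_add (bd_sub (bd_sub
      (bd_mul (bd_add (bd_add hpp hqq) (bd_mul (bd_mul (bd_mul (bd_mul hpp hq) hq) hT) hT))
        (bd_add h1 (bd_mul hpq hT)))
      (bd_mul (bd_mul (bd_mul h2 hq) hq) (bd_add h1 hP)))
      (bd_mul (bd_mul (bd_mul h2 hp) hp) (bd_add h1 hQ)))
      (bd_mul (bd_mul (bd_mul h4 hp) hq) (bd_add hpq hT)))
      (bd_mul (bd_mul (bd_mul (bd_mul h2 hp) hq) (bd_add hpp hqq)) hT)) (by norm_num)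
  have ec : c00 p q T = 1 - 3 * (p * q) * T + T * T * r00 p q T := by
    simp only [c00, r00]; ring
  have hc : |c00 p q T| ≤ 2 := by
    rw [ec]
    refine le_trans (bd_add (bd_sub h1 (bd_mul (bd_mul (bd_const (show (0:ℝ) ≤ 3 by norm_num))
      hpq) hT)) (bd_mul (bd_mul hT hT) hr)) (by norm_num)
  have e : n00 p q T J = -2 * (p * q) * T ^ 2
      + T ^ 3 * ((p * p + q * q - p * p * q * q * T * T) * (1 - p * q * T) + r00 p q T - c00 p q T)
      + (J - T) * ((1 - T * T) * c00 p q T) := by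
    simp only [n00, pq2, c00, r00]; ring
  have hT3 : |T ^ 3| ≤ |T| ^ 3 := (abs_pow T 3).le
  have hB : |(p * p + q * q - p * p * q * q * T * T) * (1 - p * q * T) + r00 p q T - c00 p q T|
      ≤ 17 := by
    refine le_trans (bd_sub (bd_add (bd_mul
      (bd_sub (bd_add hpp hqq) (bd_mul (bd_mul (bd_mul (bd_mul hpp hq) hq) hT) hT))
      (bd_sub h1 (bd_mul hpq hT))) hr) hc) (by norm_num)
  have hC : |(1 - T * T) * c00 p q T| ≤ 3 :=
    le_trans (bd_mul (bd_sub h1 (bd_mul hT hT)) hc) (by norm_num)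
  rw [e]
  have hm : |(-2:ℝ) * (p * q) * T ^ 2| ≤ 2 * |p * q| * T ^ 2 := by
    rw [abs_mul, abs_mul, abs_of_nonneg (sq_nonneg T)]
    norm_num
  refine le_trans (bd_add (bd_add hm (bd_mul hT3 hB)) (bd_mul hJ hC)) ?_
  linarith

lemma n10_bound (hp : |p| ≤ 1) (hq : |q| ≤ 1) (hT : |T| ≤ 1 / 25)
    (hJ : |J - T| ≤ |T| ^ 3) : |n10 p q T J| ≤ 11 * T ^ 2 := by
  have hpq := bd_mul hp hq
  have hpp := bd_mul hp hp
  have hqq := bd_mul hq hq
  have hP : |p * p * T * T| ≤ 1 * 1 * (1 / 25) * (1 / 25) := bd_mul (bd_mul hpp hT) hT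
  have hQ : |q * q * T * T| ≤ 1 * 1 * (1 / 25) * (1 / 25) := bd_mul (bd_mul hqq hT) hT
  have h1 := bd_const (zero_le_one' ℝ)
  have h2 := bd_const (zero_le_two (α := ℝ))
  have h4 := bd_const (show (0:ℝ) ≤ 4 by norm_num)
  have hr : |r10 p q T| ≤ 7 := by
    refine le_trans (bd_add (bd_sub (bd_sub (bd_add hq
      (bd_mul (bd_mul (bd_add hp (bd_mul hq hT)) hT)
        (bd_add (bd_add hpp hqq) (bd_mul (bd_mul (bd_mul (bd_mul hpp hq) hq) hT) hT))))
      (bd_mul (bd_mul (bd_mul h2 hq) (bd_add h1 hP)) (bd_add h1 (bd_mul hpq hT))))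
      (bd_mul (bd_mul (bd_mul h2 hp) (bd_add h1 hQ)) (bd_add hpq hT)))
      (bd_mul (bd_mul (bd_mul (bd_mul h4 hp) hq) hT) (bd_add hq (bd_mul hp hT)))) (by norm_num)
  have ec : c10 p q T = p + T * r10 p q T := by
    simp only [c10, r10]; ring
  have hc : |c10 p q T| ≤ 2 := by
    rw [ec]
    exact le_trans (bd_add hp (bd_mul hT hr)) (by norm_num)
  have e : n10 p q T J = T ^ 2 * (q + r10 p q T - T * c10 p q T
      - (-p + q * T) * T * (p * p + q * q - p * p * q * q * T * T))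
      + (J - T) * ((1 - T * T) * c10 p q T) := by
    simp only [n10, pq2, c10, r10]; ring
  have hB : |q + r10 p q T - T * c10 p q T
      - (-p + q * T) * T * (p * p + q * q - p * p * q * q * T * T)| ≤ 9 := by
    refine le_trans (bd_sub (bd_sub (bd_add hq hr) (bd_mul hT hc))
      (bd_mul (bd_mul (bd_add (abs_neg p ▸ hp) (bd_mul hq hT)) hT)
        (bd_sub (bd_add hpp hqq) (bd_mul (bd_mul (bd_mul (bd_mul hpp hq) hq) hT) hT))))
      (by norm_num)
  have hC : |(1 - T * T) * c10 p q T| ≤ 3 :=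
    le_trans (bd_mul (bd_sub h1 (bd_mul hT hT)) hc) (by norm_num)
  have hcube : |T| ^ 3 ≤ T ^ 2 * (1 / 25) := by
    rw [pow_succ, sq_abs]
    exact mul_le_mul_of_nonneg_left hT (sq_nonneg T)
  rw [e]
  refine le_trans (bd_add (bd_mul (abs_of_nonneg (sq_nonneg T)).le hB) (bd_mul hJ hC)) ?_
  nlinarith [sq_nonneg T]

lemma n11_lower (hp : |p| ≤ 1) (hq : |q| ≤ 1) (hT : |T| ≤ 1 / 25)
    (hJ : |J - T| ≤ |T| ^ 3) : 4 / 5 ≤ n11 p q T J := by
  have hpq := bd_mul hp hq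
  have hP : |p * p * T * T| ≤ 1 * 1 * (1 / 25) * (1 / 25) :=
    bd_mul (bd_mul (bd_mul hp hp) hT) hT
  have hQ : |q * q * T * T| ≤ 1 * 1 * (1 / 25) * (1 / 25) :=
    bd_mul (bd_mul (bd_mul hq hq) hT) hT
  have h1 := bd_const (zero_le_one' ℝ)
  have h2 := bd_const (zero_le_two (α := ℝ))
  have h4 := bd_const (show (0:ℝ) ≤ 4 by norm_num)
  have hJ' : |J| ≤ 1 / 20 := by
    have : |T| ^ 3 ≤ (1 / 25) ^ 3 := pow_le_pow_left₀ (abs_nonneg T) hT 3
    calc |J| = |(J - T) + T| := by rw [sub_add_cancel]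
      _ ≤ |T| ^ 3 + 1 / 25 := bd_add hJ hT
      _ ≤ _ := by linarith
  have hc : |c11 p q T| ≤ 2 := by
    refine le_trans (bd_add (bd_sub (bd_sub
      (bd_mul (bd_mul (bd_add hpq hT) (bd_add h1 hQ)) (bd_add h1 hP))
      (bd_mul (bd_mul (bd_mul (bd_mul h2 hq) hT) (bd_add h1 hP)) (bd_add hq (bd_mul hp hT))))
      (bd_mul (bd_mul (bd_mul (bd_mul h2 hp) hT) (bd_add h1 hQ)) (bd_add hp (bd_mul hq hT))))
      (bd_mul (bd_mul (bd_mul (bd_mul (bd_mul h4 hp) hq) hT) hT) (bd_add h1 (bd_mul hpq hT))))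
      (by norm_num)
  have hA : |p * q * T * T * T| ≤ 1 / 1000 :=
    le_trans (bd_mul (bd_mul (bd_mul hpq hT) hT) hT) (by norm_num)
  have hE : |J * (1 - T * T) * c11 p q T| ≤ 3 / 25 :=
    le_trans (bd_mul (bd_mul hJ' (bd_sub h1 (bd_mul hT hT))) hc) (by norm_num)
  have hP' := abs_le.1 hP
  have hQ' := abs_le.1 hQ
  have hA' := abs_le.1 hA
  have hE' := abs_le.1 hE
  have h5 : (99:ℝ) / 100 ≤ pq2 p q T := by
    rw [pq2]
    nlinarith [mul_le_mul (show (998:ℝ) / 1000 ≤ 1 - p * p * T * T by linarith)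
      (show (998:ℝ) / 1000 ≤ 1 - q * q * T * T by linarith) (by norm_num) (by linarith)]
  have h6 := mul_le_mul (show (999:ℝ) / 1000 ≤ 1 - p * q * T * T * T by linarith) h5
    (by norm_num) (by linarith)
  rw [n11]
  linarith

lemma bracket_bound (hp : |p| ≤ 1) (hq : |q| ≤ 1) (hT : |T| ≤ 1 / 25)
    (hJ : |J - T| ≤ |T| ^ 3) (a b c : ℝ) :
    -(2 * |p * q| * T ^ 2 * (|a + q * b| * |c + p * b|)
        + 20 * |T| ^ 3 * ((a + q * b) ^ 2 + (c + p * b) ^ 2))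
      ≤ n00 p q T J * (a * c) + n10 p q T J * (a * b) + n10 q p T J * (c * b)
          + n11 p q T J * b ^ 2 := by
  have b00 := n00_bound hp hq hT hJ
  have b10 := n10_bound hp hq hT hJ
  have b01 : |n10 q p T J| ≤ 11 * T ^ 2 := n10_bound hq hp hT hJ
  have b11 := n11_lower hp hq hT hJ
  set N := n00 p q T J
  set L := n10 p q T J - p * N with hL
  set L' := n10 q p T J - q * N with hL'
  set M := n11 p q T J - q * n10 p q T J - p * n10 q p T J + p * q * N with hM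
  set A := a + q * b with hA
  set C := c + p * b with hC
  have hT2 : T ^ 2 ≤ 1 / 625 := by nlinarith [abs_nonneg T, sq_abs T]
  have hcube : |T| ^ 3 ≤ T ^ 2 * (1 / 25) := by
    rw [pow_succ, sq_abs]
    exact mul_le_mul_of_nonneg_left hT (sq_nonneg T)
  have hpq : |p * q| ≤ 1 := le_trans (bd_mul hp hq) (by norm_num)
  have hN : |N| ≤ 3 * T ^ 2 := by nlinarith [sq_nonneg T]
  have hLb : |L| ≤ 14 * T ^ 2 := le_trans (bd_sub b10 (bd_mul hp hN)) (by linarith)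
  have hLb' : |L'| ≤ 14 * T ^ 2 := le_trans (bd_sub b01 (bd_mul hq hN)) (by linarith)
  have hMb : 3 / 4 ≤ M := by
    have h1 := abs_le.1 (bd_mul hq b10)
    have h2 := abs_le.1 (bd_mul hp b01)
    have h3 := abs_le.1 (bd_mul (bd_mul hp hq) hN)
    rw [hM]
    linarith
  have e : N * (a * c) + n10 p q T J * (a * b) + n10 q p T J * (c * b) + n11 p q T J * b ^ 2
      = N * (A * C) + L * (A * b) + L' * (C * b) + M * b ^ 2 := by
    rw [hA, hC, hL, hL', hM]; ring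
  rw [e]
  have h1 : -((2 * |p * q| * T ^ 2 + 20 * |T| ^ 3) * (|A| * |C|)) ≤ N * (A * C) := by
    have := neg_abs_le (N * (A * C))
    rw [abs_mul, abs_mul] at this
    nlinarith [mul_le_mul_of_nonneg_right b00 (mul_nonneg (abs_nonneg A) (abs_nonneg C))]
  have hT4 : T ^ 4 ≤ |T| ^ 3 * (1 / 25) := by
    have : T ^ 4 = |T| ^ 3 * |T| := by rw [← pow_succ, Even.pow_abs ⟨2, rfl⟩]
    rw [this]
    exact mul_le_mul_of_nonneg_left hT (by positivity)
  have h2 : -(8 * |T| ^ 3 * (A ^ 2 + C ^ 2)) ≤ L * (A * b) + L' * (C * b) + M * b ^ 2 := by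
    have q1 : L ^ 2 ≤ 8 * |T| ^ 3 := by
      calc L ^ 2 = |L| ^ 2 := (sq_abs L).symm
        _ ≤ (14 * T ^ 2) ^ 2 := pow_le_pow_left₀ (abs_nonneg L) hLb 2
        _ = 196 * T ^ 4 := by ring
        _ ≤ _ := by nlinarith [pow_nonneg (abs_nonneg T) 3]
    have q2 : L' ^ 2 ≤ 8 * |T| ^ 3 := by
      calc L' ^ 2 = |L'| ^ 2 := (sq_abs L').symm
        _ ≤ (14 * T ^ 2) ^ 2 := pow_le_pow_left₀ (abs_nonneg L') hLb' 2
        _ = 196 * T ^ 4 := by ring
        _ ≤ _ := by nlinarith [pow_nonneg (abs_nonneg T) 3]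
    have r1 := sq_nonneg (L * A + b / 2)
    have r2 := sq_nonneg (L' * C + b / 2)
    have r3 := mul_le_mul_of_nonneg_right hMb (sq_nonneg b)
    have r4 := mul_le_mul_of_nonneg_right q1 (sq_nonneg A)
    have r5 := mul_le_mul_of_nonneg_right q2 (sq_nonneg C)
    have r6 := sq_nonneg b
    linarith
  have h3 : |A| * |C| ≤ (A ^ 2 + C ^ 2) / 2 := by
    nlinarith [sq_nonneg (|A| - |C|), sq_abs A, sq_abs C]
  have r7 := mul_le_mul_of_nonneg_left h3 (show (0:ℝ) ≤ 20 * |T| ^ 3 by positivity)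
  have r8 := mul_nonneg (show (0:ℝ) ≤ |T| ^ 3 by positivity) (add_nonneg (sq_nonneg A) (sq_nonneg C))
  linarith

lemma one_sub_sq_nonneg (hp : |p| ≤ 1) : 0 ≤ 1 - p * p := by
  nlinarith [abs_mul_abs_self p, abs_nonneg p]

lemma var_lower (hp : |p| ≤ 1) (hT : |T| ≤ 1 / 25) {t : ℝ} (ht : t = 1 ∨ t = -1) :
    4 / 5 * (1 - p * p) ≤ (1 + p * T * t) * cvar p T t := by
  have ht1 : |t| ≤ 1 := by rcases ht with rfl | rfl <;> norm_num
  have hd := denom_pos hp hT ht1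
  have hV := one_sub_sq_nonneg hp
  rw [cvar_eq hp hT ht, show (1 + p * T * t) * ((1 - p * p) * (1 - T * T) / (1 + p * T * t) ^ 2)
    = (1 - p * p) * ((1 - T * T) / (1 + p * T * t)) by field_simp, mul_comm (4 / 5 : ℝ)]
  refine mul_le_mul_of_nonneg_left ?_ hV
  rw [le_div_iff₀ hd]
  have := abs_le.1 (bd_mul (bd_mul hp hT) ht1)
  have := abs_le.1 (bd_mul hT hT)
  linarith

lemma sec_lower (hp : |p| ≤ 1) (hT : |T| ≤ 1 / 25) {t : ℝ} (ht : t = 1 ∨ t = -1) :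
    (1 - p * p) ^ 2 * p ^ 2 - 12 * |T| * (1 - p * p)
      ≤ (1 + p * T * t) * (cvar p T t ^ 2 * cmean p T t ^ 2) := by
  have ht1 : |t| ≤ 1 := by rcases ht with rfl | rfl <;> norm_num
  have hd := denom_pos hp hT ht1
  have hV := one_sub_sq_nonneg hp
  set D := 1 + p * T * t with hD
  have key : (p ^ 2 - 12 * |T|) * D ^ 5 ≤ (1 - T * T) ^ 2 * (p + T * t) ^ 2 := by
    rcases le_or_gt (p ^ 2) (12 * |T|) with h | h
    · exact le_trans (mul_nonpos_of_nonpos_of_nonneg (by linarith) (by positivity)) (by positivity)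
    have hD1 : D ≤ 1 + |T| := by
      have h' : |p * T * t| ≤ |T| := le_trans (bd_mul (bd_mul hp le_rfl) ht1) (by ring_nf; rfl)
      have := le_abs_self (p * T * t)
      rw [hD]; linarith
    have hD5 : D ^ 5 ≤ 1 + 6 * |T| := by
      calc D ^ 5 ≤ (1 + |T|) ^ 5 := pow_le_pow_left₀ hd.le hD1 5
        _ ≤ _ := by nlinarith [abs_nonneg T, pow_nonneg (abs_nonneg T) 2, pow_nonneg (abs_nonneg T) 3,
            pow_nonneg (abs_nonneg T) 4, mul_le_mul_of_nonneg_left hT (abs_nonneg T)]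
    have hl : p ^ 2 - 2 * |T| ≤ (p + T * t) ^ 2 := by
      have h' : |2 * p * (T * t)| ≤ 2 * |T| :=
        le_trans (bd_mul (bd_mul (bd_const zero_le_two) hp) (bd_mul le_rfl ht1)) (by linarith)
      have := neg_abs_le (2 * p * (T * t))
      nlinarith [sq_nonneg (T * t)]
    have hp2 : p ^ 2 ≤ 1 := by nlinarith
    have hTT : T * T ≤ |T| * (1 / 25) := by
      rw [← abs_mul_abs_self T]
      exact mul_le_mul_of_nonneg_left hT (abs_nonneg T)
    calc (p ^ 2 - 12 * |T|) * D ^ 5 ≤ (p ^ 2 - 12 * |T|) * (1 + 6 * |T|) :=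
          mul_le_mul_of_nonneg_left hD5 (by linarith)
      _ ≤ (1 - 2 * (T * T)) * (p ^ 2 - 2 * |T|) := by nlinarith [abs_nonneg T]
      _ ≤ (1 - T * T) ^ 2 * (p + T * t) ^ 2 := by
          refine mul_le_mul ?_ hl (by linarith [abs_nonneg T]) (sq_nonneg _)
          nlinarith [sq_nonneg (T * T)]
  rw [cvar_eq hp hT ht, cmean, show D * (((1 - p * p) * (1 - T * T) / D ^ 2) ^ 2 *
      ((p + T * t) / D) ^ 2) = (1 - p * p) ^ 2 * ((1 - T * T) ^ 2 * (p + T * t) ^ 2 / D ^ 5) by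
    field_simp]
  have h5 : p ^ 2 - 12 * |T| ≤ (1 - T * T) ^ 2 * (p + T * t) ^ 2 / D ^ 5 :=
    (le_div_iff₀ (by positivity)).2 key
  have h6 := mul_le_mul_of_nonneg_left h5 (sq_nonneg (1 - p * p))
  nlinarith [mul_nonneg (abs_nonneg T) (mul_nonneg hV (show (0:ℝ) ≤ 1 - (1 - p * p) by nlinarith))]

lemma weight_nonneg (hq : |q| ≤ 1) (t : ℝ) (ht : t = 1 ∨ t = -1) : 0 ≤ 1 + q * t := by
  have := abs_le.1 hq
  rcases ht with rfl | rfl <;> linarith

/-- Weight of the second spin against the squared gradient. -/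
def wsq (q a b t : ℝ) : ℝ := (1 + q * t) * (a + t * b) ^ 2

lemma wsq_nonneg (hq : |q| ≤ 1) (a b t : ℝ) (ht : t = 1 ∨ t = -1) : 0 ≤ wsq q a b t :=
  mul_nonneg (weight_nonneg hq t ht) (sq_nonneg _)

lemma dirTerm_eq (a b : ℝ) :
    dirTerm p q T a b = 2 * wsq q a b 1 * ((1 + p * T * 1) * cvar p T 1)
      + 2 * wsq q a b (-1) * ((1 + p * T * (-1)) * cvar p T (-1)) := by
  simp only [dirTerm, sum4, om, wsq]; ring

lemma secTerm_eq (a b : ℝ) :
    secTerm p q T a b = 2 * wsq q a b 1 * ((1 + p * T * 1) * (cvar p T 1 ^ 2 * cmean p T 1 ^ 2))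
      + 2 * wsq q a b (-1) *
        ((1 + p * T * (-1)) * (cvar p T (-1) ^ 2 * cmean p T (-1) ^ 2)) := by
  simp only [secTerm, sum4, om, wsq]; ring

lemma wsq_jensen (hq : |q| ≤ 1) (a b : ℝ) :
    2 * (a + q * b) ^ 2 ≤ wsq q a b 1 + wsq q a b (-1) := by
  have := mul_nonneg (one_sub_sq_nonneg hq) (sq_nonneg b)
  simp only [wsq]
  linarith

lemma mix_dir {w₁ w₂ X V D₁ D₂ : ℝ} (hw₁ : 0 ≤ w₁) (hw₂ : 0 ≤ w₂) (hV : 0 ≤ V)
    (hX : 2 * X ≤ w₁ + w₂) (h₁ : 4 / 5 * V ≤ D₁) (h₂ : 4 / 5 * V ≤ D₂) :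
    4 * (V * X) ≤ 5 / 4 * (2 * w₁ * D₁ + 2 * w₂ * D₂) := by
  have r₀ := mul_le_mul_of_nonneg_left hX hV
  have r₁ := mul_le_mul_of_nonneg_left h₁ hw₁
  have r₂ := mul_le_mul_of_nonneg_left h₂ hw₂
  linarith

lemma mix_sec {w₁ w₂ X V Y τ D₁ D₂ S₁ S₂ : ℝ} (hw₁ : 0 ≤ w₁) (hw₂ : 0 ≤ w₂) (hY : 0 ≤ Y)
    (hτ : 0 ≤ τ) (hX : 2 * X ≤ w₁ + w₂) (h₁ : 4 / 5 * V ≤ D₁) (h₂ : 4 / 5 * V ≤ D₂)
    (g₁ : Y - 12 * τ * V ≤ S₁) (g₂ : Y - 12 * τ * V ≤ S₂) :
    4 * (Y * X) ≤ 2 * w₁ * S₁ + 2 * w₂ * S₂ + 15 * τ * (2 * w₁ * D₁ + 2 * w₂ * D₂) := by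
  have r₀ := mul_le_mul_of_nonneg_left hX hY
  have r₁ := mul_le_mul_of_nonneg_left h₁ (mul_nonneg hw₁ hτ)
  have r₂ := mul_le_mul_of_nonneg_left h₂ (mul_nonneg hw₂ hτ)
  have r₃ := mul_le_mul_of_nonneg_left g₁ hw₁
  have r₄ := mul_le_mul_of_nonneg_left g₂ hw₂
  linarith

lemma cvar_mem (hp : |p| ≤ 1) (hT : |T| ≤ 1 / 25) {t : ℝ} (ht : t = 1 ∨ t = -1) :
    0 ≤ cvar p T t ∧ cvar p T t ≤ 1 ∧ cmean p T t ^ 2 ≤ 1 := by
  have hv0 : 0 ≤ cvar p T t := by
    rw [cvar_eq hp hT ht]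
    exact div_nonneg (mul_nonneg (one_sub_sq_nonneg hp)
      (one_sub_sq_nonneg (hT.trans (by norm_num)))) (sq_nonneg _)
  have hv0' := hv0
  rw [cvar] at hv0'
  refine ⟨hv0, ?_, by linarith⟩
  rw [cvar]
  linarith [sq_nonneg (cmean p T t)]

lemma sec_le_var (hp : |p| ≤ 1) (hT : |T| ≤ 1 / 25) {t : ℝ} (ht : t = 1 ∨ t = -1) :
    (1 + p * T * t) * (cvar p T t ^ 2 * cmean p T t ^ 2) ≤ (1 + p * T * t) * cvar p T t := by
  have ht1 : |t| ≤ 1 := by rcases ht with rfl | rfl <;> norm_num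
  obtain ⟨hv0, hv1, hm⟩ := cvar_mem hp hT ht
  refine mul_le_mul_of_nonneg_left ?_ (denom_pos hp hT ht1).le
  calc cvar p T t ^ 2 * cmean p T t ^ 2 ≤ cvar p T t ^ 2 * 1 :=
        mul_le_mul_of_nonneg_left hm (sq_nonneg _)
    _ = cvar p T t * cvar p T t := by ring
    _ ≤ cvar p T t * 1 := mul_le_mul_of_nonneg_left hv1 hv0
    _ = cvar p T t := mul_one _

lemma dir_lower (hp : |p| ≤ 1) (hq : |q| ≤ 1) (hT : |T| ≤ 1 / 25) (a b : ℝ) :
    4 * ((1 - p * p) * (a + q * b) ^ 2) ≤ 5 / 4 * dirTerm p q T a b := by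
  rw [dirTerm_eq]
  exact mix_dir (wsq_nonneg hq a b 1 (Or.inl rfl)) (wsq_nonneg hq a b (-1) (Or.inr rfl))
    (one_sub_sq_nonneg hp) (wsq_jensen hq a b) (var_lower hp hT (Or.inl rfl))
    (var_lower hp hT (Or.inr rfl))

lemma second_lower (hp : |p| ≤ 1) (hq : |q| ≤ 1) (hT : |T| ≤ 1 / 25) (a b : ℝ) :
    4 * ((1 - p * p) ^ 2 * p ^ 2 * (a + q * b) ^ 2)
      ≤ secTerm p q T a b + 15 * |T| * dirTerm p q T a b := by
  rw [dirTerm_eq, secTerm_eq]
  exact mix_sec (wsq_nonneg hq a b 1 (Or.inl rfl)) (wsq_nonneg hq a b (-1) (Or.inr rfl))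
    (by positivity) (abs_nonneg T) (wsq_jensen hq a b) (var_lower hp hT (Or.inl rfl))
    (var_lower hp hT (Or.inr rfl)) (sec_lower hp hT (Or.inl rfl)) (sec_lower hp hT (Or.inr rfl))

lemma second_le_dir (hp : |p| ≤ 1) (hq : |q| ≤ 1) (hT : |T| ≤ 1 / 25) (a b : ℝ) :
    secTerm p q T a b ≤ dirTerm p q T a b := by
  rw [dirTerm_eq, secTerm_eq]
  exact add_le_add
    (mul_le_mul_of_nonneg_left (sec_le_var hp hT (Or.inl rfl))
      (mul_nonneg zero_le_two (wsq_nonneg hq a b 1 (Or.inl rfl))))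
    (mul_le_mul_of_nonneg_left (sec_le_var hp hT (Or.inr rfl))
      (mul_nonneg zero_le_two (wsq_nonneg hq a b (-1) (Or.inr rfl))))

lemma combine {W Vp Vq τ Xp Xq P Yp Yq S R : ℝ} (hτ : 0 ≤ τ) (hτ1 : τ ≤ 1 / 25)
    (hW : W ≤ (1 + 5 * τ ^ 2) * (Vp * Vq))
    (hP : 0 ≤ P) (hXp : 0 ≤ Xp) (hXq : 0 ≤ Xq)
    (h2 : Vp * Vq * (2 * P) ≤ Yp + Yq) (h3 : Vp * Vq * (Xp + Xq) ≤ Vp * Xp + Vq * Xq)
    (hd : 4 * (Vp * Xp) + 4 * (Vq * Xq) ≤ 5 / 4 * S)
    (he : 4 * Yp + 4 * Yq ≤ R + 15 * τ * S) (hR : R ≤ S) (hS : 0 ≤ S) :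
    4 * W * (2 * P * τ ^ 2 + 20 * τ ^ 3 * (Xp + Xq)) ≤ τ ^ 2 * R + 60 * τ ^ 3 * S := by
  have hτ2 : 0 ≤ τ ^ 2 := sq_nonneg τ
  have hτ3 : 0 ≤ τ ^ 3 := pow_nonneg hτ 3
  have hX : 0 ≤ 2 * P * τ ^ 2 + 20 * τ ^ 3 * (Xp + Xq) := by positivity
  have key : 4 * (Vp * Vq) * (2 * P * τ ^ 2 + 20 * τ ^ 3 * (Xp + Xq))
      ≤ τ ^ 2 * R + 40 * τ ^ 3 * S := by
    have a1 := mul_le_mul_of_nonneg_left h2 hτ2
    have a2 := mul_le_mul_of_nonneg_left he hτ2
    have a3 := mul_le_mul_of_nonneg_left h3 hτ3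
    have a4 := mul_le_mul_of_nonneg_left hd hτ3
    linarith
  have h5 := mul_le_mul_of_nonneg_left key (show (0:ℝ) ≤ 1 + 5 * τ ^ 2 by positivity)
  have h6 := mul_le_mul_of_nonneg_right hW hX
  have u0 : 0 ≤ τ ^ 3 * S := mul_nonneg hτ3 hS
  have u1 := mul_le_mul_of_nonneg_left hR (mul_nonneg hτ2 hτ2)
  have u2 := mul_le_mul_of_nonneg_right hτ1 u0
  have hτ2' : τ ^ 2 ≤ 1 / 625 := (pow_le_pow_left₀ hτ hτ1 2).trans (by norm_num)
  have u3 := mul_le_mul_of_nonneg_right hτ2' u0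
  linarith

lemma pq2_bound (hp : |p| ≤ 1) (hq : |q| ≤ 1) (hT : |T| ≤ 1 / 25) :
    0 < pq2 p q T ∧ (1 - T * T) ≤ (1 + 5 * T ^ 2) * pq2 p q T ^ 2 := by
  have hp2 : p * p ≤ 1 := by linarith [one_sub_sq_nonneg hp]
  have hq2 : q * q ≤ 1 := by linarith [one_sub_sq_nonneg hq]
  have hT2 : T ^ 2 ≤ 1 / 625 := by
    rw [← sq_abs]
    exact (pow_le_pow_left₀ (abs_nonneg T) hT 2).trans (by norm_num)
  have hA : 1 - T ^ 2 ≤ 1 - p * p * T * T := by
    have := mul_le_mul_of_nonneg_right hp2 (sq_nonneg T)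
    linarith
  have hB : 1 - T ^ 2 ≤ 1 - q * q * T * T := by
    have := mul_le_mul_of_nonneg_right hq2 (sq_nonneg T)
    linarith
  have hAB : (1 - T ^ 2) * (1 - T ^ 2) ≤ pq2 p q T :=
    mul_le_mul hA hB (by linarith) (by linarith)
  have hsq : 1 - 2 * T ^ 2 ≤ (1 - T ^ 2) * (1 - T ^ 2) := by
    have := mul_self_nonneg (T ^ 2)
    linarith
  refine ⟨by linarith, ?_⟩
  have h4 : (1 - 2 * T ^ 2) ^ 2 ≤ pq2 p q T ^ 2 :=
    pow_le_pow_left₀ (by linarith) (hsq.trans hAB) 2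
  have h5 := mul_le_mul_of_nonneg_left h4 (show (0:ℝ) ≤ 1 + 5 * T ^ 2 by positivity)
  have h6 := mul_le_mul_of_nonneg_left hT2 (mul_nonneg (sq_nonneg T) zero_le_one)
  have h7 := mul_nonneg (sq_nonneg T) (mul_self_nonneg (T ^ 2))
  linarith

/-- The two-spin inequality. -/
theorem pair_inequality (hp : |p| ≤ 1) (hq : |q| ≤ 1) (hT : |T| ≤ 1 / 25)
    (hJ : |J - T| ≤ |T| ^ 3) (a b c : ℝ) :
    -(T ^ 2 * (secTerm p q T a b + secTerm q p T c b))
        - 60 * |T| ^ 3 * (dirTerm p q T a b + dirTerm q p T c b)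
      ≤ crossTerm p q T a b c + J * gradTerm p q T a b c := by
  rw [key_identity hp hq hT]
  set W := (1 - p * p) * (1 - q * q) * (1 - T * T) / pq2 p q T ^ 2 with hW
  have hVp := one_sub_sq_nonneg hp
  have hVq := one_sub_sq_nonneg hq
  obtain ⟨hd0, hd1⟩ := pq2_bound hp hq hT
  have hW0 : 0 ≤ W := by
    rw [hW]
    exact div_nonneg (mul_nonneg (mul_nonneg hVp hVq)
      (one_sub_sq_nonneg (hT.trans (by norm_num)))) (sq_nonneg _)
  have hW1 : W ≤ (1 + 5 * |T| ^ 2) * ((1 - p * p) * (1 - q * q)) := by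
    rw [sq_abs, hW, div_le_iff₀ (pow_pos hd0 2)]
    exact (mul_le_mul_of_nonneg_left hd1 (mul_nonneg hVp hVq)).trans (le_of_eq (by ring))
  have h2 : (1 - p * p) * (1 - q * q) * (2 * (|p * q| * (|a + q * b| * |c + p * b|)))
      ≤ (1 - p * p) ^ 2 * p ^ 2 * (a + q * b) ^ 2
        + (1 - q * q) ^ 2 * q ^ 2 * (c + p * b) ^ 2 := by
    calc (1 - p * p) * (1 - q * q) * (2 * (|p * q| * (|a + q * b| * |c + p * b|)))
        = 2 * ((1 - p * p) * |p| * |a + q * b|) * ((1 - q * q) * |q| * |c + p * b|) := by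
          rw [abs_mul]; ring
      _ ≤ ((1 - p * p) * |p| * |a + q * b|) ^ 2 + ((1 - q * q) * |q| * |c + p * b|) ^ 2 :=
          two_mul_le_add_sq _ _
      _ = _ := by rw [mul_pow, mul_pow, mul_pow, mul_pow, sq_abs, sq_abs, sq_abs, sq_abs]
  have h3 : (1 - p * p) * (1 - q * q) * ((a + q * b) ^ 2 + (c + p * b) ^ 2)
      ≤ (1 - p * p) * (a + q * b) ^ 2 + (1 - q * q) * (c + p * b) ^ 2 := by
    have := mul_nonneg (mul_nonneg hVp (mul_self_nonneg q)) (sq_nonneg (a + q * b))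
    have := mul_nonneg (mul_nonneg hVq (mul_self_nonneg p)) (sq_nonneg (c + p * b))
    linarith
  have hd := add_le_add (dir_lower hp hq hT a b) (dir_lower hq hp hT c b)
  have hS0 : 0 ≤ dirTerm p q T a b + dirTerm q p T c b := by
    have := mul_nonneg hVp (sq_nonneg (a + q * b))
    have := mul_nonneg hVq (sq_nonneg (c + p * b))
    linarith
  have key := combine (τ := |T|) (S := dirTerm p q T a b + dirTerm q p T c b)
    (R := secTerm p q T a b + secTerm q p T c b) (abs_nonneg T) hT hW1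
    (by positivity) (sq_nonneg (a + q * b)) (sq_nonneg (c + p * b)) h2 h3 (by linarith)
    (by linarith [second_lower hp hq hT a b, second_lower hq hp hT c b])
    (add_le_add (second_le_dir hp hq hT a b) (second_le_dir hq hp hT c b)) hS0
  refine le_trans ?_ (mul_le_mul_of_nonneg_left (bracket_bound hp hq hT hJ a b c)
    (mul_nonneg (by norm_num) hW0))
  rw [sq_abs] at key
  linarith

end Vale.Agent.P150
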