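import Mathlib
import Vale.Agent.P150.Pair

/-!
# Spectral gap of heat-bath dynamics for Ising measures with small couplings

A deterministic bound: if the couplings are uniformly small, the squared row sums are at most
`B`, the coupling matrix is at most `Λ` as a quadratic form and `2 B ≤ Λ`, then the Poincare
constant of heat-bath dynamics is at least `1 - Λ - 120 δ B`, for every external field.
-/

namespace Vale.Agent.P150

open Finset Function Real

variable {ι : Type*} [Fintype ι] [DecidableEq ι]

/-- The value in `{-1, 1}` of a Boolean spin. -/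
def spin (b : Bool) : ℝ := if b then 1 else -1

/-- Hamiltonian with couplings `J` and external field `h`. -/
noncomputable def energy (J : ι → ι → ℝ) (h : ι → ℝ) (x : ι → Bool) : ℝ :=
  (∑ i, ∑ j, J i j * spin (x i) * spin (x j)) / 2 + ∑ i, h i * spin (x i)

/-- Gibbs probability of a configuration. -/
noncomputable def gibbs (J : ι → ι → ℝ) (h : ι → ℝ) (x : ι → Bool) : ℝ :=
  exp (energy J h x) / ∑ y, exp (energy J h y)

/-- Expectation with respect to weights `ρ`. -/
def mean (ρ f : (ι → Bool) → ℝ) : ℝ := ∑ x, ρ x * f x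

/-- Variance with respect to weights `ρ`. -/
def variance (ρ f : (ι → Bool) → ℝ) : ℝ := mean ρ fun x => (f x - mean ρ f) ^ 2

/-- Conditional expectation given all spins but `i`. -/
noncomputable def resample (ρ : (ι → Bool) → ℝ) (i : ι) (f : (ι → Bool) → ℝ)
    (x : ι → Bool) : ℝ :=
  (ρ (update x i true) * f (update x i true) + ρ (update x i false) * f (update x i false)) /
    (ρ (update x i true) + ρ (update x i false))

/-- Heat-bath generator: the sum over sites of (resampling minus identity). -/
noncomputable def generator (ρ f : (ι → Bool) → ℝ) (x : ι → Bool) : ℝ :=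
  ∑ i, (resample ρ i f x - f x)

/-- Dirichlet form of the heat-bath dynamics. -/
noncomputable def dirichlet (ρ f : (ι → Bool) → ℝ) : ℝ :=
  - mean ρ fun x => f x * generator ρ f x

/-! ### Summation over configurations -/

lemma spin_cases (b : Bool) : spin b = 1 ∨ spin b = -1 := by
  cases b <;> simp [spin]

lemma sum_update (i : ι) (G : (ι → Bool) → ℝ) :
    ∑ x, ∑ b, G (update x i b) = 2 * ∑ x, G x := by
  let e : (ι → Bool) × Bool → (ι → Bool) × Bool := fun z => (update z.1 i z.2, z.1 i)
  have he : Involutive e := by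
    rintro ⟨x, b⟩
    simp [e]
  rw [← Fintype.sum_prod_type' (fun x b => G (update x i b))]
  rw [show (∑ z : (ι → Bool) × Bool, G (update z.1 i z.2))
    = ∑ z : (ι → Bool) × Bool, G z.1 from Equiv.sum_comp (Involutive.toPerm e he) (fun z => G z.1)]
  rw [Fintype.sum_prod_type, mul_sum]
  simp [two_mul]

lemma sum_update_two (i j : ι) (G : (ι → Bool) → ℝ) :
    ∑ x, ∑ a, ∑ b, G (update (update x i a) j b) = 4 * ∑ x, G x := by
  rw [sum_update i (fun y => ∑ b, G (update y j b)), sum_update j G]
  ring

/-! ### Local quantities -/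

/-- Effective field at `i`. -/
def localField (J : ι → ι → ℝ) (h : ι → ℝ) (i : ι) (x : ι → Bool) : ℝ :=
  h i + ∑ j, J i j * spin (x j)

/-- Conditional mean of spin `i`. -/
noncomputable def localMean (J : ι → ι → ℝ) (h : ι → ℝ) (i : ι) (x : ι → Bool) : ℝ :=
  tanh (localField J h i x)

/-- Conditional variance of spin `i`. -/
noncomputable def localVar (J : ι → ι → ℝ) (h : ι → ℝ) (i : ι) (x : ι → Bool) : ℝ :=
  1 - localMean J h i x ^ 2

/-- Discrete derivative in direction `i`. -/
noncomputable def deriv2 (i : ι) (f : (ι → Bool) → ℝ) (x : ι → Bool) : ℝ :=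
  (f (update x i true) - f (update x i false)) / 2

/-- `f` minus its conditional expectation given all spins but `i`. -/
noncomputable def resid (J : ι → ι → ℝ) (h : ι → ℝ) (i : ι) (f : (ι → Bool) → ℝ)
    (x : ι → Bool) : ℝ :=
  (spin (x i) - localMean J h i x) * deriv2 i f x

variable {J : ι → ι → ℝ} {h : ι → ℝ}

lemma partition_pos : 0 < ∑ y, exp (energy J h y) :=
  sum_pos (fun y _ => exp_pos _) univ_nonempty

lemma gibbs_pos (x : ι → Bool) : 0 < gibbs J h x := div_pos (exp_pos _) partition_pos

lemma gibbs_sum : ∑ x, gibbs J h x = 1 := by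
  simp only [gibbs]
  rw [← sum_div, div_self partition_pos.ne']

lemma localField_update_self (hdiag : ∀ i, J i i = 0) (i : ι) (x : ι → Bool) (b : Bool) :
    localField J h i (update x i b) = localField J h i x := by
  simp only [localField, add_right_inj]
  refine sum_congr rfl fun j _ => ?_
  rcases eq_or_ne j i with rfl | hj
  · simp [hdiag]
  · rw [update_of_ne hj]

lemma localField_update (i j : ι) (x : ι → Bool) (b : Bool) :
    localField J h i (update x j b)
      = localField J h i x + J i j * (spin b - spin (x j)) := by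
  simp only [localField, add_assoc, add_right_inj]
  rw [← add_sum_erase _ _ (mem_univ j), ← add_sum_erase _ _ (mem_univ j), update_self]
  have : ∑ k ∈ univ.erase j, J i k * spin (update x j b k)
      = ∑ k ∈ univ.erase j, J i k * spin (x k) :=
    sum_congr rfl fun k hk => by rw [update_of_ne (ne_of_mem_erase hk)]
  rw [this]
  ring

lemma energy_update (hsymm : ∀ i j, J i j = J j i) (hdiag : ∀ i, J i i = 0) (i : ι)
    (x : ι → Bool) (b : Bool) :
    energy J h (update x i b) = energy J h x + (spin b - spin (x i)) * localField J h i x := by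
  set d := spin b - spin (x i) with hd
  have hs : ∀ k, spin (update x i b k) = spin (x k) + (if k = i then d else 0) := by
    intro k
    rcases eq_or_ne k i with rfl | hk
    · rw [update_self, if_pos rfl, hd]; ring
    · rw [update_of_ne hk, if_neg hk, add_zero]
  simp only [energy, localField, hs, mul_add, add_mul, mul_ite, ite_mul, mul_zero, zero_mul,
    sum_add_distrib, sum_ite_eq', sum_ite_irrel, sum_const_zero, mem_univ, if_true, hdiag]
  have e : ∑ k, J k i * spin (x k) * d = d * ∑ k, J i k * spin (x k) := by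
    rw [mul_sum]
    exact sum_congr rfl fun k _ => by rw [hsymm k i]; ring
  have e' : ∑ k, J i k * d * spin (x k) = d * ∑ k, J i k * spin (x k) := by
    rw [mul_sum]
    exact sum_congr rfl fun k _ => by ring
  rw [e, e']
  ring

lemma exp_spin_mul (u : ℝ) (b : Bool) :
    exp (spin b * u) = cosh u * (1 + tanh u * spin b) := by
  have hc := (cosh_pos u).ne'
  rw [tanh_eq_sinh_div_cosh]
  cases b
  · simp only [spin, Bool.false_eq_true, if_false]
    rw [neg_one_mul, ← cosh_sub_sinh]
    field_simp
    ring
  · simp only [spin, if_true]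
    rw [one_mul, ← cosh_add_sinh]
    field_simp

lemma gibbs_update (hsymm : ∀ i j, J i j = J j i) (hdiag : ∀ i, J i i = 0) (i : ι)
    (x : ι → Bool) (b : Bool) :
    gibbs J h (update x i b)
      = gibbs J h x * exp (-spin (x i) * localField J h i x) * cosh (localField J h i x)
        * (1 + localMean J h i x * spin b) := by
  rw [localMean, mul_assoc, ← exp_spin_mul, gibbs, gibbs, energy_update hsymm hdiag]
  rw [show exp (energy J h x + (spin b - spin (x i)) * localField J h i x)
    = exp (energy J h x) * exp (-spin (x i) * localField J h i x)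
      * exp (spin b * localField J h i x) by rw [← exp_add, ← exp_add]; ring_nf]
  ring

lemma resample_eq (hsymm : ∀ i j, J i j = J j i) (hdiag : ∀ i, J i i = 0) (i : ι)
    (f : (ι → Bool) → ℝ) (x : ι → Bool) :
    resample (gibbs J h) i f x = ((1 + localMean J h i x) * f (update x i true)
      + (1 - localMean J h i x) * f (update x i false)) / 2 := by
  rw [resample, gibbs_update hsymm hdiag, gibbs_update hsymm hdiag]
  have hK : gibbs J h x * exp (-spin (x i) * localField J h i x) * cosh (localField J h i x)
      ≠ 0 := mul_ne_zero (mul_ne_zero (gibbs_pos x).ne' (exp_pos _).ne') (cosh_pos _).ne'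
  generalize gibbs J h x * exp (-spin (x i) * localField J h i x) * cosh (localField J h i x) = K
    at hK ⊢
  simp only [spin, Bool.false_eq_true, if_false, if_true]
  field_simp
  ring

lemma sub_resample (hsymm : ∀ i j, J i j = J j i) (hdiag : ∀ i, J i i = 0) (i : ι)
    (f : (ι → Bool) → ℝ) (x : ι → Bool) :
    f x - resample (gibbs J h) i f x = resid J h i f x := by
  rw [resample_eq hsymm hdiag, resid, deriv2]
  have hx : x = update x i (x i) := (update_eq_self i x).symm
  cases hb : x i
  · rw [hb] at hx
    rw [← hx]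
    simp only [spin, Bool.false_eq_true, if_false]
    ring
  · rw [hb] at hx
    rw [← hx]
    simp only [spin, if_true]
    ring

lemma deriv2_update_self (i : ι) (f : (ι → Bool) → ℝ) (x : ι → Bool) (b : Bool) :
    deriv2 i f (update x i b) = deriv2 i f x := by
  simp [deriv2]

lemma localMean_update_self (hdiag : ∀ i, J i i = 0) (i : ι) (x : ι → Bool) (b : Bool) :
    localMean J h i (update x i b) = localMean J h i x := by
  rw [localMean, localMean, localField_update_self hdiag]

lemma mean_mul_resid (hsymm : ∀ i j, J i j = J j i) (hdiag : ∀ i, J i i = 0) (i : ι)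
    (f G : (ι → Bool) → ℝ) (hG : ∀ x b, G (update x i b) = G x) :
    mean (gibbs J h) (fun x => G x * resid J h i f x) = 0 := by
  have h2 := sum_update i (fun x => gibbs J h x * (G x * resid J h i f x))
  have h0 : ∀ x : ι → Bool, ∑ b, gibbs J h (update x i b) *
      (G (update x i b) * resid J h i f (update x i b)) = 0 := by
    intro x
    simp only [resid, hG, update_self, deriv2_update_self, localMean_update_self hdiag,
      gibbs_update hsymm hdiag, Fintype.sum_bool, spin, Bool.false_eq_true, if_false, if_true]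
    ring
  simp only [h0, sum_const_zero] at h2
  simp only [mean]
  linarith

lemma mean_mul_sub_resample (hsymm : ∀ i j, J i j = J j i) (hdiag : ∀ i, J i i = 0) (i : ι)
    (f g : (ι → Bool) → ℝ) :
    mean (gibbs J h) (fun x => f x * resid J h i g x)
      = mean (gibbs J h) (fun x => resid J h i f x * resid J h i g x) := by
  have h0 := mean_mul_resid (h := h) hsymm hdiag i g (resample (gibbs J h) i f)
    (fun x b => by simp [resample])
  simp only [mean] at *
  rw [← sub_eq_zero, ← sum_sub_distrib, ← h0]
  refine sum_congr rfl fun x _ => ?_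
  rw [← sub_resample hsymm hdiag i f x]
  ring

lemma dirichlet_eq (hsymm : ∀ i j, J i j = J j i) (hdiag : ∀ i, J i i = 0)
    (f : (ι → Bool) → ℝ) :
    dirichlet (gibbs J h) f = ∑ i, mean (gibbs J h) fun x => resid J h i f x ^ 2 := by
  simp only [sq, ← mean_mul_sub_resample hsymm hdiag]
  simp only [dirichlet, mean, generator, mul_sum, ← sum_neg_distrib]
  rw [sum_comm]
  refine sum_congr rfl fun i _ => sum_congr rfl fun x _ => ?_
  rw [← sub_resample hsymm hdiag]
  ring

/-! ### Scalar facts about `tanh` -/

lemma tanh_add' (u w : ℝ) : tanh (u + w) = (tanh u + tanh w) / (1 + tanh u * tanh w) := by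
  have hu := (cosh_pos u).ne'
  have hw := (cosh_pos w).ne'
  simp only [tanh_eq_sinh_div_cosh, sinh_add, cosh_add]
  field_simp

lemma tanh_mul_spin (v : ℝ) (b : Bool) : tanh (v * spin b) = tanh v * spin b := by
  cases b <;> simp [spin]

lemma hasDerivAt_tanh' (x : ℝ) : HasDerivAt tanh (1 - tanh x ^ 2) x := by
  have h := (hasDerivAt_sinh x).div (hasDerivAt_cosh x) (cosh_pos x).ne'
  have e : (fun y => sinh y / cosh y) = tanh := funext fun y => (tanh_eq_sinh_div_cosh y).symm
  simp only [Pi.div_def, e] at h
  refine h.congr_deriv ?_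
  rw [tanh_eq_sinh_div_cosh]
  field_simp

lemma tanh_bounds {x : ℝ} (hx : 0 ≤ x) : tanh x ≤ x ∧ x - x ^ 3 / 3 ≤ tanh x := by
  have h1 : Monotone fun y => y - tanh y :=
    monotone_of_hasDerivAt_nonneg
      (fun y => (hasDerivAt_id y).sub (hasDerivAt_tanh' y))
      (fun y => by simp only [Pi.zero_apply]; nlinarith [sq_nonneg (tanh y)])
  have g1 := h1 hx
  simp only [tanh_zero, sub_zero] at g1
  have hb : ∀ y, |tanh y| ≤ |y| := by
    intro y
    rcases le_total 0 y with hy | hy
    · have := h1 hy
      simp only [tanh_zero, sub_zero] at this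
      have ht : 0 ≤ tanh y := by
        rw [tanh_eq_sinh_div_cosh]
        exact div_nonneg (sinh_nonneg_iff.2 hy) (cosh_pos y).le
      rw [abs_of_nonneg ht, abs_of_nonneg hy]
      linarith
    · have := h1 hy
      simp only [tanh_zero, sub_zero] at this
      have ht : tanh y ≤ 0 := by
        rw [tanh_eq_sinh_div_cosh]
        exact div_nonpos_of_nonpos_of_nonneg (sinh_nonpos_iff.2 hy) (cosh_pos y).le
      rw [abs_of_nonpos ht, abs_of_nonpos hy]
      linarith
  have h2 : Monotone fun y => y ^ 3 / 3 - (y - tanh y) :=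
    monotone_of_hasDerivAt_nonneg
      (fun y => ((hasDerivAt_pow 3 y).div_const 3).sub
        ((hasDerivAt_id y).sub (hasDerivAt_tanh' y)))
      (fun y => by
        have := sq_le_sq.2 (hb y)
        simp only [Pi.zero_apply]
        norm_num
        linarith)
  have g2 := h2 hx
  simp only [tanh_zero, sub_zero] at g2
  norm_num at g2
  exact ⟨by linarith, by linarith⟩

lemma tanh_small {v : ℝ} (hv : |v| ≤ 1 / 30) :
    |tanh v| ≤ 1 / 25 ∧ |tanh v| ≤ |v| ∧ |v - tanh v| ≤ |tanh v| ^ 3 := by
  have key : ∀ x : ℝ, 0 ≤ x → x ≤ 1 / 30 →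
      |tanh x| ≤ 1 / 25 ∧ |tanh x| ≤ |x| ∧ |x - tanh x| ≤ |tanh x| ^ 3 := by
    intro x hx hx'
    obtain ⟨h1, h2⟩ := tanh_bounds hx
    have hc : x ^ 3 ≤ x * (1 / 900) := by
      have := mul_le_mul_of_nonneg_left (pow_le_pow_left₀ hx hx' 2) hx
      linarith
    have ht : 0 ≤ tanh x := by linarith
    rw [abs_of_nonneg ht, abs_of_nonneg hx, abs_of_nonneg (sub_nonneg.2 h1)]
    refine ⟨by linarith, h1, ?_⟩
    have h3 : x * (999 / 1000) ≤ tanh x := by linarith
    have h4 := pow_le_pow_left₀ (mul_nonneg hx (by norm_num)) h3 3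
    have := pow_nonneg hx 3
    linarith
  rcases le_total 0 v with hp | hp
  · exact key v hp (by rwa [abs_of_nonneg hp] at hv)
  · have := key (-v) (by linarith) (by rwa [abs_of_nonpos hp] at hv)
    rw [tanh_neg, abs_neg, abs_neg, ← neg_sub', abs_neg] at this
    exact this

/-! ### The inequality for one pair of sites -/

/-- Weight of `A i ^ 2` in second order. -/
noncomputable def secWeight (J : ι → ι → ℝ) (h : ι → ℝ) (i : ι) (f : (ι → Bool) → ℝ)
    (x : ι → Bool) : ℝ :=
  localVar J h i x ^ 2 * localMean J h i x ^ 2 * deriv2 i f x ^ 2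

/-- Dirichlet density at `i`. -/
noncomputable def dirWeight (J : ι → ι → ℝ) (h : ι → ℝ) (i : ι) (f : (ι → Bool) → ℝ)
    (x : ι → Bool) : ℝ :=
  localVar J h i x * deriv2 i f x ^ 2

/-- Coupling density at a pair. -/
noncomputable def gradWeight (J : ι → ι → ℝ) (h : ι → ℝ) (i j : ι) (f : (ι → Bool) → ℝ)
    (x : ι → Bool) : ℝ :=
  localVar J h i x * deriv2 i f x * (localVar J h j x * deriv2 j f x)

lemma pair_local (hsymm : ∀ i j, J i j = J j i) (hdiag : ∀ i, J i i = 0) {i j : ι} (hij : i ≠ j)
    (hsmall : |J i j| ≤ 1 / 30) (f : (ι → Bool) → ℝ) (x : ι → Bool) :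
    ∑ a, ∑ b, gibbs J h (update (update x i a) j b) *
      (-(J i j ^ 2 * (secWeight J h i f (update (update x i a) j b)
            + secWeight J h j f (update (update x i a) j b)))
        - 60 * |J i j| ^ 3 * (dirWeight J h i f (update (update x i a) j b)
            + dirWeight J h j f (update (update x i a) j b)))
    ≤ ∑ a, ∑ b, gibbs J h (update (update x i a) j b) *
      (resid J h i f (update (update x i a) j b) * resid J h j f (update (update x i a) j b)
        + J i j * gradWeight J h i j f (update (update x i a) j b)) := by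
  set Y : Bool → Bool → ι → Bool := fun a b => update (update x i a) j b with hY
  obtain ⟨hT, hTv, hvT⟩ := tanh_small hsmall
  set v := J i j with hv
  set T := tanh v
  set u := localField J h i x - v * spin (x j) with hu
  set w := localField J h j x - v * spin (x i) with hw
  set p := tanh u
  set q := tanh w
  have hcom : ∀ a b, Y a b = update (update x j b) i a := fun a b =>
    update_comm hij a b x |>.symm ▸ rfl
  have hfi : ∀ a b, localField J h i (Y a b) = u + v * spin b := by
    intro a b
    rw [hY]
    simp only []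
    rw [localField_update i j, localField_update_self hdiag, update_of_ne hij.symm, hu]
    ring
  have hfj : ∀ a b, localField J h j (Y a b) = w + v * spin a := by
    intro a b
    rw [hY]
    simp only []
    rw [localField_update_self hdiag, localField_update j i, hw, hv, hsymm j i]
    ring
  have hmi : ∀ a b, localMean J h i (Y a b) = cmean p T (spin b) := by
    intro a b
    rw [localMean, hfi, tanh_add', tanh_mul_spin, cmean, mul_assoc]
  have hmj : ∀ a b, localMean J h j (Y a b) = cmean q T (spin a) := by
    intro a b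
    rw [localMean, hfj, tanh_add', tanh_mul_spin, cmean, mul_assoc]
  obtain ⟨K, hK, hμ⟩ : ∃ K, 0 < K ∧
      ∀ a b, gibbs J h (Y a b) = K * om p q T (spin a) (spin b) := by
    refine ⟨gibbs J h x * exp (-spin (x i) * u - spin (x j) * w - v * (spin (x i) * spin (x j)))
      * (cosh u * cosh w * cosh v), mul_pos (mul_pos (gibbs_pos x) (exp_pos _))
        (mul_pos (mul_pos (cosh_pos _) (cosh_pos _)) (cosh_pos _)), fun a b => ?_⟩
    have e : energy J h (Y a b) = energy J h x + (-spin (x i) * u - spin (x j) * w
        - v * (spin (x i) * spin (x j)))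
        + (spin a * u + spin b * w + spin a * spin b * v) := by
      rw [hY]
      simp only []
      rw [energy_update hsymm hdiag, energy_update hsymm hdiag, localField_update j i,
        update_of_ne hij.symm, hu, hw, hv, hsymm j i]
      ring
    have e3 : exp (spin a * spin b * v) = cosh v * (1 + T * spin a * spin b) := by
      cases a <;> cases b <;> simp only [spin, Bool.false_eq_true, if_false, if_true]
      · have := exp_spin_mul v true
        simp only [spin, if_true] at this
        norm_num at this ⊢
        exact this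
      · have := exp_spin_mul v false
        simp only [spin, Bool.false_eq_true, if_false] at this
        norm_num at this ⊢
        exact this
      · have := exp_spin_mul v false
        simp only [spin, Bool.false_eq_true, if_false] at this
        norm_num at this ⊢
        exact this
      · have := exp_spin_mul v true
        simp only [spin, if_true] at this
        norm_num at this ⊢
        exact this
    simp only [gibbs]
    rw [e, exp_add, exp_add (spin a * u + spin b * w), exp_add (spin a * u),
      exp_spin_mul u a, exp_spin_mul w b, e3, exp_add (energy J h x), om]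
    ring
  have hDi : ∀ a b, deriv2 i f (Y a b) = (f (Y true b) - f (Y false b)) / 2 := by
    intro a b
    rw [hcom a b, deriv2_update_self, hcom true b, hcom false b, deriv2]
  have hDj : ∀ a b, deriv2 j f (Y a b) = (f (Y a true) - f (Y a false)) / 2 := by
    intro a b
    simp only [hY, deriv2_update_self]
    rfl
  set β := (f (Y true true) - f (Y true false) - f (Y false true) + f (Y false false)) / 4 with hβ
  set α := (f (Y true true) + f (Y true false) - f (Y false true) - f (Y false false)) / 4 with hα
  set γ := (f (Y true true) - f (Y true false) + f (Y false true) - f (Y false false)) / 4 with hγ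
  have hAi : ∀ a b, deriv2 i f (Y a b) = α + spin b * β := by
    intro a b
    rw [hDi, hα, hβ]
    cases b <;> simp only [spin, Bool.false_eq_true, if_false, if_true] <;> ring
  have hAj : ∀ a b, deriv2 j f (Y a b) = γ + spin a * β := by
    intro a b
    rw [hDj, hγ, hβ]
    cases a <;> simp only [spin, Bool.false_eq_true, if_false, if_true] <;> ring
  have hsi : ∀ a b, spin (Y a b i) = spin a := fun a b => by
    simp [hY, update_of_ne hij]
  have hsj : ∀ a b, spin (Y a b j) = spin b := fun a b => by simp [hY]
  have hp : |p| ≤ 1 := (abs_tanh_lt_one u).le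
  have hq : |q| ≤ 1 := (abs_tanh_lt_one w).le
  have main := pair_inequality hp hq hT hvT α β γ
  have hsec : ∀ p' q' a' b' : ℝ, |p'| ≤ 1 → |q'| ≤ 1 → 0 ≤ secTerm p' q' T a' b' := by
    intro p' q' a' b' hp' hq'
    rw [secTerm_eq]
    have := denom_pos hp' hT (t := 1) (by norm_num)
    have := denom_pos hp' hT (t := -1) (by norm_num)
    have := wsq_nonneg hq' a' b' 1 (Or.inl rfl)
    have := wsq_nonneg hq' a' b' (-1) (Or.inr rfl)
    positivity
  have hdir : 0 ≤ dirTerm p q T α β + dirTerm q p T γ β := by
    have := mul_nonneg (one_sub_sq_nonneg hp) (sq_nonneg (α + q * β))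
    have := mul_nonneg (one_sub_sq_nonneg hq) (sq_nonneg (γ + p * β))
    have := dir_lower hp hq hT α β
    have := dir_lower hq hp hT γ β
    linarith
  have hT2 : T ^ 2 ≤ v ^ 2 := sq_le_sq.2 hTv
  have hT3 : |T| ^ 3 ≤ |v| ^ 3 := pow_le_pow_left₀ (abs_nonneg _) hTv 3
  have m1 := mul_le_mul_of_nonneg_right hT2
    (add_nonneg (hsec p q α β hp hq) (hsec q p γ β hq hp))
  have m2 := mul_le_mul_of_nonneg_right hT3 hdir
  have main' : -(v ^ 2 * (secTerm p q T α β + secTerm q p T γ β))
      - 60 * |v| ^ 3 * (dirTerm p q T α β + dirTerm q p T γ β)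
      ≤ crossTerm p q T α β γ + v * gradTerm p q T α β γ := by linarith
  have main'' := mul_le_mul_of_nonneg_left main' hK.le
  refine le_trans (le_of_eq ?_) (main''.trans (le_of_eq ?_))
  · simp only [show ∀ a b, update (update x i a) j b = Y a b from fun a b => rfl, secWeight,
      dirWeight, localVar, hμ, hmi, hmj, hAi, hAj, Fintype.sum_bool]
    simp only [secTerm, dirTerm, sum4, om, cvar, spin, Bool.false_eq_true, if_false, if_true]
    ring
  · simp only [show ∀ a b, update (update x i a) j b = Y a b from fun a b => rfl, gradWeight,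
      resid, localVar, hμ, hmi, hmj, hAi, hAj, hsi, hsj, Fintype.sum_bool]
    simp only [crossTerm, gradTerm, sum4, om, cvar, spin, Bool.false_eq_true, if_false, if_true]
    ring

lemma pair_global (hsymm : ∀ i j, J i j = J j i) (hdiag : ∀ i, J i i = 0) {δ : ℝ} (hδ : 0 ≤ δ)
    (hδ' : δ ≤ 1 / 30) (hsmall : ∀ i j, |J i j| ≤ δ) (f : (ι → Bool) → ℝ) (i j : ι) :
    (if i = j then mean (gibbs J h) (dirWeight J h i f) else 0)
      - J i j * mean (gibbs J h) (gradWeight J h i j f)
      - J i j ^ 2 * (mean (gibbs J h) (secWeight J h i f) + mean (gibbs J h) (secWeight J h j f))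
      - 60 * δ * J i j ^ 2 *
        (mean (gibbs J h) (dirWeight J h i f) + mean (gibbs J h) (dirWeight J h j f))
    ≤ mean (gibbs J h) fun x => resid J h i f x * resid J h j f x := by
  rcases eq_or_ne i j with rfl | hij
  · have e : mean (gibbs J h) (dirWeight J h i f)
        = mean (gibbs J h) fun x => resid J h i f x * resid J h i f x := by
      have h2 := sum_update i (fun x => gibbs J h x *
        (dirWeight J h i f x - resid J h i f x * resid J h i f x))
      have h0 : ∀ x : ι → Bool, ∑ b, gibbs J h (update x i b) *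
          (dirWeight J h i f (update x i b)
            - resid J h i f (update x i b) * resid J h i f (update x i b)) = 0 := by
        intro x
        simp only [resid, dirWeight, localVar, update_self, deriv2_update_self,
          localMean_update_self hdiag, gibbs_update hsymm hdiag, Fintype.sum_bool, spin,
          Bool.false_eq_true, if_false, if_true]
        ring
      rw [sum_congr rfl fun x _ => h0 x, sum_const_zero] at h2
      simp only [mul_sub, sum_sub_distrib] at h2
      simp only [mean]
      linarith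
    rw [if_pos rfl, hdiag, ← e]
    simp
  · rw [if_neg hij]
    have h30 := (hsmall i j).trans hδ'
    have H := sum_le_sum fun x (_ : x ∈ univ) => pair_local (h := h) hsymm hdiag hij h30 f x
    have L1 := sum_update_two i j fun y => gibbs J h y *
      (-(J i j ^ 2 * (secWeight J h i f y + secWeight J h j f y))
        - 60 * |J i j| ^ 3 * (dirWeight J h i f y + dirWeight J h j f y))
    have L2 := sum_update_two i j fun y => gibbs J h y *
      (resid J h i f y * resid J h j f y + J i j * gradWeight J h i j f y)
    rw [L1, L2] at H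
    have H' := le_of_mul_le_mul_left H (by norm_num : (0:ℝ) < 4)
    simp only [mul_add, mul_sub, mul_neg, sum_add_distrib, sum_sub_distrib, sum_neg_distrib,
      mul_left_comm (gibbs J h _) (J i j ^ 2), mul_left_comm (gibbs J h _) (60 * |J i j| ^ 3),
      mul_left_comm (gibbs J h _) (J i j), ← mul_sum] at H'
    have h3 : |J i j| ^ 3 ≤ δ * J i j ^ 2 := by
      rw [pow_succ, sq_abs, mul_comm δ]
      exact mul_le_mul_of_nonneg_left (hsmall i j) (sq_nonneg _)
    have hd : ∀ k, 0 ≤ mean (gibbs J h) (dirWeight J h k f) := fun k =>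
      sum_nonneg fun x _ => mul_nonneg (gibbs_pos x).le <| mul_nonneg
        (sub_nonneg.2 (tanh_sq_lt_one _).le) (sq_nonneg _)
    have m := mul_le_mul_of_nonneg_right h3 (add_nonneg (hd i) (hd j))
    simp only [mean] at *
    linarith

/-! ### Global inequalities -/

lemma dirichlet_eq_dirWeight (hsymm : ∀ i j, J i j = J j i) (hdiag : ∀ i, J i i = 0)
    (f : (ι → Bool) → ℝ) :
    dirichlet (gibbs J h) f = ∑ i, mean (gibbs J h) (dirWeight J h i f) := by
  rw [dirichlet_eq hsymm hdiag]
  refine sum_congr rfl fun i _ => ?_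
  have h2 := sum_update i (fun x => gibbs J h x *
    (resid J h i f x ^ 2 - dirWeight J h i f x))
  have h0 : ∀ x : ι → Bool, ∑ b, gibbs J h (update x i b) *
      (resid J h i f (update x i b) ^ 2 - dirWeight J h i f (update x i b)) = 0 := by
    intro x
    simp only [resid, dirWeight, localVar, update_self, deriv2_update_self,
      localMean_update_self hdiag, gibbs_update hsymm hdiag, Fintype.sum_bool, spin,
      Bool.false_eq_true, if_false, if_true]
    ring
  rw [sum_congr rfl fun x _ => h0 x, sum_const_zero] at h2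
  simp only [mul_sub, sum_sub_distrib] at h2
  simp only [mean]
  linarith

/-- Hypotheses on the coupling matrix. -/
def GoodCoupling (J : ι → ι → ℝ) (δ B Λ : ℝ) : Prop :=
  (∀ i j, J i j = J j i) ∧ (∀ i, J i i = 0) ∧ (0 ≤ δ ∧ δ ≤ 1 / 30) ∧
  (∀ i j, |J i j| ≤ δ) ∧ (∀ i, ∑ j, J i j ^ 2 ≤ B) ∧
  (∀ a : ι → ℝ, ∑ i, ∑ j, J i j * a i * a j ≤ Λ * ∑ i, a i ^ 2) ∧ 2 * B ≤ Λ

theorem bochner_of_local {δ B Λ : ℝ} (hsymm : ∀ i j, J i j = J j i) (hdiag : ∀ i, J i i = 0)
    (hδ : 0 ≤ δ) (hδ' : δ ≤ 1 / 30) (hsmall : ∀ i j, |J i j| ≤ δ)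
    (hrow : ∀ i, ∑ j, J i j ^ 2 ≤ B) (f : (ι → Bool) → ℝ)
    (hx : ∀ x, (∑ i, ∑ j, J i j * gradWeight J h i j f x) + 2 * B * ∑ i, secWeight J h i f x
      ≤ Λ * ∑ i, dirWeight J h i f x) :
    (1 - Λ - 120 * δ * B) * dirichlet (gibbs J h) f
      ≤ mean (gibbs J h) fun x => generator (gibbs J h) f x ^ 2 := by
  set D : ι → ℝ := fun i => mean (gibbs J h) (dirWeight J h i f) with hD
  set R : ι → ℝ := fun i => mean (gibbs J h) (secWeight J h i f) with hR
  have hv : ∀ i x, 0 ≤ localVar J h i x ∧ localVar J h i x ≤ 1 := fun i x =>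
    ⟨sub_nonneg.2 (tanh_sq_lt_one _).le, sub_le_self _ (sq_nonneg _)⟩
  have hD0 : ∀ i, 0 ≤ D i := fun i => sum_nonneg fun x _ =>
    mul_nonneg (gibbs_pos x).le (mul_nonneg (hv i x).1 (sq_nonneg _))
  have hR0 : ∀ i, 0 ≤ R i := fun i => sum_nonneg fun x _ =>
    mul_nonneg (gibbs_pos x).le (by rw [secWeight]; positivity)
  have hexp : mean (gibbs J h) (fun x => generator (gibbs J h) f x ^ 2)
      = ∑ i, ∑ j, mean (gibbs J h) fun x => resid J h i f x * resid J h j f x := by
    have e : ∀ x, generator (gibbs J h) f x = -∑ i, resid J h i f x := fun x => by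
      rw [generator, ← sum_neg_distrib]
      exact sum_congr rfl fun i _ => by rw [← sub_resample hsymm hdiag]; ring
    simp only [mean, e, neg_sq]
    simp only [sq, mul_sum, sum_mul]
    rw [sum_comm]
    exact sum_congr rfl fun i _ => sum_comm.trans (sum_congr rfl fun j _ => sum_congr rfl fun x _ => by ring)
  rw [dirichlet_eq_dirWeight hsymm hdiag, hexp]
  have step := sum_le_sum fun i (_ : i ∈ univ) => sum_le_sum fun j (_ : j ∈ univ) =>
    pair_global (h := h) hsymm hdiag hδ hδ' hsmall f i j
  refine le_trans ?_ step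
  simp only [sum_sub_distrib, sum_ite_eq, mem_univ, if_true]
  have hsum : ∀ (Q : ι → ℝ), (∀ i, 0 ≤ Q i) →
      ∑ i, ∑ j, J i j ^ 2 * (Q i + Q j) ≤ 2 * B * ∑ i, Q i := by
    intro Q hQ
    simp only [mul_add, sum_add_distrib]
    have e : ∑ i, ∑ j, J i j ^ 2 * Q j = ∑ i, ∑ j, J i j ^ 2 * Q i := by
      rw [sum_comm]
      exact sum_congr rfl fun i _ => sum_congr rfl fun j _ => by rw [hsymm j i]
    rw [e]
    have : ∑ i, ∑ j, J i j ^ 2 * Q i ≤ ∑ i, B * Q i := sum_le_sum fun i _ => by
      rw [← sum_mul]; exact mul_le_mul_of_nonneg_right (hrow i) (hQ i)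
    rw [← mul_sum] at this
    linarith
  have s1 := hsum R hR0
  have s2 := mul_le_mul_of_nonneg_left (hsum D hD0) (show (0:ℝ) ≤ 60 * δ by positivity)
  have e2 : ∑ i, ∑ j, 60 * δ * J i j ^ 2 * (D i + D j)
      = 60 * δ * ∑ i, ∑ j, J i j ^ 2 * (D i + D j) := by
    simp only [mul_sum, mul_assoc]
  have key : ∑ i, ∑ j, J i j * mean (gibbs J h) (gradWeight J h i j f) + 2 * B * ∑ i, R i
      ≤ Λ * ∑ i, D i := by
    have := sum_le_sum fun x (_ : x ∈ univ) =>
      mul_le_mul_of_nonneg_left (hx x) (gibbs_pos (J := J) (h := h) x).le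
    simp only [mul_add, sum_add_distrib, mul_sum] at this
    have c1 : ∑ i, ∑ j, J i j * mean (gibbs J h) (gradWeight J h i j f)
        = ∑ x, ∑ i, ∑ j, gibbs J h x * (J i j * gradWeight J h i j f x) := by
      simp only [mean, mul_sum]
      rw [eq_comm, sum_comm]
      refine sum_congr rfl fun i _ => ?_
      rw [sum_comm]
      exact sum_congr rfl fun j _ => sum_congr rfl fun x _ => by ring
    have c2 : ∀ (c : ℝ) (G : ι → (ι → Bool) → ℝ), c * ∑ i, mean (gibbs J h) (G i)
        = ∑ x, ∑ i, gibbs J h x * (c * G i x) := by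
      intro c G
      simp only [mean, mul_sum]
      rw [sum_comm]
      exact sum_congr rfl fun i _ => sum_congr rfl fun x _ => by ring
    rw [c1, hR, hD, c2, c2]
    exact this
  have hs : ∑ i, ∑ j, J i j ^ 2 * (R i + R j) + ∑ i, ∑ j, 60 * δ * J i j ^ 2 * (D i + D j)
      ≤ 2 * B * ∑ i, R i + 120 * δ * B * ∑ i, D i := by
    rw [e2]; linarith
  linarith

theorem bochner {δ B Λ : ℝ} (hJ : GoodCoupling J δ B Λ) (f : (ι → Bool) → ℝ) :
    (1 - Λ - 120 * δ * B) * dirichlet (gibbs J h) f
      ≤ mean (gibbs J h) fun x => generator (gibbs J h) f x ^ 2 := by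
  obtain ⟨hsymm, hdiag, ⟨hδ, hδ'⟩, hsmall, hrow, hop, hB2⟩ := hJ
  have hv : ∀ i x, 0 ≤ localVar J h i x ∧ localVar J h i x ≤ 1 := fun i x =>
    ⟨sub_nonneg.2 (tanh_sq_lt_one _).le, sub_le_self _ (sq_nonneg _)⟩
  refine bochner_of_local hsymm hdiag hδ hδ' hsmall hrow f fun x => ?_
  have := hop fun i => localVar J h i x * deriv2 i f x
  simp only [mul_assoc] at this
  refine le_trans (add_le_add (this.trans' (le_of_eq ?_)) le_rfl) ?_
  · simp only [gradWeight, mul_assoc]
  rw [mul_sum, mul_sum, mul_sum, ← sum_add_distrib]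
  refine sum_le_sum fun i _ => ?_
  obtain ⟨v0, v1⟩ := hv i x
  have hm : localMean J h i x ^ 2 = 1 - localVar J h i x := by rw [localVar]; ring
  rw [secWeight, dirWeight, hm]
  have hA := sq_nonneg (deriv2 i f x)
  have hm0 : 0 ≤ 1 - localVar J h i x := by linarith
  have g1 := mul_le_mul_of_nonneg_right hB2
    (show 0 ≤ localVar J h i x ^ 2 * (1 - localVar J h i x) * deriv2 i f x ^ 2 by positivity)
  have hB0 : 0 ≤ B := (sum_nonneg fun j _ => sq_nonneg _).trans (hrow i)
  have hL0 : 0 ≤ Λ := by linarith
  have g2 := mul_nonneg (mul_nonneg hL0 v0)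
    (mul_nonneg (mul_nonneg hm0 hm0) hA)
  linarith

lemma mean_generator (hsymm : ∀ i j, J i j = J j i) (hdiag : ∀ i, J i i = 0)
    (f : (ι → Bool) → ℝ) : mean (gibbs J h) (generator (gibbs J h) f) = 0 := by
  simp only [mean, generator, mul_sum]
  rw [sum_comm]
  refine sum_eq_zero fun i _ => ?_
  have := mean_mul_resid (h := h) hsymm hdiag i f (fun _ => -1) (fun _ _ => rfl)
  simp only [mean] at this
  rw [← this]
  refine sum_congr rfl fun x _ => ?_
  rw [← sub_resample hsymm hdiag]
  ring

lemma eq_of_deriv2_eq_zero (f : (ι → Bool) → ℝ) (hf : ∀ i x, deriv2 i f x = 0)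
    (x y : ι → Bool) : f x = f y := by
  have step : ∀ (i : ι) (z : ι → Bool) (b : Bool), f (update z i b) = f z := by
    intro i z b
    have e : f (update z i true) = f (update z i false) := by
      have := hf i z
      simp only [deriv2] at this
      linarith
    conv_rhs => rw [← update_eq_self i z]
    cases b <;> cases z i <;> simp [e]
  have : ∀ s : Finset ι, f (fun k => if k ∈ s then y k else x k) = f x := by
    intro s
    induction s using Finset.induction_on with
    | empty => simp
    | @insert a s ha ih =>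
      rw [← ih, ← step a (fun k => if k ∈ s then y k else x k) (y a)]
      congr 1
      funext k
      rcases eq_or_ne k a with rfl | hk <;> simp [*]
  simpa using (this univ).symm

/-- The generator shifted by the projection to constants, as a linear map. -/
noncomputable def shiftedGenerator (J : ι → ι → ℝ) (h : ι → ℝ) :
    ((ι → Bool) → ℝ) →ₗ[ℝ] ((ι → Bool) → ℝ) where
  toFun f x := mean (gibbs J h) f - generator (gibbs J h) f x
  map_add' f g := by
    funext x
    simp only [mean, generator, resample, Pi.add_apply, mul_add, add_div, sum_add_distrib,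
      sum_sub_distrib]
    ring
  map_smul' c f := by
    funext x
    simp only [mean, generator, resample, Pi.smul_apply, smul_eq_mul, RingHom.id_apply, mul_sub,
      mul_sum]
    congr 1
    · exact sum_congr rfl fun y _ => by ring
    · exact sum_congr rfl fun i _ => by ring

lemma shiftedGenerator_surjective (hsymm : ∀ i j, J i j = J j i) (hdiag : ∀ i, J i i = 0) :
    Surjective (shiftedGenerator J h) := by
  apply LinearMap.injective_iff_surjective.1
  rw [← LinearMap.ker_eq_bot, LinearMap.ker_eq_bot']
  intro f hf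
  have hx : ∀ x, mean (gibbs J h) f - generator (gibbs J h) f x = 0 := fun x => congrFun hf x
  have hm : mean (gibbs J h) f = 0 := by
    have := mean_generator (h := h) hsymm hdiag f
    simp only [mean] at this hx ⊢
    have h2 := sum_congr rfl fun x (_ : x ∈ univ) => congrArg (gibbs J h x * ·) (hx x)
    simp only [mul_sub, mul_zero, sum_const_zero, sum_sub_distrib] at h2
    rw [← sum_mul, gibbs_sum] at h2
    linarith
  have hd : dirichlet (gibbs J h) f = 0 := by
    simp only [dirichlet, mean]
    rw [neg_eq_zero]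
    refine sum_eq_zero fun x _ => ?_
    have := hx x
    rw [hm] at this
    rw [show generator (gibbs J h) f x = 0 by linarith]
    ring
  rw [dirichlet_eq_dirWeight hsymm hdiag] at hd
  have hz : ∀ i x, deriv2 i f x = 0 := by
    intro i x
    have hpos : ∀ k y, 0 < localVar J h k y := fun k y => sub_pos.2 (tanh_sq_lt_one _)
    have hn : ∀ k y, 0 ≤ gibbs J h y * dirWeight J h k f y := fun k y =>
      mul_nonneg (gibbs_pos y).le (mul_nonneg (hpos k y).le (sq_nonneg _))
    have h1 := (sum_eq_zero_iff_of_nonneg fun k _ => sum_nonneg fun y _ => hn k y).1 hd i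
      (mem_univ i)
    have h2 := (sum_eq_zero_iff_of_nonneg fun y _ => hn i y).1 h1 x (mem_univ x)
    simpa [dirWeight, (gibbs_pos (J := J) (h := h) x).ne', (hpos i x).ne'] using h2
  funext x
  have hc := fun y => eq_of_deriv2_eq_zero f hz y x
  simp only [mean, hc, ← sum_mul, gibbs_sum, one_mul] at hm
  simpa using hm

/-- The Poincare inequality follows from the integrated curvature bound. -/
theorem gap_of_bochner {κ : ℝ} (hsymm : ∀ i j, J i j = J j i) (hdiag : ∀ i, J i i = 0)
    (hκ : 0 < κ) (hb : ∀ g, κ * dirichlet (gibbs J h) g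
      ≤ mean (gibbs J h) fun x => generator (gibbs J h) g x ^ 2) (f : (ι → Bool) → ℝ) :
    κ * variance (gibbs J h) f ≤ dirichlet (gibbs J h) f := by
  set μ := gibbs J h with hμ
  set F : (ι → Bool) → ℝ := fun x => f x - mean μ f with hF
  have hF0 : mean μ F = 0 := by
    simp only [hF, mean, mul_sub, sum_sub_distrib, ← sum_mul, hμ, gibbs_sum, one_mul, sub_self]
  obtain ⟨g, hg⟩ := shiftedGenerator_surjective (h := h) hsymm hdiag F
  have hgx : ∀ x, mean μ g - generator μ g x = F x := fun x => congrFun hg x
  have hg0 : mean μ g = 0 := by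
    have h1 := mean_generator (h := h) hsymm hdiag g
    simp only [mean, ← hμ] at h1 hF0 ⊢
    have h2 := sum_congr rfl fun x (_ : x ∈ univ) => congrArg (μ x * ·) (hgx x)
    simp only [mul_sub, sum_sub_distrib, mean] at h2
    rw [← sum_mul, hμ, gibbs_sum, one_mul] at h2
    rw [hμ] at h1 hF0 ⊢
    linarith
  have hgF : ∀ x, generator μ g x = -F x := fun x => by linarith [hgx x]
  have hres : ∀ i x, resid J h i F x = resid J h i f x := fun i x => by
    simp only [resid, deriv2, hF]; ring
  have hdF : dirichlet μ F = dirichlet μ f := by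
    rw [hμ, dirichlet_eq hsymm hdiag, dirichlet_eq hsymm hdiag]
    simp only [hres]
  have hV : variance μ f = ∑ i, mean μ fun x => resid J h i f x * resid J h i g x := by
    have e1 : variance μ f = ∑ x, μ x * (F x * -generator μ g x) := by
      simp only [variance, mean, hgF, hF, neg_neg, sq]
    rw [e1]
    simp only [← hres, hμ, ← mean_mul_sub_resample hsymm hdiag]
    simp only [mean, generator, ← sum_neg_distrib, mul_sum]
    rw [sum_comm]
    refine sum_congr rfl fun i _ => sum_congr rfl fun x _ => ?_
    rw [← sub_resample hsymm hdiag]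
    ring
  replace hb := hb g
  have hg2 : mean μ (fun x => generator μ g x ^ 2) = variance μ f := by
    simp only [variance, mean, hgF, hF, neg_sq]
  rw [hg2] at hb
  set V := variance μ f
  have hcs : V ≤ κ / 2 * dirichlet μ g + 1 / (2 * κ) * dirichlet μ f := by
    rw [hV, hμ, dirichlet_eq hsymm hdiag, dirichlet_eq hsymm hdiag, mul_sum, mul_sum,
      ← sum_add_distrib]
    refine sum_le_sum fun i _ => ?_
    simp only [mean, mul_sum, ← sum_add_distrib]
    refine sum_le_sum fun x _ => ?_
    have := mul_nonneg (div_nonneg (gibbs_pos (J := J) (h := h) x).le (mul_pos two_pos hκ).le)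
      (sq_nonneg (κ * resid J h i g x - resid J h i f x))
    field_simp at this ⊢
    linarith
  have h1 : V / 2 ≤ 1 / (2 * κ) * dirichlet μ f := by linarith
  have h2 := mul_le_mul_of_nonneg_left h1 (mul_pos two_pos hκ).le
  field_simp at h2
  linarith

/-- The deterministic spectral gap bound. -/
theorem gap_of_goodCoupling {δ B Λ : ℝ} (hJ : GoodCoupling J δ B Λ) (h : ι → ℝ)
    (f : (ι → Bool) → ℝ) :
    (1 - Λ - 120 * δ * B) * variance (gibbs J h) f ≤ dirichlet (gibbs J h) f := by
  have hJ' := hJ
  obtain ⟨hsymm, hdiag, -⟩ := hJ'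
  rcases le_or_gt (1 - Λ - 120 * δ * B) 0 with hκ | hκ
  · refine (mul_nonpos_of_nonpos_of_nonneg hκ ?_).trans ?_
    · exact sum_nonneg fun x _ => mul_nonneg (gibbs_pos x).le (sq_nonneg _)
    · rw [dirichlet_eq hsymm hdiag]
      exact sum_nonneg fun i _ => sum_nonneg fun x _ => mul_nonneg (gibbs_pos x).le (sq_nonneg _)
  exact gap_of_bochner hsymm hdiag hκ (bochner hJ) f

/-- At zero field some nonconstant function has Rayleigh quotient at most one. -/
theorem zero_field_witness [Nonempty ι] (hsymm : ∀ i j, J i j = J j i)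
    (hdiag : ∀ i, J i i = 0) :
    ∃ f, 0 < variance (gibbs J 0) f ∧ dirichlet (gibbs J 0) f ≤ variance (gibbs J 0) f := by
  obtain ⟨i⟩ := ‹Nonempty ι›
  refine ⟨fun x => spin (x i), ?_⟩
  have hneg : ∀ x : ι → Bool, gibbs J 0 (fun k => !x k) = gibbs J 0 x := fun x => by
    have : ∀ b, spin (!b) = -spin b := fun b => by cases b <;> simp [spin]
    simp [gibbs, energy, this]
  let e : (ι → Bool) ≃ (ι → Bool) := Involutive.toPerm (fun x k => !x k) fun x => by simp
  have hm : mean (gibbs J 0) (fun x : ι → Bool => spin (x i)) = 0 := by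
    have h1 := e.sum_comp (fun x => gibbs J 0 x * spin (x i))
    have h2 : ∀ x, gibbs J 0 (e x) * spin (e x i) = -(gibbs J 0 x * spin (x i)) := fun x => by
      change gibbs J 0 (fun k => !x k) * spin (!x i) = _
      rw [hneg]
      cases x i <;> simp [spin]
    simp only [h2, sum_neg_distrib] at h1
    simp only [mean]
    linarith
  have hV : variance (gibbs J 0) (fun x : ι → Bool => spin (x i)) = 1 := by
    simp only [variance, hm, sub_zero]
    have : ∀ x : ι → Bool, spin (x i) ^ 2 = 1 := fun x => by cases x i <;> simp [spin]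
    simp [mean, this, gibbs_sum]
  refine ⟨by rw [hV]; norm_num, ?_⟩
  rw [hV, dirichlet_eq_dirWeight hsymm hdiag,
    sum_eq_single i (fun k _ hk => ?_) (fun h => absurd (mem_univ i) h)]
  · calc mean (gibbs J 0) (dirWeight J 0 i fun x => spin (x i))
        ≤ ∑ x, gibbs J 0 x * 1 := sum_le_sum fun x _ => by
          refine mul_le_mul_of_nonneg_left ?_ (gibbs_pos x).le
          simp [dirWeight, localVar, deriv2, spin, sq_nonneg]
      _ = 1 := by simp [gibbs_sum]
  · simp [mean, dirWeight, deriv2, hk.symm]

end Vale.Agent.P150
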