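import Mathlib
import Vale.Agent.P150.Gap
import Vale.Agent.P150.Edge

/-!
# Sherrington-Kirkpatrick couplings are good with high probability
-/

namespace Vale.Agent.P150

open MeasureTheory ProbabilityTheory Finset Filter
open scoped ENNReal Topology

/-- Sherrington-Kirkpatrick couplings; only the entries `g (i, j)` with `i < j` are used. -/
noncomputable def skCoupling (β : ℝ) {n : ℕ} (g : Fin n × Fin n → ℝ) (i j : Fin n) : ℝ :=
  if i < j then β / √n * g (i, j) else if j < i then β / √n * g (j, i) else 0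

lemma skCoupling_symm (β : ℝ) {n : ℕ} (g : Fin n × Fin n → ℝ) (i j : Fin n) :
    skCoupling β g i j = skCoupling β g j i := by
  simp only [skCoupling]
  rcases lt_trichotomy i j with h | h | h
  · rw [if_pos h, if_neg h.not_gt, if_pos h]
  · subst h; rfl
  · rw [if_neg h.not_gt, if_pos h, if_pos h]

lemma skCoupling_self (β : ℝ) {n : ℕ} (g : Fin n × Fin n → ℝ) (i : Fin n) :
    skCoupling β g i i = 0 := by
  simp [skCoupling]

/-- Symmetrisation of a square array. -/
noncomputable def symmArray {n : ℕ} (A : Fin n × Fin n → ℝ) (p : Fin n × Fin n) : ℝ :=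
  (A (p.1, p.2) + A (p.2, p.1)) / √2

lemma skCoupling_symmArray (β : ℝ) {n : ℕ} (A : Fin n × Fin n → ℝ) {i j : Fin n} (h : i ≠ j) :
    skCoupling β (symmArray A) i j = β / √n * ((A (i, j) + A (j, i)) / √2) := by
  rcases lt_or_gt_of_ne h with h | h
  · simp [skCoupling, symmArray, h]
  · simp [skCoupling, symmArray, h, h.not_gt, add_comm (A (j, i))]

/-- Arrays whose couplings violate one of the three quantitative conditions. -/
def badArray (β δ B Λ : ℝ) (n : ℕ) : Set (Fin n × Fin n → ℝ) :=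
  {g | (∀ i j, |skCoupling β g i j| ≤ δ) ∧ (∀ i, ∑ j, skCoupling β g i j ^ 2 ≤ B) ∧
    ∀ a : Fin n → ℝ, ∑ i, ∑ j, skCoupling β g i j * a i * a j ≤ Λ * ∑ i, a i ^ 2}ᶜ

lemma measurableSet_badArray (β δ B Λ : ℝ) (n : ℕ) : MeasurableSet (badArray β δ B Λ n) := by
  refine (IsClosed.measurableSet ?_).compl
  have hc : ∀ i j, Continuous fun g : Fin n × Fin n → ℝ => skCoupling β g i j := fun i j => by
    simp only [skCoupling]
    split_ifs <;> fun_prop
  have e : {g : Fin n × Fin n → ℝ | (∀ i j, |skCoupling β g i j| ≤ δ) ∧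
      (∀ i, ∑ j, skCoupling β g i j ^ 2 ≤ B) ∧
      ∀ a : Fin n → ℝ, ∑ i, ∑ j, skCoupling β g i j * a i * a j ≤ Λ * ∑ i, a i ^ 2}
    = (⋂ i, ⋂ j, {g | |skCoupling β g i j| ≤ δ}) ∩ ((⋂ i, {g | ∑ j, skCoupling β g i j ^ 2 ≤ B})
      ∩ ⋂ a : Fin n → ℝ, {g | ∑ i, ∑ j, skCoupling β g i j * a i * a j
          ≤ Λ * ∑ i, a i ^ 2}) := by
    ext g
    simp
  rw [e]
  refine (isClosed_iInter fun i => isClosed_iInter fun j =>
    isClosed_le (hc i j).abs continuous_const).inter
    ((isClosed_iInter fun i => isClosed_le ?_ continuous_const).inter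
      (isClosed_iInter fun a => isClosed_le ?_ continuous_const))
  · exact continuous_finsetSum _ fun j _ => (hc i j).pow 2
  · exact continuous_finsetSum _ fun i _ => continuous_finsetSum _ fun j _ =>
      ((hc i j).mul continuous_const).mul continuous_const

/-- Index pairs above the diagonal. -/
abbrev UpperPairs (n : ℕ) := {p : Fin n × Fin n // p.1 < p.2}

/-- Extend a vector on the pairs above the diagonal by zero. -/
def extendUpper {n : ℕ} (z : UpperPairs n → ℝ) (p : Fin n × Fin n) : ℝ :=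
  if h : p.1 < p.2 then z ⟨p, h⟩ else 0

lemma skCoupling_extendUpper (β : ℝ) {n : ℕ} (g : Fin n × Fin n → ℝ) :
    skCoupling β (extendUpper fun p : UpperPairs n => g p.1) = skCoupling β g := by
  funext i j
  simp only [skCoupling, extendUpper]
  split_ifs <;> rfl

lemma gauss_badArray_eq (β δ B Λ : ℝ) (n : ℕ) :
    gauss (Fin n × Fin n) (badArray β δ B Λ n)
      = gauss (Fin n × Fin n) (symmArray ⁻¹' badArray β δ B Λ n) := by
  set E : Set (UpperPairs n → ℝ) := extendUpper ⁻¹' badArray β δ B Λ n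
  have hE : MeasurableSet E := by
    refine measurableSet_preimage (measurable_pi_lambda _ fun p => ?_) (measurableSet_badArray β δ B Λ n)
    simp only [extendUpper]
    split_ifs <;> fun_prop
  have pre : ∀ φ : (Fin n × Fin n → ℝ) → Fin n × Fin n → ℝ,
      φ ⁻¹' badArray β δ B Λ n = (fun g (p : UpperPairs n) => φ g p.1) ⁻¹' E := by
    intro φ
    ext g
    simp only [E, Set.mem_preimage, badArray, Set.mem_compl_iff, Set.mem_setOf_eq,
      skCoupling_extendUpper]
  have h1 := gauss_map_comp (κ := Fin n × Fin n) (fun p : UpperPairs n => p.1)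
    Subtype.val_injective
  let R : UpperPairs n → Fin n × Fin n → ℝ := fun p k =>
    (if k = p.1 then 1 / √2 else 0) + (if k = (p.1.2, p.1.1) then 1 / √2 else 0)
  have hR : ∀ p q, ∑ k, R p k * R q k = if p = q then 1 else 0 := by
    rintro ⟨⟨a, b⟩, hab⟩ ⟨⟨c, d⟩, hcd⟩
    have hab' : a ≠ b := ne_of_lt hab
    have hne : ¬ (a = d ∧ b = c) := fun h => by
      obtain ⟨rfl, rfl⟩ := h
      exact lt_asymm hab hcd
    have hne' : ¬ (b = c ∧ a = d) := fun h => hne h.symm
    rcases eq_or_ne ((a, b) : Fin n × Fin n) (c, d) with h | h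
    · obtain ⟨rfl, rfl⟩ := Prod.ext_iff.1 h
      simp [R, mul_add, sum_add_distrib, hab', hab'.symm]
      rw [← sq, inv_pow, Real.sq_sqrt (by norm_num)]
      norm_num
    · have n1 : ((c, d) : Fin n × Fin n) ≠ (a, b) := h.symm
      have n2 : ((d, c) : Fin n × Fin n) ≠ (a, b) := fun e =>
        hne ⟨(Prod.ext_iff.1 e).1.symm, (Prod.ext_iff.1 e).2.symm⟩
      have n3 : ((c, d) : Fin n × Fin n) ≠ (b, a) := fun e =>
        hne ⟨(Prod.ext_iff.1 e).2.symm, (Prod.ext_iff.1 e).1.symm⟩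
      have n4 : ((d, c) : Fin n × Fin n) ≠ (b, a) := fun e =>
        h (Prod.ext (Prod.ext_iff.1 e).2.symm (Prod.ext_iff.1 e).1.symm)
      rw [if_neg fun e => h (congrArg Subtype.val e)]
      simp only [R, mul_add, sum_add_distrib, mul_ite, mul_zero, sum_ite_eq', mem_univ, if_true,
        n1, n2, n3, n4, if_false, zero_mul, add_zero]
  have h2 := gauss_map_rowMap R hR
  have e2 : rowMap R = fun A (p : UpperPairs n) => symmArray A p.1 := by
    funext A p
    simp [rowMap, R, symmArray, add_mul, sum_add_distrib]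
    ring
  rw [e2] at h2
  rw [pre symmArray, ← Measure.map_apply (by unfold symmArray; fun_prop) hE, ← Set.preimage_id (s := badArray β δ B Λ n),
    pre id, ← Measure.map_apply (by fun_prop) hE]
  simp only [id_eq]
  rw [h1]
  exact congrArg (fun μ => μ E) h2.symm

lemma gauss_row_tail {n : ℕ} (i : Fin n) {a C R : ℝ} (ha : 0 ≤ a) (hC : 1 ≤ C)
    (haC : 1 ≤ C ^ 2 * (1 - 2 * a)) :
    gauss (Fin n × Fin n) {A | R < ∑ j : {j // j ≠ i}, ((A (i, j.1) + A (j.1, i)) / √2) ^ 2}
      ≤ ENNReal.ofReal (Real.exp (-a * R) * C ^ n) := by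
  let S : {j // j ≠ i} → Fin n × Fin n → ℝ := fun j k =>
    (if k = (i, j.1) then 1 / √2 else 0) + (if k = (j.1, i) then 1 / √2 else 0)
  have hS : ∀ p q, ∑ k, S p k * S q k = if p = q then 1 else 0 := by
    rintro ⟨x, hx⟩ ⟨y, hy⟩
    rcases eq_or_ne x y with rfl | h
    · simp [S, mul_add, sum_add_distrib, hx, Ne.symm hx]
      rw [← sq, inv_pow, Real.sq_sqrt (by norm_num)]
      norm_num
    · simp [S, mul_add, sum_add_distrib, hx, hy, Ne.symm hx, Ne.symm hy, h, Ne.symm h]
  have e : rowMap S = fun A (j : {j // j ≠ i}) => (A (i, j.1) + A (j.1, i)) / √2 := by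
    funext A j
    simp [rowMap, S, add_mul, sum_add_distrib]
    ring
  have hm : MeasurableSet {y : {j // j ≠ i} → ℝ | R < ∑ j, y j ^ 2} :=
    measurableSet_lt measurable_const (by fun_prop)
  have := gauss_map_rowMap S hS
  rw [e] at this
  rw [show {A : Fin n × Fin n → ℝ | R < ∑ j : {j // j ≠ i}, ((A (i, j.1) + A (j.1, i)) / √2) ^ 2}
    = (fun A (j : {j // j ≠ i}) => (A (i, j.1) + A (j.1, i)) / √2) ⁻¹'
      {y | R < ∑ j, y j ^ 2} from rfl, ← Measure.map_apply (by fun_prop) hm, this]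
  refine (gauss_sq_tail ha (zero_le_one.trans hC) haC R).trans (ENNReal.ofReal_le_ofReal ?_)
  refine mul_le_mul_of_nonneg_left (pow_le_pow_right₀ hC ?_) (Real.exp_pos _).le
  simpa using Fintype.card_subtype_le (fun j => j ≠ i)

lemma offdiag_subset {β ε : ℝ} (hβ : 0 ≤ β) {n : ℕ} (hn : 0 < n) :
    symmArray ⁻¹' badArray β (√2 * β * (ε / 2)) (β ^ 2 * (1 + ε)) (β * (2 + 4 * ε)) n ⊆
      badSet (√n * (1 + ε)) (√n * (2 + 3 * ε)) (0 : Fin n → ℝ) ∪
        ((⋃ p : Fin n × Fin n, {A | ε / 2 * √n < |A p|}) ∪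
          ⋃ i : Fin n, {A | (n : ℝ) * (1 + ε)
            < ∑ j : {j // j ≠ i}, ((A (i, j.1) + A (j.1, i)) / √2) ^ 2}) := by
  intro A hA
  by_contra h
  simp only [Set.mem_union, not_or, Set.mem_iUnion, not_exists, Set.mem_setOf_eq, not_lt,
    badSet, Pi.zero_apply, zero_mul, sum_const_zero] at h
  obtain ⟨hq, he, hr⟩ := h
  have hsn : 0 < √(n : ℝ) := Real.sqrt_pos.2 (Nat.cast_pos.2 hn)
  have hsn2 : √(n : ℝ) * √n = n := Real.mul_self_sqrt (Nat.cast_nonneg n)
  have hc : 0 ≤ β / √n := div_nonneg hβ hsn.le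
  have h22 : √2 * √2 = 2 := Real.mul_self_sqrt (by norm_num)
  have h2 : 0 < √2 := Real.sqrt_pos.2 two_pos
  have hη : 0 ≤ ε / 2 * √n := (abs_nonneg _).trans (he (⟨0, hn⟩, ⟨0, hn⟩))
  apply hA
  refine ⟨fun i j => ?_, fun i => ?_, fun a => ?_⟩
  · rcases eq_or_ne i j with rfl | hij
    · rw [skCoupling_self, abs_zero]
      have := mul_nonneg hc hη
      have : 0 ≤ ε := by
        by_contra hε
        nlinarith
      positivity
    · rw [skCoupling_symmArray β A hij, abs_mul, abs_of_nonneg hc, abs_div, abs_of_pos h2]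
      have := (abs_add_le (A (i, j)) (A (j, i))).trans (add_le_add (he _) (he _))
      calc β / √n * (|A (i, j) + A (j, i)| / √2)
          ≤ β / √n * ((ε / 2 * √n + ε / 2 * √n) / √2) := by gcongr
        _ = √2 * β * (ε / 2) := by
            field_simp
            linear_combination (-(β * ε)) * h22
  · have hsplit : ∑ j, skCoupling β (symmArray A) i j ^ 2
        = (β / √n) ^ 2 * ∑ j : {j // j ≠ i}, ((A (i, j.1) + A (j.1, i)) / √2) ^ 2 := by
      rw [← add_sum_erase _ _ (mem_univ i), skCoupling_self, mul_sum,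
        ← sum_subtype (univ.erase i) (fun j => by simp)
          (fun j => (β / √n) ^ 2 * ((A (i, j) + A (j, i)) / √2) ^ 2)]
      rw [zero_pow two_ne_zero, zero_add]
      exact sum_congr rfl fun j hj => by
        rw [skCoupling_symmArray β A (ne_of_mem_erase hj).symm, mul_pow]
    rw [hsplit]
    calc (β / √n) ^ 2 * _ ≤ (β / √n) ^ 2 * ((n : ℝ) * (1 + ε)) :=
          mul_le_mul_of_nonneg_left (hr i) (sq_nonneg _)
      _ = β ^ 2 * (1 + ε) := by rw [div_pow, sq (√(n:ℝ)), hsn2]; field_simp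
  · have hQ := hq a
    simp only [ne_eq, OfNat.ofNat_ne_zero, not_false_eq_true, zero_pow, mul_zero, add_zero] at hQ
    have e : ∑ i, ∑ j, skCoupling β (symmArray A) i j * a i * a j
        = β / √n * (quadForm A a - √2 * ∑ i, A (i, i) * a i ^ 2) := by
      have e1 : ∀ i j, skCoupling β (symmArray A) i j * a i * a j
          = β / √n * ((A (i, j) * a i * a j + A (j, i) * a j * a i) / √2)
            - if i = j then β / √n * (√2 * (A (i, i) * a i ^ 2)) else 0 := by
        intro i j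
        rcases eq_or_ne i j with rfl | hij
        · rw [skCoupling_self, if_pos rfl]
          field_simp
          linear_combination (β * A (i, i) * a i ^ 2) * h22
        · rw [skCoupling_symmArray β A hij, if_neg hij]
          ring
      simp only [e1, sum_sub_distrib, sum_ite_eq, mem_univ, if_true, ← mul_sum, ← sum_div,
        sum_add_distrib]
      rw [sum_comm (f := fun i j => A (j, i) * a j * a i), ← mul_sub, quadForm]
      field_simp
      linear_combination (-(β * ∑ i, ∑ j, A (i, j) * a i * a j)) * h22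
    have hd : -(√2 * ∑ i, A (i, i) * a i ^ 2) ≤ √n * ε * ∑ i, a i ^ 2 := by
      rw [← mul_neg, ← sum_neg_distrib, mul_sum, mul_sum]
      refine sum_le_sum fun i _ => ?_
      have h1 : -A (i, i) ≤ ε / 2 * √n := (neg_le_abs _).trans (he _)
      have h2' : √2 ≤ 2 := by
        nlinarith
      calc √2 * -(A (i, i) * a i ^ 2) = √2 * a i ^ 2 * -A (i, i) := by ring
        _ ≤ √2 * a i ^ 2 * (ε / 2 * √n) := mul_le_mul_of_nonneg_left h1 (by positivity)
        _ ≤ 2 * a i ^ 2 * (ε / 2 * √n) := by gcongr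
        _ = _ := by ring
    rw [e]
    calc β / √n * (quadForm A a - √2 * ∑ i, A (i, i) * a i ^ 2)
        ≤ β / √n * (√n * (2 + 4 * ε) * ∑ i, a i ^ 2) :=
          mul_le_mul_of_nonneg_left (by linarith) hc
      _ = _ := by field_simp

/-- Failure probability for the disorder. -/
lemma gauss_badArray_le {β ε : ℝ} (hβ : 0 ≤ β) (hε : 0 < ε) (hε1 : ε ≤ 1) {n : ℕ} (hn : 0 < n) :
    gauss (Fin n × Fin n)
      (badArray β (√2 * β * (ε / 2)) (β ^ 2 * (1 + ε)) (β * (2 + 4 * ε)) n)
      ≤ ENNReal.ofReal (6 * (n : ℝ) ^ 2 * Real.exp (-(ε ^ 2 / 16)) ^ n) := by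
  rw [gauss_badArray_eq]
  set q := Real.exp (-(ε ^ 2 / 16)) ^ n with hq
  set a := ε / 8 with ha_def
  set C := Real.exp (a * (1 + ε / 2)) with hC_def
  have ha : 0 ≤ a := by positivity
  have hC : 1 ≤ C := Real.one_le_exp (by positivity)
  have haC : 1 ≤ C ^ 2 * (1 - 2 * a) := by
    rw [hC_def, ← Real.exp_nat_mul]
    have := Real.add_one_le_exp ((2 : ℕ) * (a * (1 + ε / 2)))
    have h2a : 0 ≤ 1 - 2 * a := by rw [ha_def]; linarith
    refine le_trans ?_ (mul_le_mul_of_nonneg_right this h2a)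
    rw [ha_def]
    have := mul_le_mul_of_nonneg_left hε1 (mul_nonneg hε.le hε.le)
    push_cast
    nlinarith
  have hqe : q = Real.exp (n * -(ε ^ 2 / 16)) := by rw [hq, ← Real.exp_nat_mul]
  have hsq : √(n : ℝ) ^ 2 = n := Real.sq_sqrt (Nat.cast_nonneg n)
  have hn' : (0:ℝ) ≤ n := Nat.cast_nonneg n
  have hCn : C ^ n = Real.exp (n * (a * (1 + ε / 2))) := by rw [hC_def, ← Real.exp_nat_mul]
  have hchi : Real.exp (-a * ((n : ℝ) * (1 + ε))) * C ^ n ≤ q := by
    rw [hCn, ← Real.exp_add, hqe, ha_def]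
    exact Real.exp_le_exp.2 (le_of_eq (by ring))
  have hstep : stepFail (√n * (1 + ε)) (√n * ε) a C n ≤ 3 * q := by
    have h1 : Real.exp (-a * (√n * (1 + ε)) ^ 2) * C ^ n ≤ q := by
      refine le_trans (mul_le_mul_of_nonneg_right (Real.exp_le_exp.2 ?_) (by positivity)) hchi
      rw [mul_pow, hsq]
      have : (n:ℝ) * (1 + ε) ≤ (n:ℝ) * (1 + ε) ^ 2 := by gcongr; nlinarith
      have := mul_le_mul_of_nonneg_left this ha
      linarith
    have h2 : Real.exp (-(√n * ε) ^ 2 / 8) ≤ q := by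
      rw [hqe, mul_pow, hsq]
      refine Real.exp_le_exp.2 ?_
      have := mul_nonneg hn' (sq_nonneg ε)
      linarith
    rw [stepFail]
    linarith
  have b1 := gauss_edge (L := √n * (2 + 3 * ε)) (r := √n * (1 + ε)) (s := √n * ε)
    (by positivity) (by positivity) ha hC haC (le_of_eq (by ring)) n le_rfl (0 : Fin n → ℝ)
    (by simp)
  have b2 : ∀ p : Fin n × Fin n, gauss (Fin n × Fin n) {A | ε / 2 * √n < |A p|}
      ≤ ENNReal.ofReal (2 * q) := fun p => by
    refine (gauss_coord_tail p (by positivity)).trans (ENNReal.ofReal_le_ofReal ?_)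
    rw [hqe, mul_pow, hsq]
    exact le_of_eq (by ring_nf)
  have b3 : ∀ i : Fin n, gauss (Fin n × Fin n) {A | (n : ℝ) * (1 + ε)
      < ∑ j : {j // j ≠ i}, ((A (i, j.1) + A (j.1, i)) / √2) ^ 2} ≤ ENNReal.ofReal q := fun i =>
    (gauss_row_tail i ha hC haC).trans (ENNReal.ofReal_le_ofReal hchi)
  refine (measure_mono (offdiag_subset hβ hn)).trans ((measure_union_le _ _).trans
    ((add_le_add b1 ((measure_union_le _ _).trans (add_le_add
      ((measure_iUnion_fintype_le _ _).trans (sum_le_sum fun p _ => b2 p))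
      ((measure_iUnion_fintype_le _ _).trans (sum_le_sum fun i _ => b3 i))))).trans ?_))
  rw [sum_const, sum_const, card_univ, card_univ, Fintype.card_prod, Fintype.card_fin]
  simp only [nsmul_eq_mul]
  have hq0 : 0 ≤ q := by positivity
  refine le_trans (add_le_add (mul_le_mul le_rfl (ENNReal.ofReal_le_ofReal hstep) bot_le bot_le)
    le_rfl) ?_
  rw [← ENNReal.ofReal_natCast, ← ENNReal.ofReal_natCast, ← ENNReal.ofReal_mul (by positivity),
    ← ENNReal.ofReal_mul (by positivity), ← ENNReal.ofReal_mul (by positivity),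
    ← ENNReal.ofReal_add (by positivity) (by positivity),
    ← ENNReal.ofReal_add (by positivity) (by positivity)]
  refine ENNReal.ofReal_le_ofReal ?_
  push_cast
  have h1 : (1:ℝ) ≤ n := Nat.one_le_cast.2 hn
  have := mul_le_mul_of_nonneg_right h1 (mul_nonneg hn' hq0)
  linarith

/-- A spectral gap bounded below, for every external field, when `β < 1/2`. -/
theorem tendsto_gap {β : ℝ} (hβ : 0 ≤ β) (hβ2 : β < 1 / 2) :
    ∃ κ > 0, Tendsto (fun n : ℕ =>
      Measure.pi (fun _ : Fin n × Fin n => gaussianReal 0 1)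
        {g | (∀ (h : Fin n → ℝ) (f : (Fin n → Bool) → ℝ),
            κ * variance (gibbs (skCoupling β g) h) f ≤ dirichlet (gibbs (skCoupling β g) h) f) ∧
          ∃ f, 0 < variance (gibbs (skCoupling β g) 0) f ∧
            dirichlet (gibbs (skCoupling β g) 0) f ≤ variance (gibbs (skCoupling β g) 0) f})
      atTop (𝓝 1) := by
  refine ⟨(1 - 2 * β) / 2, by linarith, ?_⟩
  set ε := (1 - 2 * β) / 200 with hε_def
  have hε : 0 < ε := by rw [hε_def]; linarith
  have hε1 : ε ≤ 1 / 200 := by rw [hε_def]; linarith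
  set q := Real.exp (-(ε ^ 2 / 16))
  have hq : Tendsto (fun n : ℕ => (1:ℝ≥0∞) - ENNReal.ofReal (6 * (n : ℝ) ^ 2 * q ^ n)) atTop
      (𝓝 1) := by
    have h1 := ((tendsto_pow_const_mul_const_pow_of_lt_one 2 (Real.exp_pos _).le
      (Real.exp_lt_one_iff.2 (by have := pow_pos hε 2; linarith) : q < 1)).const_mul (6:ℝ))
    have h2 := ENNReal.tendsto_ofReal h1
    simp only [mul_zero, ENNReal.ofReal_zero, ← mul_assoc] at h2
    simpa using ENNReal.Tendsto.sub (tendsto_const_nhds (x := (1:ℝ≥0∞))) h2 (Or.inl ENNReal.one_ne_top)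
  refine tendsto_of_tendsto_of_tendsto_of_le_of_le' hq tendsto_const_nhds ?_
    (Eventually.of_forall fun n => prob_le_one)
  filter_upwards [eventually_gt_atTop 0] with n hn
  have : Nonempty (Fin n) := ⟨⟨0, hn⟩⟩
  set δ := √2 * β * (ε / 2) with hδ
  set Gd := {g : Fin n × Fin n → ℝ | (∀ (h : Fin n → ℝ) (f : (Fin n → Bool) → ℝ),
      (1 - 2 * β) / 2 * variance (gibbs (skCoupling β g) h) f
        ≤ dirichlet (gibbs (skCoupling β g) h) f) ∧
      ∃ f, 0 < variance (gibbs (skCoupling β g) 0) f ∧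
        dirichlet (gibbs (skCoupling β g) 0) f ≤ variance (gibbs (skCoupling β g) 0) f}
  have hcov : (Set.univ : Set (Fin n × Fin n → ℝ))
      ⊆ Gd ∪ badArray β δ (β ^ 2 * (1 + ε)) (β * (2 + 4 * ε)) n := by
    intro g _
    by_cases hb : g ∈ badArray β δ (β ^ 2 * (1 + ε)) (β * (2 + 4 * ε)) n
    · exact Or.inr hb
    left
    simp only [badArray, Set.mem_compl_iff, not_not, Set.mem_setOf_eq] at hb
    obtain ⟨h1, h2, h3⟩ := hb
    have hδ1 : δ ≤ ε / 2 := by
      rw [hδ]
      have : √2 ≤ 2 := by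
        rw [Real.sqrt_le_iff]; norm_num
      calc √2 * β * (ε / 2) ≤ 2 * (1 / 2) * (ε / 2) := by gcongr
        _ = ε / 2 := by ring
    have hb2 : β ^ 2 ≤ β := by
      rw [sq]
      exact mul_le_of_le_one_left hβ (by linarith)
    have hgood : GoodCoupling (skCoupling β g) δ (β ^ 2 * (1 + ε)) (β * (2 + 4 * ε)) :=
      ⟨skCoupling_symm β g, skCoupling_self β g, ⟨by positivity, by linarith⟩, h1, h2, h3, by
        have := mul_le_mul_of_nonneg_right hb2 (show 0 ≤ 1 + ε by linarith)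
        have := mul_nonneg hβ hε.le
        linarith⟩
    refine ⟨fun h f => le_trans (mul_le_mul_of_nonneg_right ?_ ?_)
      (gap_of_goodCoupling hgood h f), zero_field_witness (skCoupling_symm β g) (skCoupling_self β g)⟩
    · have hB1 : β ^ 2 * (1 + ε) ≤ 1 := by
        calc β ^ 2 * (1 + ε) ≤ (1 / 2) ^ 2 * 2 := by gcongr; linarith
          _ ≤ 1 := by norm_num
      have e1 : 120 * δ * (β ^ 2 * (1 + ε)) ≤ 120 * (ε / 2) * 1 := by gcongr
      have e2 : β * ε ≤ 1 / 2 * ε := by gcongr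
      linarith
    · exact sum_nonneg fun x _ => mul_nonneg (gibbs_pos x).le (sq_nonneg _)
  have := (measure_mono hcov).trans (measure_union_le (μ := gauss (Fin n × Fin n)) _ _)
  rw [measure_univ] at this
  change 1 - ENNReal.ofReal (6 * (n : ℝ) ^ 2 * q ^ n) ≤ gauss (Fin n × Fin n) Gd
  exact tsub_le_iff_right.2 (this.trans
    (add_le_add le_rfl (gauss_badArray_le hβ hε (by linarith) hn)))

end Vale.Agent.P150
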