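import Mathlib
import Vale.Agent.P150.Gap

/-!
# Relative entropy: definitions
-/

namespace Vale.Agent.P150

open Real

variable {ι : Type*} [Fintype ι] [DecidableEq ι]

/-- Bregman divergence of `t log t`. -/
noncomputable def psi (a b : ℝ) : ℝ := a * log (a / b) - a + b

/-- Entropy of `f`: the mean of `psi (f x) (mean f)`. -/
noncomputable def ent (ρ f : (ι → Bool) → ℝ) : ℝ := mean ρ fun x => psi (f x) (mean ρ f)

end Vale.Agent.P150
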