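import Mathlib
import Vale.Agent.P150.Gap
import Vale.Agent.P150.EntropyBasic

/-!
# Relative entropy, its factorisation, perturbation and mixtures
-/

namespace Vale.Agent.P150

open Finset Function Real

variable {ι : Type*} [Fintype ι] [DecidableEq ι]

/-! ### The divergence `a log (a/b) - a + b` -/

lemma psi_self {a : ℝ} (ha : 0 < a) : psi a a = 0 := by
  simp [psi, div_self ha.ne']

lemma psi_nonneg {a b : ℝ} (ha : 0 < a) (hb : 0 < b) : 0 ≤ psi a b := by
  have h := Real.one_sub_inv_le_log_of_pos (div_pos ha hb)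
  have h' := mul_le_mul_of_nonneg_left h ha.le
  rw [psi]
  field_simp at h'
  have e : a * (1 - (a / b)⁻¹) = a - b := by field_simp
  nlinarith [mul_le_mul_of_nonneg_left (Real.one_sub_inv_le_log_of_pos (div_pos ha hb)) ha.le]

lemma psi_le_sq {a b : ℝ} (ha : 0 < a) (hb : 0 < b) : psi a b ≤ (a - b) ^ 2 / b := by
  have h := mul_le_mul_of_nonneg_left (Real.log_le_sub_one_of_pos (div_pos ha hb)) ha.le
  have e : (a - b) ^ 2 / b = a * (a / b - 1) - a + b := by field_simp; ring
  rw [psi, e]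
  linarith

lemma sqrt_sub_sq_le_psi {a b : ℝ} (ha : 0 < a) (hb : 0 < b) : (√a - √b) ^ 2 ≤ psi a b := by
  obtain ⟨x, hx, rfl⟩ : ∃ x, 0 < x ∧ a = x * x :=
    ⟨√a, Real.sqrt_pos.2 ha, (Real.mul_self_sqrt ha.le).symm⟩
  obtain ⟨y, hy, rfl⟩ : ∃ y, 0 < y ∧ b = y * y :=
    ⟨√b, Real.sqrt_pos.2 hb, (Real.mul_self_sqrt hb.le).symm⟩
  rw [Real.sqrt_mul_self hx.le, Real.sqrt_mul_self hy.le, psi, mul_div_mul_comm,
    Real.log_mul (div_pos hx hy).ne' (div_pos hx hy).ne']
  have h := mul_le_mul_of_nonneg_left (Real.one_sub_inv_le_log_of_pos (div_pos hx hy))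
    (mul_nonneg two_pos.le (mul_self_nonneg x))
  have e : 2 * (x * x) * (1 - (x / y)⁻¹) = 2 * (x * x) - 2 * (x * y) := by field_simp
  linarith [sub_sq x y]

lemma psi_supporting {a b c : ℝ} (ha : 0 < a) (hb : 0 < b) (hc : 0 < c) :
    a * log c + a - b * c ≤ a * log (a / b) := by
  have h := psi_nonneg ha (mul_pos hb hc)
  rw [psi, show a / (b * c) = a / b / c by rw [div_div],
    Real.log_div (div_pos ha hb).ne' hc.ne'] at h
  linarith

lemma psi_convex {p q a₁ a₂ b₁ b₂ : ℝ} (hp : 0 ≤ p) (hq : 0 ≤ q) (hpq : 0 < p + q)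
    (ha₁ : 0 < a₁) (ha₂ : 0 < a₂) (hb₁ : 0 < b₁) (hb₂ : 0 < b₂) :
    psi (p * a₁ + q * a₂) (p * b₁ + q * b₂) ≤ p * psi a₁ b₁ + q * psi a₂ b₂ := by
  have hA : 0 < p * a₁ + q * a₂ := by
    rcases eq_or_lt_of_le hp with rfl | hp'
    · have : 0 < q := by linarith
      nlinarith
    · nlinarith [mul_pos hp' ha₁, mul_nonneg hq ha₂.le]
  have hB : 0 < p * b₁ + q * b₂ := by
    rcases eq_or_lt_of_le hp with rfl | hp'
    · have : 0 < q := by linarith
      nlinarith
    · nlinarith [mul_pos hp' hb₁, mul_nonneg hq hb₂.le]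
  have h1 := mul_le_mul_of_nonneg_left (psi_supporting ha₁ hb₁ (div_pos hA hB)) hp
  have h2 := mul_le_mul_of_nonneg_left (psi_supporting ha₂ hb₂ (div_pos hA hB)) hq
  have e : (p * b₁ + q * b₂) * ((p * a₁ + q * a₂) / (p * b₁ + q * b₂)) = p * a₁ + q * a₂ := by
    field_simp
  simp only [psi]
  linarith

/-! ### Entropy functionals -/

/-- Entropy carried by the site `i`. -/
noncomputable def siteEnt (ρ : (ι → Bool) → ℝ) (i : ι) (f : (ι → Bool) → ℝ) : ℝ :=
  mean ρ fun x => psi (f x) (resample ρ i f x)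

/-- Positive weights summing to one. -/
def IsWeight (ρ : (ι → Bool) → ℝ) : Prop := (∀ x, 0 < ρ x) ∧ ∑ x, ρ x = 1

/-- Approximate tensorisation of entropy with constant `K`. -/
def EntFactor (ρ : (ι → Bool) → ℝ) (K : ℝ) : Prop :=
  ∀ f : (ι → Bool) → ℝ, (∀ x, 0 < f x) → ent ρ f ≤ K * ∑ i, siteEnt ρ i f

lemma IsWeight.gibbs (J : ι → ι → ℝ) (h : ι → ℝ) : IsWeight (gibbs J h) :=
  ⟨gibbs_pos, gibbs_sum⟩

lemma mean_pos {ρ f : (ι → Bool) → ℝ} (hρ : IsWeight ρ) (hf : ∀ x, 0 < f x) : 0 < mean ρ f :=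
  sum_pos (fun x _ => mul_pos (hρ.1 x) (hf x)) univ_nonempty

lemma resample_pos {ρ f : (ι → Bool) → ℝ} (hρ : IsWeight ρ) (hf : ∀ x, 0 < f x) (i : ι)
    (x : ι → Bool) : 0 < resample ρ i f x :=
  div_pos (add_pos (mul_pos (hρ.1 _) (hf _)) (mul_pos (hρ.1 _) (hf _)))
    (add_pos (hρ.1 _) (hρ.1 _))

lemma resample_update_self (ρ : (ι → Bool) → ℝ) (i : ι) (f : (ι → Bool) → ℝ) (x : ι → Bool)
    (b : Bool) : resample ρ i f (update x i b) = resample ρ i f x := by
  simp [resample]

lemma ent_eq {ρ f : (ι → Bool) → ℝ} (hρ : IsWeight ρ) (hf : ∀ x, 0 < f x) :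
    ent ρ f = ∑ x, ρ x * (f x * log (f x)) - mean ρ f * log (mean ρ f) := by
  have hm := mean_pos hρ hf
  have e : ∀ x, ρ x * psi (f x) (mean ρ f) = ρ x * (f x * log (f x))
      - ρ x * f x * log (mean ρ f) - ρ x * f x + ρ x * mean ρ f := fun x => by
    rw [psi, Real.log_div (hf x).ne' hm.ne']
    ring
  rw [ent, mean]
  simp only [e, sum_add_distrib, sum_sub_distrib, ← sum_mul, hρ.2]
  simp only [mean]
  ring

lemma mean_psi_const {ρ f : (ι → Bool) → ℝ} (hρ : IsWeight ρ) (hf : ∀ x, 0 < f x) {c : ℝ}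
    (hc : 0 < c) : mean ρ (fun x => psi (f x) c) = ent ρ f + psi (mean ρ f) c := by
  have hm := mean_pos hρ hf
  have e : ∀ x, ρ x * psi (f x) c = ρ x * (f x * log (f x))
      - ρ x * f x * log c - ρ x * f x + ρ x * c := fun x => by
    rw [psi, Real.log_div (hf x).ne' hc.ne']
    ring
  rw [ent_eq hρ hf]
  conv_lhs => rw [mean, sum_congr rfl fun x _ => e x]
  simp only [sum_add_distrib, sum_sub_distrib, ← sum_mul, hρ.2, psi,
    Real.log_div hm.ne' hc.ne']
  simp only [mean]
  ring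

lemma ent_nonneg {ρ f : (ι → Bool) → ℝ} (hρ : IsWeight ρ) (hf : ∀ x, 0 < f x) : 0 ≤ ent ρ f :=
  sum_nonneg fun x _ => mul_nonneg (hρ.1 x).le (psi_nonneg (hf x) (mean_pos hρ hf))

lemma siteEnt_nonneg {ρ f : (ι → Bool) → ℝ} (hρ : IsWeight ρ) (hf : ∀ x, 0 < f x) (i : ι) :
    0 ≤ siteEnt ρ i f :=
  sum_nonneg fun x _ => mul_nonneg (hρ.1 x).le (psi_nonneg (hf x) (resample_pos hρ hf i x))

lemma mean_psi_le {ρ f : (ι → Bool) → ℝ} (hρ : IsWeight ρ) (hf : ∀ x, 0 < f x) {c : ℝ}
    (hc : 0 < c) : ent ρ f ≤ mean ρ fun x => psi (f x) c := by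
  have := psi_nonneg (mean_pos hρ hf) hc
  rw [mean_psi_const hρ hf hc]
  linarith

lemma mean_site_split {ρ f G : (ι → Bool) → ℝ} (hρ : IsWeight ρ) (hf : ∀ x, 0 < f x) (i : ι)
    (hG : ∀ x, 0 < G x) (hGi : ∀ x b, G (update x i b) = G x) :
    mean ρ (fun x => psi (f x) (G x))
      = siteEnt ρ i f + mean ρ (fun x => psi (resample ρ i f x) (G x)) := by
  set F : (ι → Bool) → ℝ := fun x =>
    ρ x * (psi (f x) (G x) - psi (f x) (resample ρ i f x) - psi (resample ρ i f x) (G x)) with hF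
  have h0 : ∀ x, ∑ b, F (update x i b) = 0 := by
    intro x
    have hM := (resample_pos hρ hf i x).ne'
    have hg := (hG x).ne'
    simp only [hF, resample_update_self, hGi, Fintype.sum_bool, psi,
      Real.log_div (hf _).ne' hg, Real.log_div (hf _).ne' hM, Real.log_div hM hg]
    have hM' : resample ρ i f x * (ρ (update x i true) + ρ (update x i false))
        = ρ (update x i true) * f (update x i true) + ρ (update x i false) * f (update x i false) :=
      div_mul_cancel₀ _ (add_pos (hρ.1 _) (hρ.1 _)).ne'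
    linear_combination (log (G x) - log (resample ρ i f x)) * hM'
  have h2 := sum_update i F
  rw [sum_congr rfl fun x _ => h0 x, sum_const_zero] at h2
  simp only [hF, mul_sub, sum_sub_distrib] at h2
  simp only [siteEnt, mean]
  linarith

lemma siteEnt_le {ρ f G : (ι → Bool) → ℝ} (hρ : IsWeight ρ) (hf : ∀ x, 0 < f x) (i : ι)
    (hG : ∀ x, 0 < G x) (hGi : ∀ x b, G (update x i b) = G x) :
    siteEnt ρ i f ≤ mean ρ fun x => psi (f x) (G x) := by
  rw [mean_site_split hρ hf i hG hGi, le_add_iff_nonneg_right]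
  exact sum_nonneg fun x _ =>
    mul_nonneg (hρ.1 x).le (psi_nonneg (resample_pos hρ hf i x) (hG x))

/-! ### Perturbation -/

lemma EntFactor.perturb {ρ ρ' : (ι → Bool) → ℝ} {K η : ℝ} (hK : 0 ≤ K) (hρ : IsWeight ρ)
    (hρ' : IsWeight ρ') (h1 : ∀ x, ρ' x ≤ exp η * ρ x) (h2 : ∀ x, ρ x ≤ exp η * ρ' x)
    (hE : EntFactor ρ K) : EntFactor ρ' (K * exp (2 * η)) := by
  intro f hf
  have hm := mean_pos hρ hf
  have a1 : ent ρ' f ≤ exp η * ent ρ f := by
    refine (mean_psi_le hρ' hf hm).trans ?_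
    simp only [mean, ent, mul_sum]
    refine sum_le_sum fun x _ => ?_
    rw [← mul_assoc]
    exact mul_le_mul_of_nonneg_right (h1 x) (psi_nonneg (hf x) hm)
  have a2 : ∀ i, siteEnt ρ i f ≤ exp η * siteEnt ρ' i f := fun i => by
    refine (siteEnt_le hρ hf i (resample_pos hρ' hf i) (resample_update_self ρ' i f)).trans ?_
    simp only [mean, siteEnt, mul_sum]
    refine sum_le_sum fun x _ => ?_
    rw [← mul_assoc]
    exact mul_le_mul_of_nonneg_right (h2 x) (psi_nonneg (hf x) (resample_pos hρ' hf i x))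
  have a3 := sum_le_sum fun i (_ : i ∈ univ) => a2 i
  rw [← mul_sum] at a3
  calc ent ρ' f ≤ exp η * ent ρ f := a1
    _ ≤ exp η * (K * (exp η * ∑ i, siteEnt ρ' i f)) := by
        gcongr
        exact (hE f hf).trans (mul_le_mul_of_nonneg_left a3 hK)
    _ = _ := by rw [two_mul, exp_add]; ring

/-! ### Mixtures -/

lemma EntFactor.mixture {S : Type*} [Fintype S] {ρ : (ι → Bool) → ℝ}
    {w κ : S → ℝ} {ν : S → (ι → Bool) → ℝ} {K a : ℝ} (hρ : IsWeight ρ) (hw : ∀ s, 0 < w s)
    (hν : ∀ s, IsWeight (ν s)) (hmix : ∀ x, ρ x = ∑ s, w s * ν s x)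
    (hE : ∀ s, EntFactor (ν s) (κ s)) (hκ0 : ∀ s, 0 ≤ κ s)
    (hκ : ∀ x, ∑ s, w s * ν s x * κ s ≤ K * ρ x) (ha : a < 1)
    (hch : ∀ f : (ι → Bool) → ℝ, (∀ x, 0 < f x) →
      ∑ s, w s * psi (mean (ν s) f) (mean ρ f) ≤ a * ent ρ f) :
    EntFactor ρ (K / (1 - a)) := by
  intro f hf
  have swap : ∀ G : (ι → Bool) → ℝ, mean ρ G = ∑ s, w s * mean (ν s) G := by
    intro G
    simp only [mean, hmix, sum_mul, mul_sum]
    rw [sum_comm]
    exact sum_congr rfl fun s _ => sum_congr rfl fun x _ => by ring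
  have e1 : ent ρ f = ∑ s, w s * ent (ν s) f + ∑ s, w s * psi (mean (ν s) f) (mean ρ f) := by
    rw [ent, swap, ← sum_add_distrib]
    refine sum_congr rfl fun s _ => ?_
    rw [mean_psi_const (hν s) hf (mean_pos hρ hf)]
    ring
  have e2 : ∀ i, ∑ s, w s * κ s * siteEnt (ν s) i f ≤ K * siteEnt ρ i f := fun i => by
    calc ∑ s, w s * κ s * siteEnt (ν s) i f
        ≤ ∑ s, w s * κ s * mean (ν s) (fun x => psi (f x) (resample ρ i f x)) :=
          sum_le_sum fun s _ => mul_le_mul_of_nonneg_left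
            (siteEnt_le (hν s) hf i (resample_pos hρ hf i) (resample_update_self ρ i f))
            (mul_nonneg (hw s).le (hκ0 s))
      _ = ∑ x, (∑ s, w s * ν s x * κ s) * psi (f x) (resample ρ i f x) := by
          simp only [mean, mul_sum, sum_mul]
          rw [sum_comm]
          exact sum_congr rfl fun x _ => sum_congr rfl fun s _ => by ring
      _ ≤ ∑ x, K * ρ x * psi (f x) (resample ρ i f x) := sum_le_sum fun x _ =>
          mul_le_mul_of_nonneg_right (hκ x) (psi_nonneg (hf x) (resample_pos hρ hf i x))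
      _ = _ := by simp only [siteEnt, mean, mul_sum, mul_assoc]
  have e3 : ∑ s, w s * ent (ν s) f ≤ K * ∑ i, siteEnt ρ i f := by
    calc ∑ s, w s * ent (ν s) f ≤ ∑ s, w s * (κ s * ∑ i, siteEnt (ν s) i f) :=
          sum_le_sum fun s _ => mul_le_mul_of_nonneg_left (hE s f hf) (hw s).le
      _ = ∑ i, ∑ s, w s * κ s * siteEnt (ν s) i f := by
          simp only [mul_sum, ← mul_assoc]
          exact sum_comm
      _ ≤ _ := by
          rw [mul_sum]
          exact sum_le_sum fun i _ => e2 i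
  have e4 := hch f hf
  rw [div_mul_eq_mul_div, le_div_iff₀ (by linarith)]
  linarith

/-! ### Variational bounds -/

lemma mean_mul_le_ent {ρ f : (ι → Bool) → ℝ} (hρ : IsWeight ρ) (hf : ∀ x, 0 < f x)
    (φ : (ι → Bool) → ℝ) :
    mean ρ (fun x => f x * φ x) - mean ρ f * log (mean ρ fun x => exp (φ x)) ≤ ent ρ f := by
  have hm := mean_pos hρ hf
  have hZ : 0 < mean ρ fun x => exp (φ x) := mean_pos hρ fun x => exp_pos _
  set c := log (mean ρ fun x => exp (φ x))
  have hc : mean ρ (fun x => exp (φ x - c)) = 1 := by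
    simp only [c, exp_sub, exp_log hZ]
    simp only [mean, mul_div_assoc', ← sum_div]
    exact div_self hZ.ne'
  have hpt : ∀ x, ρ x * (f x * φ x) - ρ x * f x * c - ρ x * (mean ρ f * exp (φ x - c))
      + ρ x * mean ρ f ≤ ρ x * psi (f x) (mean ρ f) := by
    intro x
    have h := psi_supporting (hf x) hm (exp_pos (φ x - c))
    rw [log_exp] at h
    have := mul_le_mul_of_nonneg_left h (hρ.1 x).le
    rw [psi]
    linarith
  have := sum_le_sum fun x (_ : x ∈ univ) => hpt x
  simp only [sum_add_distrib, sum_sub_distrib, ← sum_mul, hρ.2] at this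
  have h3 : ∑ x, ρ x * (mean ρ f * exp (φ x - c)) = mean ρ f := by
    calc _ = mean ρ f * mean ρ (fun x => exp (φ x - c)) := by
          simp only [mean, mul_sum]
          exact sum_congr rfl fun x _ => by ring
      _ = _ := by rw [hc, mul_one]
  rw [h3] at this
  simp only [ent, mean] at this ⊢
  linarith

lemma sq_mean_abs_le {ρ f : (ι → Bool) → ℝ} (hρ : IsWeight ρ) (hf : ∀ x, 0 < f x) :
    (∑ x, |ρ x * (f x - mean ρ f)|) ^ 2 ≤ 4 * mean ρ f * ent ρ f := by
  have hm := mean_pos hρ hf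
  set m := mean ρ f with hm'
  have h := Finset.sum_sq_le_sum_mul_sum_of_sq_le_mul (R := ℝ) univ
    (f := fun x => ρ x * (√(f x) - √m) ^ 2) (g := fun x => ρ x * (√(f x) + √m) ^ 2)
    (r := fun x => |ρ x * (f x - m)|)
    (fun x _ => mul_nonneg (hρ.1 x).le (sq_nonneg _))
    (fun x _ => mul_nonneg (hρ.1 x).le (sq_nonneg _)) (fun x _ => le_of_eq (by
      rw [sq_abs]
      have h1 := Real.sq_sqrt (hf x).le
      have h2 := Real.sq_sqrt hm.le
      calc (ρ x * (f x - m)) ^ 2 = (ρ x * (√(f x) ^ 2 - √m ^ 2)) ^ 2 := by rw [h1, h2]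
        _ = _ := by ring))
  refine h.trans ?_
  have b1 : ∑ x, ρ x * (√(f x) - √m) ^ 2 ≤ ent ρ f :=
    sum_le_sum fun x _ => mul_le_mul_of_nonneg_left (sqrt_sub_sq_le_psi (hf x) hm) (hρ.1 x).le
  have b2 : ∑ x, ρ x * (√(f x) + √m) ^ 2 ≤ 4 * m := by
    calc _ ≤ ∑ x, ρ x * (2 * (f x + m)) := by
          refine sum_le_sum fun x _ => mul_le_mul_of_nonneg_left ?_ (hρ.1 x).le
          have := two_mul_le_add_sq (√(f x)) (√m)
          rw [Real.sq_sqrt (hf x).le, Real.sq_sqrt hm.le] at this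
          rw [add_sq, Real.sq_sqrt (hf x).le, Real.sq_sqrt hm.le]
          linarith
      _ = 2 * mean ρ f + 2 * m := by
          simp only [mul_add, sum_add_distrib, mean, mul_sum, ← sum_mul, hρ.2, one_mul]
          congr 1
          exact sum_congr rfl fun x _ => by ring
      _ = _ := by rw [← hm']; ring
  calc _ ≤ ent ρ f * (4 * m) := mul_le_mul b1 b2
        (sum_nonneg fun x _ => mul_nonneg (hρ.1 x).le (sq_nonneg _)) (ent_nonneg hρ hf)
    _ = _ := by ring

/-! ### Product measures -/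

lemma resample_zero (h : ι → ℝ) (i : ι) (f : (ι → Bool) → ℝ) (x : ι → Bool) :
    resample (gibbs (0 : ι → ι → ℝ) h) i f x
      = ((1 + tanh (h i)) * f (update x i true) + (1 - tanh (h i)) * f (update x i false)) / 2 := by
  rw [resample_eq (fun _ _ => rfl) (fun _ => rfl)]
  simp [localMean, localField]

lemma mean_resample {ρ : (ι → Bool) → ℝ} (hρ : IsWeight ρ) (i : ι) (f G : (ι → Bool) → ℝ)
    (hG : ∀ x b, G (update x i b) = G x) :
    mean ρ (fun x => G x * resample ρ i f x) = mean ρ fun x => G x * f x := by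
  set F : (ι → Bool) → ℝ := fun x => ρ x * (G x * resample ρ i f x - G x * f x) with hF
  have h0 : ∀ x, ∑ b, F (update x i b) = 0 := by
    intro x
    simp only [hF, resample_update_self, hG, Fintype.sum_bool]
    have hM' : resample ρ i f x * (ρ (update x i true) + ρ (update x i false))
        = ρ (update x i true) * f (update x i true) + ρ (update x i false) * f (update x i false) :=
      div_mul_cancel₀ _ (add_pos (hρ.1 _) (hρ.1 _)).ne'
    linear_combination G x * hM'
  have h2 := sum_update i F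
  rw [sum_congr rfl fun x _ => h0 x, sum_const_zero] at h2
  simp only [hF, mul_sub, sum_sub_distrib] at h2
  simp only [mean]
  linarith

lemma siteEnt_resample_le (h : ι → ℝ) (j k : ι) {g : (ι → Bool) → ℝ} (hg : ∀ x, 0 < g x) :
    siteEnt (gibbs (0 : ι → ι → ℝ) h) k (resample (gibbs (0 : ι → ι → ℝ) h) j g)
      ≤ siteEnt (gibbs (0 : ι → ι → ℝ) h) k g := by
  set ρ := gibbs (0 : ι → ι → ℝ) h with hρdef
  have hρ : IsWeight ρ := IsWeight.gibbs _ _
  rcases eq_or_ne k j with rfl | hkj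
  · refine le_of_eq_of_le ?_ (siteEnt_nonneg hρ hg k)
    refine sum_eq_zero fun x _ => ?_
    have e : resample ρ k (resample ρ k g) x = resample ρ k g x := by
      rw [resample, resample_update_self, resample_update_self, ← add_mul,
        mul_div_cancel_left₀ _ (add_pos (hρ.1 _) (hρ.1 _)).ne']
    simp [e, psi_self (resample_pos hρ hg k x)]
  · have hcomm : ∀ x, resample ρ k (resample ρ j g) x = resample ρ j (resample ρ k g) x := by
      intro x
      simp only [hρdef, resample_zero, update_comm hkj]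
      ring
    simp only [siteEnt]
    calc mean ρ (fun x => psi (resample ρ j g x) (resample ρ k (resample ρ j g) x))
        ≤ mean ρ (fun x => resample ρ j (fun y => psi (g y) (resample ρ k g y)) x) := by
          refine sum_le_sum fun x _ => mul_le_mul_of_nonneg_left ?_ (hρ.1 x).le
          simp only [hcomm]
          have hd := add_pos (hρ.1 (update x j true)) (hρ.1 (update x j false))
          have e : ∀ G : (ι → Bool) → ℝ, resample ρ j G x
              = ρ (update x j true) / (ρ (update x j true) + ρ (update x j false)) * G (update x j true)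
              + ρ (update x j false) / (ρ (update x j true) + ρ (update x j false))
                * G (update x j false) := fun G => by rw [resample]; ring
          rw [e g, e (resample ρ k g), e]
          exact psi_convex (div_nonneg (hρ.1 _).le hd.le) (div_nonneg (hρ.1 _).le hd.le)
            (by rw [← add_div, div_self hd.ne']; exact one_pos) (hg _) (hg _)
            (resample_pos hρ hg k _) (resample_pos hρ hg k _)
      _ = mean ρ fun x => psi (g x) (resample ρ k g x) := by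
          simpa using mean_resample hρ j (fun y => psi (g y) (resample ρ k g y)) (fun _ => 1)
            (fun _ _ => rfl)

/-- Tensorisation of entropy. -/
theorem entFactor_zero (h : ι → ℝ) : EntFactor (gibbs (0 : ι → ι → ℝ) h) 1 := by
  intro f hf
  set ρ := gibbs (0 : ι → ι → ℝ) h with hρdef
  have hρ : IsWeight ρ := IsWeight.gibbs _ _
  have hm := mean_pos hρ hf
  suffices H : ∀ s : Finset ι, ∃ g : (ι → Bool) → ℝ, (∀ x, 0 < g x) ∧
      (∀ j ∈ s, ∀ x b, g (update x j b) = g x) ∧ mean ρ g = mean ρ f ∧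
      ent ρ f ≤ ent ρ g + ∑ i ∈ s, siteEnt ρ i f ∧ ∀ i, siteEnt ρ i g ≤ siteEnt ρ i f by
    obtain ⟨g, hg, hinv, hmean, hle, -⟩ := H univ
    have hconst : ∀ x y, g x = g y := eq_of_deriv2_eq_zero g fun i x => by
      simp [deriv2, hinv i (mem_univ i)]
    have hz : ent ρ g = 0 := by
      refine sum_eq_zero fun x _ => ?_
      have : mean ρ g = g x := by
        simp [mean, hconst _ x, ← sum_mul, hρ.2]
      simp [this, psi_self (hg x)]
    rw [hz, zero_add] at hle
    rwa [one_mul]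
  intro s
  induction s using Finset.induction_on with
  | empty => exact ⟨f, hf, by simp, rfl, by simp, fun i => le_rfl⟩
  | @insert j s hj ih =>
    obtain ⟨g, hg, hinv, hmean, hle, hsite⟩ := ih
    have hg' := resample_pos hρ hg j
    have hmean' : mean ρ (resample ρ j g) = mean ρ g := by
      simpa using mean_resample hρ j g (fun _ => 1) (fun _ _ => rfl)
    have hsplit : ent ρ g = siteEnt ρ j g + ent ρ (resample ρ j g) := by
      rw [ent, mean_site_split hρ hg j (fun _ => mean_pos hρ hg) (fun _ _ => rfl), ent, hmean']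
    refine ⟨resample ρ j g, hg', ?_, hmean'.trans hmean, ?_, fun i =>
      (siteEnt_resample_le h j i hg).trans (hsite i)⟩
    · intro k hk x b
      rcases eq_or_ne k j with rfl | hkj
      · exact resample_update_self _ _ _ _ _
      · have hks : k ∈ s := (mem_insert.1 hk).resolve_left hkj
        simp only [hρdef, resample_zero]
        rw [update_comm hkj, update_comm hkj, hinv k hks, hinv k hks]
    · rw [sum_insert hj]
      have := hsite j
      linarith

end Vale.Agent.P150
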