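import Mathlib
import Vale.Agent.P150.Gap
import Vale.Agent.P150.Entropy

/-!
# Entropy factorisation from covariance bounds uniform in the field

The couplings are switched on in small steps. One step writes the new measure as a mixture,
indexed by sign vectors, of tilts of the old one; the entropy of the mixing part is controlled
by the covariance bound.
-/

namespace Vale.Agent.P150

open Finset Function Real Filter
open scoped Topology

variable {ι : Type*} [Fintype ι] [DecidableEq ι]

/-- The linear observable with coefficients `a`. -/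
def linObs (a : ι → ℝ) (x : ι → Bool) : ℝ := ∑ i, a i * spin (x i)

/-- Covariances are at most `C`, uniformly in the field. -/
def CovBound (J : ι → ι → ℝ) (C : ℝ) : Prop :=
  ∀ (h a : ι → ℝ), variance (gibbs J h) (linObs a) ≤ C * ∑ i, a i ^ 2

lemma dirichlet_linObs_le {J : ι → ι → ℝ} (hsymm : ∀ i j, J i j = J j i)
    (hdiag : ∀ i, J i i = 0) (h a : ι → ℝ) :
    dirichlet (gibbs J h) (linObs a) ≤ ∑ i, a i ^ 2 := by
  rw [dirichlet_eq_dirWeight hsymm hdiag]
  refine sum_le_sum fun i _ => ?_
  calc mean (gibbs J h) (dirWeight J h i (linObs a))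
      ≤ ∑ x, gibbs J h x * a i ^ 2 := by
        refine sum_le_sum fun x _ => mul_le_mul_of_nonneg_left ?_ (gibbs_pos x).le
        have e : deriv2 i (linObs a) x = a i := by
          have : ∀ b, linObs a (update x i b)
              = a i * spin b + ∑ k ∈ univ.erase i, a k * spin (x k) := fun b => by
            rw [linObs, ← add_sum_erase _ _ (mem_univ i), update_self]
            exact congrArg _ (sum_congr rfl fun k hk => by rw [update_of_ne (ne_of_mem_erase hk)])
          rw [deriv2, this, this]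
          simp only [spin, Bool.false_eq_true, if_false, if_true]
          ring
        rw [dirWeight, e]
        exact mul_le_of_le_one_left (sq_nonneg _) (sub_le_self _ (sq_nonneg _))
    _ = a i ^ 2 := by rw [← sum_mul, gibbs_sum, one_mul]

lemma covBound_of_gap {J : ι → ι → ℝ} (hsymm : ∀ i j, J i j = J j i) (hdiag : ∀ i, J i i = 0)
    {κ : ℝ} (hκ : 0 < κ)
    (hgap : ∀ h f, κ * variance (gibbs J h) f ≤ dirichlet (gibbs J h) f) : CovBound J (1 / κ) := by
  intro h a
  rw [div_mul_eq_mul_div, one_mul, le_div_iff₀ hκ, mul_comm]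
  exact (hgap h _).trans (dirichlet_linObs_le hsymm hdiag h a)

lemma linObs_smul (t : ℝ) (a : ι → ℝ) (x : ι → Bool) :
    linObs (fun i => t * a i) x = t * linObs a x := by
  simp [linObs, mul_sum, mul_assoc]

lemma energy_add_field (J : ι → ι → ℝ) (h a : ι → ℝ) (x : ι → Bool) :
    energy J (fun i => h i + a i) x = energy J h x + linObs a x := by
  simp only [energy, linObs, add_mul, sum_add_distrib]
  ring

lemma log_mgf_le {J : ι → ι → ℝ} {C : ℝ} {h a : ι → ℝ}
    (hC : ∀ t ∈ Set.Icc (0:ℝ) 1,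
      variance (gibbs J fun i => h i + t * a i) (linObs a) ≤ C * ∑ i, a i ^ 2) :
    log (mean (gibbs J h) fun x => exp (linObs a x))
      ≤ mean (gibbs J h) (linObs a) + C * (∑ i, a i ^ 2) / 2 := by
  set L := linObs a
  set S := ∑ i, a i ^ 2
  set w : ℝ → (ι → Bool) → ℝ := fun t x => exp (energy J h x + t * L x) with hw
  set Z : ℝ → ℝ := fun t => ∑ x, w t x with hZ
  set M : ℝ → ℝ := fun t => ∑ x, w t x * L x with hM
  set Q : ℝ → ℝ := fun t => ∑ x, w t x * L x ^ 2 with hQ
  have hZp : ∀ t, 0 < Z t := fun t => sum_pos (fun x _ => exp_pos _) univ_nonempty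
  have dZ : ∀ t, HasDerivAt Z (M t) t := fun t => by
    refine HasDerivAt.fun_sum fun x _ => ?_
    simpa using (((hasDerivAt_id t).mul_const (L x)).const_add (energy J h x)).exp
  have dM : ∀ t, HasDerivAt M (Q t) t := fun t => by
    refine HasDerivAt.fun_sum fun x _ => ?_
    have := ((((hasDerivAt_id t).mul_const (L x)).const_add (energy J h x)).exp).mul_const (L x)
    simpa [hw, sq, mul_assoc] using this
  have hg : ∀ t, gibbs J (fun i => h i + t * a i) = fun x => w t x / Z t := fun t => by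
    funext x
    simp only [gibbs, energy_add_field, linObs_smul, hw, hZ, L]
  have hvar : ∀ t ∈ Set.Icc (0:ℝ) 1, Q t / Z t - (M t / Z t) ^ 2 ≤ C * S := by
    intro t ht
    have h' := hC t ht
    have e : variance (gibbs J fun i => h i + t * a i) L = Q t / Z t - (M t / Z t) ^ 2 := by
      have hm : mean (gibbs J fun i => h i + t * a i) L = M t / Z t := by
        simp only [mean, hg, hM, sum_div]
        exact sum_congr rfl fun x _ => by ring
      rw [variance, hm]
      simp only [mean, hg]
      have e2 : ∀ x, w t x / Z t * (L x - M t / Z t) ^ 2 = w t x * L x ^ 2 / Z t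
          - 2 * (M t / Z t) * (w t x * L x / Z t) + (M t / Z t) ^ 2 * (w t x / Z t) :=
        fun x => by ring
      simp only [e2, sum_add_distrib, sum_sub_distrib, ← mul_sum, ← sum_div]
      rw [show (∑ x, w t x) = Z t from rfl, show (∑ x, w t x * L x) = M t from rfl,
        show (∑ x, w t x * L x ^ 2) = Q t from rfl, div_self (hZp t).ne']
      ring
    rw [e] at h'
    exact h'
  have hanti : AntitoneOn (fun t => M t / Z t - C * S * t) (Set.Icc 0 1) := by
    have dd := fun t =>
      ((dM t).div (dZ t) (hZp t).ne').sub ((hasDerivAt_id t).const_mul (C * S))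
    refine antitoneOn_of_deriv_nonpos (convex_Icc 0 1)
      (fun t _ => (dd t).continuousAt.continuousWithinAt)
      (fun t _ => (dd t).differentiableAt.differentiableWithinAt) fun t ht => ?_
    rw [interior_Icc] at ht
    refine (dd t).deriv.trans_le ?_
    have := hvar t ⟨ht.1.le, ht.2.le⟩
    have e : (Q t * Z t - M t * M t) / Z t ^ 2 = Q t / Z t - (M t / Z t) ^ 2 := by
      field_simp [(hZp t).ne']
    simp only [e, mul_one]
    linarith
  set g := fun t => log (Z t) - t * (M 0 / Z 0) - C * S * (t ^ 2 / 2) with hgdef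
  have dg : ∀ t, HasDerivAt g (M t / Z t - 1 * (M 0 / Z 0) - C * S * (2 * t / 2)) t := fun t => by
    have h2 := ((hasDerivAt_pow 2 t).div_const 2).const_mul (C * S)
    exact ((((dZ t).log (hZp t).ne').sub ((hasDerivAt_id t).mul_const (M 0 / Z 0))).sub
      h2).congr_deriv (by simp)
  have hle : g 1 ≤ g 0 := by
    have : AntitoneOn g (Set.Icc 0 1) := by
      refine antitoneOn_of_deriv_nonpos (convex_Icc 0 1)
        (fun t _ => (dg t).continuousAt.continuousWithinAt)
        (fun t _ => (dg t).differentiableAt.differentiableWithinAt) fun t ht => ?_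
      rw [interior_Icc] at ht
      rw [(dg t).deriv]
      have := hanti (Set.left_mem_Icc.2 zero_le_one) ⟨ht.1.le, ht.2.le⟩ ht.1.le
      simp only [mul_zero, sub_zero] at this
      linarith
    exact this (Set.left_mem_Icc.2 zero_le_one) (Set.right_mem_Icc.2 zero_le_one) zero_le_one
  simp only [hgdef, zero_mul, sub_zero, one_mul, one_pow, ne_eq, OfNat.ofNat_ne_zero,
    not_false_eq_true, zero_pow, zero_div, mul_zero] at hle
  have e0 : mean (gibbs J h) L = M 0 / Z 0 := by
    simp only [mean, hM, hZ, hw, gibbs, zero_mul, add_zero, sum_div]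
    exact sum_congr rfl fun x _ => by ring
  have e1 : mean (gibbs J h) (fun x => exp (L x)) = Z 1 / Z 0 := by
    simp only [mean, hZ, hw, gibbs, zero_mul, add_zero, one_mul, sum_div, exp_add, exp_zero,
      mul_one]
    exact sum_congr rfl fun x _ => by ring
  rw [e0, e1, log_div (hZp 1).ne' (hZp 0).ne']
  linarith

lemma sum_cov_sq_le {J : ι → ι → ℝ} {C : ℝ} (hC0 : 0 < C) {h : ι → ℝ}
    (hC : ∀ a : ι → ℝ, (∀ i, |a i| ≤ 2 / C) → ∀ t ∈ Set.Icc (0:ℝ) 1,
      variance (gibbs J fun i => h i + t * a i) (linObs a) ≤ C * ∑ i, a i ^ 2)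
    {f : (ι → Bool) → ℝ} (hf : ∀ x, 0 < f x) :
    ∑ i, (∑ x, gibbs J h x * (f x - mean (gibbs J h) f) * spin (x i)) ^ 2
      ≤ 2 * C * mean (gibbs J h) f * ent (gibbs J h) f := by
  set ρ := gibbs J h with hρdef
  set m := mean ρ f
  have hρ : IsWeight ρ := IsWeight.gibbs J h
  have hm : 0 < m := mean_pos hρ hf
  set D : ι → ℝ := fun i => ∑ x, ρ x * (f x - m) * spin (x i)
  set a : ι → ℝ := fun i => D i / (C * m)
  have h1 := mean_mul_le_ent hρ hf (linObs a)
  have hsmall : ∀ i, |a i| ≤ 2 / C := fun i => by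
    have hD : |D i| ≤ 2 * m := by
      refine (abs_sum_le_sum_abs _ _).trans ?_
      calc ∑ x, |ρ x * (f x - m) * spin (x i)| ≤ ∑ x, (ρ x * f x + ρ x * m) :=
            sum_le_sum fun x _ => by
              have e : |spin (x i)| = 1 := by cases x i <;> simp [spin]
              rw [abs_mul, abs_mul, e, mul_one, abs_of_pos (hρ.1 x), ← mul_add]
              refine mul_le_mul_of_nonneg_left ?_ (hρ.1 x).le
              have := hf x
              exact abs_le.2 ⟨by linarith, by linarith⟩
        _ = _ := by rw [sum_add_distrib, ← sum_mul, hρ.2, one_mul]; exact (two_mul _).symm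
    rw [abs_div, abs_of_pos (mul_pos hC0 hm)]
    calc |D i| / (C * m) ≤ 2 * m / (C * m) := by gcongr
      _ = _ := by field_simp
  have h2 := mul_le_mul_of_nonneg_left (log_mgf_le (hC a hsmall)) hm.le
  have h3 : mean ρ (fun x => f x * linObs a x) - m * mean ρ (linObs a) = ∑ i, a i * D i := by
    simp only [mean, linObs, D, mul_sum]
    conv_rhs => rw [sum_comm]
    rw [← sum_sub_distrib]
    refine sum_congr rfl fun x _ => ?_
    rw [← sum_sub_distrib]
    exact sum_congr rfl fun i _ => by ring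
  have h4 : ∑ i, a i * D i = (∑ i, D i ^ 2) / (C * m) := by
    rw [sum_div]
    exact sum_congr rfl fun i _ => by simp only [a]; ring
  have h5 : ∑ i, a i ^ 2 = (∑ i, D i ^ 2) / (C * m) ^ 2 := by
    rw [sum_div]
    exact sum_congr rfl fun i _ => by simp only [a]; ring
  rw [← hρdef, h5] at h2
  have h7 : (∑ i, D i ^ 2) / (C * m) - m * (C * ((∑ i, D i ^ 2) / (C * m) ^ 2) / 2)
      ≤ ent ρ f := by linarith
  have e : (∑ i, D i ^ 2) / (C * m) - m * (C * ((∑ i, D i ^ 2) / (C * m) ^ 2) / 2)
      = (∑ i, D i ^ 2) / (2 * (C * m)) := by field_simp; ring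
  rw [e, div_le_iff₀ (by positivity)] at h7
  linarith

/-! ### Scalar estimates -/

lemma abs_prod_one_add {κ : Type*} (s : Finset κ) (a : κ → ℝ) :
    |∏ k ∈ s, (1 + a k) - 1 - ∑ k ∈ s, a k| ≤ exp (∑ k ∈ s, |a k|) - 1 - ∑ k ∈ s, |a k| := by
  classical
  induction s using Finset.induction_on with
  | empty => simp
  | @insert k s hk ih =>
    rw [prod_insert hk, sum_insert hk, sum_insert hk]
    set P := ∏ k ∈ s, (1 + a k)
    set A := ∑ k ∈ s, a k
    set S := ∑ k ∈ s, |a k|
    have e : (1 + a k) * P - 1 - (a k + A) = (1 + a k) * (P - 1 - A) + a k * A := by ring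
    rw [e, exp_add]
    refine (abs_add_le _ _).trans ?_
    rw [abs_mul, abs_mul]
    have hA : |A| ≤ S := abs_sum_le_sum_abs _ _
    have hS : 0 ≤ S := (abs_nonneg _).trans hA
    have h1 : |1 + a k| ≤ 1 + |a k| := (abs_add_le _ _).trans (by rw [abs_one])
    have h2 := mul_le_mul h1 ih (abs_nonneg _) (by positivity)
    have h3 := mul_le_mul_of_nonneg_left hA (abs_nonneg (a k))
    have h4 := mul_le_mul_of_nonneg_right (add_one_le_exp |a k|) (exp_pos S).le
    linarith

lemma one_add_sq_half_le_cosh (z : ℝ) : 1 + z ^ 2 / 2 ≤ cosh z := by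
  have h := cosh_two_mul (z / 2)
  rw [show 2 * (z / 2) = z by ring, cosh_sq] at h
  have h2 : |z / 2| ≤ |sinh (z / 2)| := by
    rw [abs_sinh]
    exact self_le_sinh_iff.2 (abs_nonneg _)
  have h3 := sq_le_sq.2 h2
  rw [div_pow] at h3
  linarith

lemma exp_half_sq_div_cosh {z : ℝ} (hz : z ^ 2 ≤ 1) :
    1 ≤ exp (z ^ 2 / 2) / cosh z ∧ exp (z ^ 2 / 2) / cosh z ≤ exp (z ^ 4 / 4) := by
  refine ⟨(one_le_div (cosh_pos z)).2 (cosh_le_exp_half_sq z), ?_⟩
  rw [div_le_iff₀ (cosh_pos z)]
  set w := z ^ 2 / 2 with hw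
  have hw0 : 0 ≤ w := by positivity
  have hw1 : w ≤ 1 / 2 := by linarith
  set u := w - w ^ 2 with hu
  have hu0 : 0 ≤ u := by
    have := mul_le_mul_of_nonneg_left hw1 hw0
    linarith
  have hu1 : u ≤ w := by
    have := sq_nonneg w
    linarith
  have h1 : exp u ≤ 1 + u + u ^ 2 := by
    have := (abs_le.1 (abs_exp_sub_one_sub_id_le (x := u) (by rw [abs_of_nonneg hu0]; linarith))).2
    linarith
  have h2 : u ^ 2 ≤ w ^ 2 := pow_le_pow_left₀ hu0 hu1 2
  have h3 : exp u ≤ cosh z := (h1.trans (by linarith)).trans (one_add_sq_half_le_cosh z)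
  calc exp w = exp (z ^ 4 / 4) * exp u := by rw [← exp_add]; congr 1; rw [hu, hw]; ring
    _ ≤ _ := mul_le_mul_of_nonneg_left h3 (exp_pos _).le

lemma tanh_sub_self_le (z : ℝ) : |tanh z - z| ≤ |z| ^ 3 ∧ |tanh z| ≤ |z| := by
  have key : ∀ x : ℝ, 0 ≤ x → |tanh x - x| ≤ |x| ^ 3 ∧ |tanh x| ≤ |x| := by
    intro x hx
    obtain ⟨h1, h2⟩ := tanh_bounds hx
    have ht : 0 ≤ tanh x := by
      rw [tanh_eq_sinh_div_cosh]
      exact div_nonneg (sinh_nonneg_iff.2 hx) (cosh_pos x).le
    rw [abs_of_nonpos (by linarith), abs_of_nonneg hx, abs_of_nonneg ht]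
    have := pow_nonneg hx 3
    exact ⟨by linarith, h1⟩
  rcases le_total 0 z with h | h
  · exact key z h
  · have := key (-z) (neg_nonneg.2 h)
    rwa [tanh_neg, abs_neg, abs_neg, ← neg_sub', abs_neg] at this

/-! ### One step -/

/-- Probability of a sign vector given the spins: independent signs with means `tanh z k`. -/
noncomputable def signProb (z : ι → ℝ) (s : ι → Bool) : ℝ :=
  ∏ k, (1 + spin (s k) * tanh (z k)) / 2

lemma signProb_pos (z : ι → ℝ) (s : ι → Bool) : 0 < signProb z s := by
  refine prod_pos fun k _ => ?_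
  have := abs_lt.1 (abs_tanh_lt_one (z k))
  cases s k <;> simp [spin] <;> linarith

lemma signProb_sum (z : ι → ℝ) : ∑ s, signProb z s = 1 := by
  simp only [signProb]
  rw [← Fintype.prod_sum fun k b => (1 + spin b * tanh (z k)) / 2]
  refine prod_eq_one fun k _ => ?_
  simp [spin]
  ring

lemma signProb_pair (z z' : ι → ℝ) :
    ∑ s, signProb z s * signProb z' s
      = (1 / 2) ^ Fintype.card ι * ∏ k, (1 + tanh (z k) * tanh (z' k)) := by
  simp only [signProb, ← prod_mul_distrib]
  rw [← Fintype.prod_sum fun k b => (1 + spin b * tanh (z k)) / 2 * ((1 + spin b * tanh (z' k)) / 2)]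
  have e : ∀ k, ∑ b, (1 + spin b * tanh (z k)) / 2 * ((1 + spin b * tanh (z' k)) / 2)
      = 1 / 2 * (1 + tanh (z k) * tanh (z' k)) := fun k => by simp [spin]; ring
  simp only [e, prod_mul_distrib, prod_const, card_univ]

lemma signProb_eq (z : ι → ℝ) (s : ι → Bool) :
    signProb z s = (1 / 2) ^ Fintype.card ι * exp (∑ k, spin (s k) * z k) / ∏ k, cosh (z k) := by
  have e : ∀ k, (1 + spin (s k) * tanh (z k)) / 2 = 1 / 2 * exp (spin (s k) * z k) / cosh (z k) :=
    fun k => by
      rw [exp_spin_mul]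
      field_simp [(cosh_pos (z k)).ne']
  simp only [signProb, e, prod_div_distrib, prod_mul_distrib, prod_const, card_univ, exp_sum,
    div_pow]

/-- The observables `u k` of a factorisation `A = RᵀR`. -/
def factorObs (R : ι → ι → ℝ) (k : ι) (x : ι → Bool) : ℝ := linObs (R k) x

/-- One step of switching on the couplings. -/
theorem entFactor_step {J₁ J₂ R : ι → ι → ℝ} {α C K ε : ℝ} {κ : (ι → Bool) → ℝ} {h : ι → ℝ}
    (hC : ∀ a : ι → ℝ, (∀ i, |a i| ≤ 2 / C) → ∀ t ∈ Set.Icc (0:ℝ) 1,
      variance (gibbs J₂ fun i => h i + t * a i) (linObs a) ≤ C * ∑ i, a i ^ 2)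
    (hC0 : 0 < C) (hα : 0 ≤ α)
    (hR : ∀ a : ι → ℝ, ∑ k, (∑ i, R k i * a i) ^ 2 ≤ α * ∑ i, a i ^ 2)
    (henergy : ∀ h, ∃ c, ∀ x, energy J₂ h x = energy J₁ h x + ε / 2 * ∑ k, factorObs R k x ^ 2 + c)
    (hK : 0 ≤ K) (hκ0 : ∀ s, 0 ≤ κ s)
    (hE : ∀ s, EntFactor (gibbs J₁ fun i => h i + √ε * ∑ k, spin (s k) * R k i) (κ s))
    (hκ : ∀ x, ∑ s, signProb (fun k => √ε * factorObs R k x) s * κ s ≤ K)
    (hε : 0 < ε) {W : ℝ}
    (hW : W = α * Fintype.card ι) (hW1 : ε * W ≤ 1)
    (hn : 4 * (Fintype.card ι : ℝ) ^ 2 * (ε * W) ≤ 1) (hW2 : ε * (2 * W ^ 2) ≤ 1)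
    (hW3 : 2 * ε * (8 * Fintype.card ι * (ε * W ^ 3) + 4 * W ^ 2) ≤ 1)
    (ha : ε * (16 * α * C + 2) ≤ 1 / 2) :
    EntFactor (gibbs J₂ h) (K * exp (ε * (32 * α * C + 7))) := by
  obtain ⟨c, hc⟩ := henergy h
  set n := Fintype.card ι with hndef
  set ρ := gibbs J₂ h with hρdef
  have hρ : IsWeight ρ := IsWeight.gibbs J₂ h
  set z : (ι → Bool) → ι → ℝ := fun x k => √ε * factorObs R k x with hzdef
  have hu : ∀ x, ∑ k, factorObs R k x ^ 2 ≤ W := fun x => by
    have := hR fun i => spin (x i)
    have e : ∀ i, spin (x i) ^ 2 = 1 := fun i => by cases x i <;> simp [spin]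
    simp only [e, sum_const, card_univ, nsmul_eq_mul, mul_one] at this
    rw [hW]
    exact this
  have hW0 : 0 ≤ W := by rw [hW]; positivity
  have hεW : 0 ≤ ε * W := mul_nonneg hε.le hW0
  have hz2 : ∀ x, ∑ k, z x k ^ 2 ≤ ε * W := fun x => by
    simp only [hzdef, mul_pow, sq_sqrt hε.le, ← mul_sum]
    exact mul_le_mul_of_nonneg_left (hu x) hε.le
  have hzk : ∀ x k, z x k ^ 2 ≤ ε * W := fun x k =>
    (single_le_sum (f := fun k => z x k ^ 2) (fun k _ => sq_nonneg _) (mem_univ k)).trans (hz2 x)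
  set w : (ι → Bool) → ℝ := fun s => ∑ x, ρ x * signProb (z x) s with hwdef
  have hw : ∀ s, 0 < w s := fun s =>
    sum_pos (fun x _ => mul_pos (hρ.1 x) (signProb_pos _ _)) univ_nonempty
  set ν : (ι → Bool) → (ι → Bool) → ℝ := fun s x => ρ x * signProb (z x) s / w s with hνdef
  have hν : ∀ s, IsWeight (ν s) := fun s =>
    ⟨fun x => div_pos (mul_pos (hρ.1 x) (signProb_pos _ _)) (hw s),
      by simp only [hνdef, ← sum_div]; exact div_self (hw s).ne'⟩
  have hmix : ∀ x, ρ x = ∑ s, w s * ν s x := fun x => by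
    have e : ∀ s, w s * ν s x = ρ x * signProb (z x) s := fun s => by
      simp only [hνdef]
      field_simp [(hw s).ne']
    simp only [e, ← mul_sum, signProb_sum, mul_one]
  set η := (ε * W) ^ 2 with hηdef
  set r : (ι → Bool) → ℝ := fun x => ∏ k, (exp (z x k ^ 2 / 2) / cosh (z x k)) with hrdef
  have hr : ∀ x, 1 ≤ r x ∧ r x ≤ exp η := by
    intro x
    have hb := fun k => exp_half_sq_div_cosh ((hzk x k).trans hW1)
    refine ⟨one_le_prod fun k _ => (hb k).1, ?_⟩
    refine (prod_le_prod (fun k _ => le_trans zero_le_one (hb k).1) fun k _ => (hb k).2).trans ?_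
    rw [← exp_sum]
    refine exp_le_exp.2 ?_
    have h4 : ∑ k, z x k ^ 4 ≤ (∑ k, z x k ^ 2) ^ 2 := by
      have := sum_sq_le_sq_sum_of_nonneg (s := univ) (f := fun k => z x k ^ 2)
        (fun k _ => sq_nonneg _)
      simpa only [← pow_mul] using this
    have h5 := pow_le_pow_left₀ (sum_nonneg fun k _ => sq_nonneg (z x k)) (hz2 x) 2
    rw [← sum_div]
    have := sq_nonneg (ε * W)
    linarith
  have hE' : ∀ s, EntFactor (ν s) (κ s * exp (2 * η)) := by
    intro s
    set h' : ι → ℝ := fun i => h i + √ε * ∑ k, spin (s k) * R k i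
    set pm := gibbs J₁ h' with hpmdef
    obtain ⟨Z, hZ, hprop⟩ : ∃ Z, 0 < Z ∧ ∀ x, ν s x = Z * (pm x * r x) := by
      refine ⟨(∑ y, exp (energy J₁ h' y)) * exp c * (1 / 2) ^ n
        / ((∑ y, exp (energy J₂ h y)) * w s), div_pos (mul_pos (mul_pos
          (sum_pos (fun y _ => exp_pos _) univ_nonempty) (exp_pos c)) (by positivity))
          (mul_pos (sum_pos (fun y _ => exp_pos _) univ_nonempty) (hw s)), fun x => ?_⟩
      have e1 : linObs (fun i => √ε * ∑ k, spin (s k) * R k i) x = ∑ k, spin (s k) * z x k := by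
        simp only [linObs, hzdef, factorObs, mul_sum, sum_mul]
        rw [sum_comm]
        exact sum_congr rfl fun k _ => sum_congr rfl fun i _ => by ring
      have e2 : exp (ε / 2 * ∑ k, factorObs R k x ^ 2) = ∏ k, exp (z x k ^ 2 / 2) := by
        rw [← exp_sum, mul_sum]
        congr 1
        exact sum_congr rfl fun k _ => by simp only [hzdef, mul_pow, sq_sqrt hε.le]; ring
      have e3 : energy J₁ h' x = energy J₁ h x + ∑ k, spin (s k) * z x k := by
        rw [show h' = fun i => h i + √ε * ∑ k, spin (s k) * R k i from rfl, energy_add_field, e1]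
      show ρ x * signProb (z x) s / w s = _ * (pm x * ∏ k, (exp (z x k ^ 2 / 2) / cosh (z x k)))
      rw [signProb_eq, prod_div_distrib]
      change exp (energy J₂ h x) / (∑ y, exp (energy J₂ h y)) *
          ((1 / 2) ^ n * exp (∑ k, spin (s k) * z x k) / ∏ k, cosh (z x k)) / w s
        = _ * (exp (energy J₁ h' x) / (∑ y, exp (energy J₁ h' y)) * _)
      rw [e3, hc x, exp_add, exp_add, exp_add, e2]
      have h1 : (∑ y, exp (energy J₁ h' y)) ≠ 0 :=
        (sum_pos (fun y _ => exp_pos _) univ_nonempty).ne'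
      have h2 : (∑ y, exp (energy J₂ h y)) ≠ 0 :=
        (sum_pos (fun y _ => exp_pos _) univ_nonempty).ne'
      have h3 : (∏ k, cosh (z x k)) ≠ 0 := prod_ne_zero_iff.2 fun k _ => (cosh_pos _).ne'
      have h4 := (hw s).ne'
      generalize (∑ y, exp (energy J₁ h' y)) = Z₁ at h1 ⊢
      generalize (∑ y, exp (energy J₂ h y)) = Z₂ at h2 ⊢
      generalize (∏ k, cosh (z x k)) = P₁ at h3 ⊢
      generalize w s = P₂ at h4 ⊢
      generalize (1 / 2 : ℝ) ^ n = H
      field_simp
    have hpm : IsWeight pm := IsWeight.gibbs J₁ h'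
    have hsum : Z * ∑ x, pm x * r x = 1 := by
      rw [mul_sum, ← sum_congr rfl fun x _ => hprop x]
      exact (hν s).2
    have hZ1 : Z ≤ 1 := by
      have : 1 ≤ ∑ x, pm x * r x := by
        calc (1:ℝ) = ∑ x, pm x * 1 := by simp [hpm.2]
          _ ≤ _ := sum_le_sum fun x _ => mul_le_mul_of_nonneg_left (hr x).1 (hpm.1 x).le
      calc Z = Z * 1 := (mul_one Z).symm
        _ ≤ Z * ∑ x, pm x * r x := mul_le_mul_of_nonneg_left this hZ.le
        _ = 1 := hsum
    have hZ2 : 1 ≤ Z * exp η := by
      calc (1:ℝ) = Z * ∑ x, pm x * r x := hsum.symm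
        _ ≤ Z * ∑ x, pm x * exp η := mul_le_mul_of_nonneg_left
            (sum_le_sum fun x _ => mul_le_mul_of_nonneg_left (hr x).2 (hpm.1 x).le) hZ.le
        _ = _ := by rw [← sum_mul, hpm.2, one_mul]
    refine (hE s).perturb (hκ0 s) hpm (hν s) (fun x => ?_) (fun x => ?_)
    · rw [hprop]
      calc Z * (pm x * r x) ≤ 1 * (pm x * exp η) :=
            mul_le_mul hZ1 (mul_le_mul_of_nonneg_left (hr x).2 (hpm.1 x).le)
              (mul_nonneg (hpm.1 x).le (le_trans zero_le_one (hr x).1)) zero_le_one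
        _ = exp η * pm x := by ring
    · rw [hprop]
      calc pm x = 1 * (pm x * 1) := by ring
        _ ≤ Z * exp η * (pm x * r x) :=
            mul_le_mul hZ2 (mul_le_mul_of_nonneg_left (hr x).1 (hpm.1 x).le)
              (mul_nonneg (hpm.1 x).le zero_le_one) (by positivity)
        _ = _ := by ring
  set a := ε * (16 * α * C + 2) with hadef
  have hch : ∀ f : (ι → Bool) → ℝ, (∀ x, 0 < f x) →
      ∑ s, w s * psi (mean (ν s) f) (mean ρ f) ≤ a * ent ρ f := by
    intro f hf
    set m := mean ρ f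
    have hm : 0 < m := mean_pos hρ hf
    have hent := ent_nonneg hρ hf
    set d : (ι → Bool) → ℝ := fun x => ρ x * (f x - m) with hddef
    have hd0 : ∑ x, d x = 0 := by
      simp only [hddef, mul_sub, sum_sub_distrib, ← sum_mul, hρ.2, one_mul]
      simp only [m, mean, sub_self]
    have hwlow : ∀ s, (1 / 2 : ℝ) ^ n * (1 / 2) ≤ w s := by
      intro s
      set τ := √(ε * W)
      have hτ0 : 0 ≤ τ := Real.sqrt_nonneg _
      have hτn : 2 * (n * τ) ≤ 1 := by
        have e : (2 * (n * τ)) ^ 2 = 4 * (n : ℝ) ^ 2 * (ε * W) := by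
          rw [mul_pow, mul_pow, sq_sqrt hεW]; ring
        exact (sq_le_one_iff_abs_le_one _).1 (e ▸ hn) |> (le_abs_self _).trans
      have hτ1 : τ ≤ 1 := Real.sqrt_le_one.2 hW1
      have hP : ∀ x, (1 / 2 : ℝ) ^ n * (1 / 2) ≤ signProb (z x) s := by
        intro x
        have hb : ∀ k, (1 - τ) / 2 ≤ (1 + spin (s k) * tanh (z x k)) / 2 := fun k => by
          have h2 : |spin (s k) * tanh (z x k)| ≤ τ := by
            have : |spin (s k)| = 1 := by cases s k <;> simp [spin]
            rw [abs_mul, this, one_mul]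
            exact (tanh_sub_self_le _).2.trans (Real.abs_le_sqrt (hzk x k))
          linarith [(abs_le.1 h2).1]
        refine le_trans ?_ (prod_le_prod (fun k _ => by linarith) fun k _ => hb k)
        rw [prod_const, card_univ, ← hndef]
        have := one_add_mul_le_pow (show (-2:ℝ) ≤ -τ by linarith) n
        rw [← sub_eq_add_neg] at this
        calc (1 / 2 : ℝ) ^ n * (1 / 2) ≤ (1 / 2) ^ n * (1 - τ) ^ n :=
              mul_le_mul_of_nonneg_left (by linarith) (by positivity)
          _ = _ := by rw [← mul_pow]; ring_nf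
      calc (1 / 2 : ℝ) ^ n * (1 / 2) = ∑ x, ρ x * ((1 / 2 : ℝ) ^ n * (1 / 2)) := by
            rw [← sum_mul, hρ.2, one_mul]
        _ ≤ w s := sum_le_sum fun x _ => mul_le_mul_of_nonneg_left (hP x) (hρ.1 x).le
    have hD : ∀ s, w s * (mean (ν s) f - m) = ∑ x, d x * signProb (z x) s := by
      intro s
      simp only [mul_sub, mean, hνdef, mul_sum]
      rw [show w s * m = ∑ x, ρ x * signProb (z x) s * m by rw [← sum_mul], ← sum_sub_distrib]
      refine sum_congr rfl fun x _ => ?_
      simp only [hddef]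
      field_simp [(hw s).ne']
    have h2n : (0:ℝ) < (1 / 2) ^ n * (1 / 2) := by positivity
    have step1 : ∑ s, w s * psi (mean (ν s) f) m
        ≤ (∑ s, (∑ x, d x * signProb (z x) s) ^ 2) / ((1 / 2) ^ n * (1 / 2) * m) := by
      rw [sum_div]
      refine sum_le_sum fun s _ => ?_
      calc w s * psi (mean (ν s) f) m ≤ w s * ((mean (ν s) f - m) ^ 2 / m) :=
            mul_le_mul_of_nonneg_left (psi_le_sq (mean_pos (hν s) hf) hm) (hw s).le
        _ = (w s * (mean (ν s) f - m)) ^ 2 / (w s * m) := by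
            field_simp [(hw s).ne', hm.ne']
        _ ≤ _ := by
            rw [hD]
            exact div_le_div_of_nonneg_left (sq_nonneg _) (mul_pos h2n hm)
              (mul_le_mul_of_nonneg_right (hwlow s) hm.le)
    have step2 : ∑ s, (∑ x, d x * signProb (z x) s) ^ 2
        = (1 / 2) ^ n * ∑ x, ∑ y, d x * d y * ∏ k, (1 + tanh (z x k) * tanh (z y k)) := by
      simp only [sq, sum_mul_sum]
      rw [sum_comm, mul_sum]
      refine sum_congr rfl fun x _ => ?_
      rw [sum_comm, mul_sum]
      refine sum_congr rfl fun y _ => ?_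
      calc ∑ s, d x * signProb (z x) s * (d y * signProb (z y) s)
          = d x * d y * ∑ s, signProb (z x) s * signProb (z y) s := by
            rw [mul_sum]; exact sum_congr rfl fun s _ => by ring
        _ = _ := by rw [signProb_pair]; ring
    set N1 := ∑ x, |d x| with hN1
    have hN1sq : N1 ^ 2 ≤ 4 * m * ent ρ f := sq_mean_abs_le hρ hf
    have step3 : ∑ x, ∑ y, d x * d y * ∏ k, (1 + tanh (z x k) * tanh (z y k))
        ≤ ∑ k, (∑ x, d x * tanh (z x k)) ^ 2 + (ε * W) ^ 2 * N1 ^ 2 := by
      have e : ∀ x y, d x * d y * ∏ k, (1 + tanh (z x k) * tanh (z y k))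
          ≤ d x * d y + ∑ k, d x * tanh (z x k) * (d y * tanh (z y k))
            + (ε * W) ^ 2 * (|d x| * |d y|) := by
        intro x y
        have hP := abs_prod_one_add univ fun k => tanh (z x k) * tanh (z y k)
        set S := ∑ k, |tanh (z x k) * tanh (z y k)|
        have hS0 : 0 ≤ S := sum_nonneg fun k _ => abs_nonneg _
        have hS : S ≤ ε * W := by
          calc S ≤ ∑ k, (z x k ^ 2 + z y k ^ 2) / 2 := sum_le_sum fun k _ => by
                rw [abs_mul]
                have h1 := mul_le_mul (tanh_sub_self_le (z x k)).2 (tanh_sub_self_le (z y k)).2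
                  (abs_nonneg _) (abs_nonneg _)
                have := two_mul_le_add_sq |z x k| |z y k|
                rw [sq_abs, sq_abs] at this
                linarith
            _ ≤ _ := by rw [← sum_div, sum_add_distrib]; linarith [hz2 x, hz2 y]
        have hR' : exp S - 1 - S ≤ (ε * W) ^ 2 :=
          ((le_abs_self _).trans (abs_exp_sub_one_sub_id_le
            (by rw [abs_of_nonneg hS0]; linarith))).trans (pow_le_pow_left₀ hS0 hS 2)
        have h6 := mul_le_mul_of_nonneg_left (hP.trans hR') (abs_nonneg (d x * d y))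
        rw [← abs_mul, abs_mul (d x) (d y)] at h6
        have h7 := (le_abs_self _).trans h6
        have e5 : ∑ k, d x * tanh (z x k) * (d y * tanh (z y k))
            = d x * d y * ∑ k, tanh (z x k) * tanh (z y k) := by
          rw [mul_sum]; exact sum_congr rfl fun k _ => by ring
        rw [e5]
        linarith
      refine (sum_le_sum fun x _ => sum_le_sum fun y _ => e x y).trans (le_of_eq ?_)
      simp only [sum_add_distrib, ← mul_sum, ← sum_mul, hd0, zero_add, mul_zero]
      congr 1
      · rw [sum_congr rfl fun x _ => sum_comm, sum_comm]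
        exact sum_congr rfl fun k _ => by rw [sq, sum_mul_sum]
      · rw [sq N1]
    have step4 : ∑ k, (∑ x, d x * tanh (z x k)) ^ 2
        ≤ 2 * ε * (α * (2 * C * m * ent ρ f)) + 2 * (n : ℝ) * (ε * W) ^ 3 * N1 ^ 2 := by
      have hk : ∀ k, (∑ x, d x * tanh (z x k)) ^ 2
          ≤ 2 * ε * (∑ i, R k i * ∑ x, d x * spin (x i)) ^ 2 + 2 * (ε * W) ^ 3 * N1 ^ 2 := by
        intro k
        have e : ∑ x, d x * tanh (z x k)
            = √ε * (∑ i, R k i * ∑ x, d x * spin (x i)) + ∑ x, d x * (tanh (z x k) - z x k) := by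
          simp only [hzdef, factorObs, linObs, mul_sum, mul_sub, sum_sub_distrib]
          rw [sum_comm (γ := ι)]
          have : ∑ x, ∑ i, √ε * (R k i * (d x * spin (x i)))
              = ∑ x, ∑ i, d x * (√ε * (R k i * spin (x i))) :=
            sum_congr rfl fun x _ => sum_congr rfl fun i _ => by ring
          rw [this]
          ring
        rw [e]
        have h2 : |∑ x, d x * (tanh (z x k) - z x k)| ≤ √(ε * W) ^ 3 * N1 := by
          refine (abs_sum_le_sum_abs _ _).trans ?_
          rw [hN1, mul_sum]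
          refine sum_le_sum fun x _ => ?_
          rw [abs_mul, mul_comm]
          exact mul_le_mul_of_nonneg_right ((tanh_sub_self_le _).1.trans
            (pow_le_pow_left₀ (abs_nonneg _) (Real.abs_le_sqrt (hzk x k)) 3)) (abs_nonneg _)
        have h3 := pow_le_pow_left₀ (abs_nonneg _) h2 2
        rw [sq_abs, mul_pow, ← pow_mul, show 3 * 2 = 2 * 3 from rfl, pow_mul,
          sq_sqrt hεW] at h3
        refine (add_sq_le).trans ?_
        rw [mul_pow, sq_sqrt hε.le]
        linarith
      refine (sum_le_sum fun k _ => hk k).trans ?_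
      rw [sum_add_distrib, ← mul_sum, sum_const, card_univ, nsmul_eq_mul, ← hndef]
      have h8 := mul_le_mul_of_nonneg_left ((hR fun i => ∑ x, d x * spin (x i)).trans
        (mul_le_mul_of_nonneg_left (sum_cov_sq_le hC0 hC hf) hα))
        (show (0:ℝ) ≤ 2 * ε by positivity)
      linarith
    refine step1.trans ?_
    rw [step2, mul_assoc ((1 / 2 : ℝ) ^ n),
      mul_div_mul_left _ _ (by positivity : ((1 / 2 : ℝ) ^ n) ≠ 0), div_le_iff₀ (by positivity)]
    refine step3.trans ((add_le_add step4 le_rfl).trans ?_)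
    have g1 := mul_le_mul_of_nonneg_left hN1sq
      (show (0:ℝ) ≤ 2 * n * (ε * W) ^ 3 + (ε * W) ^ 2 by positivity)
    have g2 := mul_le_mul_of_nonneg_right hW3 (show 0 ≤ ε * (m * ent ρ f) by positivity)
    have g3 : 0 ≤ ε * α * C * (m * ent ρ f) := by positivity
    have g4 : 0 ≤ ε * (m * ent ρ f) := by positivity
    rw [hadef]
    linarith
  have hK' : ∀ x, ∑ s, w s * ν s x * (κ s * exp (2 * η)) ≤ K * exp (2 * η) * ρ x := fun x => by
    have e : ∀ s, w s * ν s x * (κ s * exp (2 * η))
        = ρ x * exp (2 * η) * (signProb (z x) s * κ s) := fun s => by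
      simp only [hνdef]
      field_simp [(hw s).ne']
    simp only [e, ← mul_sum]
    calc ρ x * exp (2 * η) * _ ≤ ρ x * exp (2 * η) * K :=
          mul_le_mul_of_nonneg_left (hκ x) (mul_nonneg (hρ.1 x).le (exp_pos _).le)
      _ = _ := by ring
  have hEF := EntFactor.mixture hρ hw hν hmix hE'
    (fun s => mul_nonneg (hκ0 s) (exp_pos _).le) hK' (by linarith) hch
  intro f hf
  refine (hEF f hf).trans (mul_le_mul_of_nonneg_right ?_
    (sum_nonneg fun i _ => siteEnt_nonneg hρ hf i))
  have hinv : 1 / (1 - a) ≤ exp (2 * a) := by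
    rw [div_le_iff₀ (by linarith)]
    have hlow := mul_le_mul_of_nonneg_right (add_one_le_exp (2 * a))
      (show 0 ≤ 1 - a by linarith)
    have ha0 : 0 ≤ a := by positivity
    have := mul_le_mul_of_nonneg_left ha ha0
    linarith
  have hη1 : η ≤ ε := by
    have := mul_le_mul_of_nonneg_left hW2 hε.le
    have := mul_nonneg hεW hεW
    rw [hηdef]
    linarith
  calc K * exp (2 * η) / (1 - a) = K * exp (2 * η) * (1 / (1 - a)) := by ring
    _ ≤ K * exp (2 * η) * exp (2 * a) := by gcongr
    _ = K * exp (2 * η + 2 * a) := by rw [exp_add, mul_assoc]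
    _ ≤ _ := by
        gcongr
        rw [hadef]
        linarith

/-- Entropy factorisation for couplings reachable by a path with bounded covariances. -/
theorem entFactor_of_covBound {J R : ι → ι → ℝ} {lam α C : ℝ} (hC0 : 0 < C) (hα : 0 ≤ α)
    (hR : ∀ a : ι → ℝ, ∑ k, (∑ i, R k i * a i) ^ 2 ≤ α * ∑ i, a i ^ 2)
    (hJR : ∀ i j, ∑ k, R k i * R k j = J i j + if i = j then lam else 0)
    (hC : ∀ t : ℝ, 0 ≤ t → t ≤ 1 → CovBound (fun i j => t * J i j) C) (h : ι → ℝ) :
    EntFactor (gibbs J h) (exp (32 * α * C + 7)) := by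
  set n := (Fintype.card ι : ℝ)
  set W := α * n
  have hlim : Tendsto (fun N : ℕ => (1 : ℝ) / N) atTop (𝓝 0) :=
    tendsto_one_div_atTop_nhds_zero_nat
  have small : ∀ c b : ℝ, 0 < b → ∀ᶠ N : ℕ in atTop, 1 / (N : ℝ) * c ≤ b := fun c b hb => by
    have h2 : Tendsto (fun N : ℕ => 1 / (N : ℝ) * c) atTop (𝓝 0) := by
      simpa using hlim.mul_const c
    exact h2.eventually_le_const hb
  obtain ⟨N, hNpos, c1, c2, c3, c4, c5⟩ := ((eventually_gt_atTop 0).and <|
    (small W 1 one_pos).and <| (small (4 * n ^ 2 * W) 1 one_pos).and <|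
    (small (2 * W ^ 2) 1 one_pos).and <|
    (small (2 * (8 * n * |W| ^ 3 + 4 * W ^ 2)) 1 one_pos).and
    (small (16 * α * C + 2) (1 / 2) (by norm_num))).exists
  set ε := 1 / (N : ℝ) with hεdef
  have hN : (0:ℝ) < N := Nat.cast_pos.2 hNpos
  have hε : 0 < ε := one_div_pos.2 hN
  have hn0 : 0 ≤ n := Nat.cast_nonneg _
  have hW0 : 0 ≤ W := mul_nonneg hα hn0
  have hε1 : ε ≤ 1 := by
    rw [hεdef, div_le_one hN]
    exact_mod_cast hNpos
  rw [abs_of_nonneg hW0] at c4
  have main : ∀ k : ℕ, k ≤ N → ∀ h, EntFactor (gibbs (fun i j => (k : ℝ) * ε * J i j) h)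
      (exp ((k : ℝ) * (ε * (32 * α * C + 7)))) := by
    intro k
    induction k with
    | zero =>
      intro _ h
      simp only [Nat.cast_zero, zero_mul, exp_zero]
      exact entFactor_zero h
    | succ k ih =>
      intro hk h
      have hk1 : ((k : ℝ) + 1) * ε ≤ 1 := by
        rw [hεdef, mul_one_div, div_le_one hN]
        exact_mod_cast hk
      have hstep := entFactor_step (J₁ := fun i j => (k : ℝ) * ε * J i j)
        (J₂ := fun i j => ((k : ℝ) + 1) * ε * J i j) (R := R) (ε := ε) (W := W)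
        (h := h) (κ := fun _ => exp ((k : ℝ) * (ε * (32 * α * C + 7))))
        (fun a _ t _ => hC _ (by positivity) hk1 _ a) hC0 hα hR
        (fun h' => ⟨-(ε / 2 * (lam * n)), fun x => ?_⟩) (exp_pos _).le (fun _ => (exp_pos _).le)
        (fun s => ih (by omega) _) (fun x => by rw [← sum_mul, signProb_sum, one_mul])
        hε rfl c1 (by linarith) c3 ?_ c5
      · rw [← exp_add] at hstep
        convert hstep using 3 <;> push_cast <;> ring
      · have e : ∑ k, factorObs R k x ^ 2
            = ∑ i, ∑ j, J i j * spin (x i) * spin (x j) + lam * n := by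
          have e1 : ∀ k, factorObs R k x ^ 2
              = ∑ i, ∑ j, R k i * R k j * (spin (x i) * spin (x j)) := fun k => by
            rw [factorObs, linObs, sq, sum_mul_sum]
            exact sum_congr rfl fun i _ => sum_congr rfl fun j _ => by ring
          have e3 : ∀ i j, ∑ k, R k i * R k j * (spin (x i) * spin (x j))
              = J i j * spin (x i) * spin (x j)
                + if i = j then lam * (spin (x i) * spin (x j)) else 0 := fun i j => by
            rw [← sum_mul, hJR]
            split_ifs <;> ring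
          simp only [e1]
          rw [sum_comm, sum_congr rfl fun i _ => sum_comm]
          simp only [e3, sum_add_distrib, sum_ite_eq, mem_univ, if_true]
          have e2 : ∀ i, spin (x i) * spin (x i) = 1 := fun i => by cases x i <;> simp [spin]
          simp only [e2, mul_one, sum_const, card_univ, nsmul_eq_mul, n]
          ring
        rw [e]
        simp only [energy, mul_assoc, ← mul_sum]
        ring
      · have g : ε * W ^ 3 ≤ W ^ 3 := mul_le_of_le_one_left (pow_nonneg hW0 3) hε1
        have g2 := mul_le_mul_of_nonneg_left g (show 0 ≤ 16 * ε * n by positivity)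
        linarith
  have := main N le_rfl h
  rw [← mul_assoc, show (N : ℝ) * ε = 1 by rw [hεdef]; field_simp] at this
  simpa using this

end Vale.Agent.P150
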