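import Mathlib
import Vale.Agent.P150.Entropy

/-!
# The continuous-time heat-bath semigroup and decay of entropy
-/

namespace Vale.Agent.P150

open Finset Function Real
open scoped Topology

variable {ι : Type*} [Fintype ι] [DecidableEq ι]

/-- The generator as a linear map on functions. -/
noncomputable def genLM (ρ : (ι → Bool) → ℝ) :
    ((ι → Bool) → ℝ) →ₗ[ℝ] ((ι → Bool) → ℝ) where
  toFun f := generator ρ f
  map_add' f g := by
    funext x
    simp only [generator, resample, Pi.add_apply, mul_add, add_div, sum_add_distrib,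
      sum_sub_distrib]
    ring
  map_smul' c f := by
    funext x
    simp only [generator, resample, Pi.smul_apply, smul_eq_mul, RingHom.id_apply, mul_sum]
    exact sum_congr rfl fun i _ => by ring

/-- The semigroup `exp (t L)` of the heat-bath generator `L`. -/
noncomputable def semigroup (ρ : (ι → Bool) → ℝ) (t : ℝ) :
    ((ι → Bool) → ℝ) →L[ℝ] ((ι → Bool) → ℝ) :=
  NormedSpace.exp (t • LinearMap.toContinuousLinearMap (genLM ρ))

/-- Transition probability from `x` to `y` in time `t`. -/
noncomputable def transProb (ρ : (ι → Bool) → ℝ) (t : ℝ) (x y : ι → Bool) : ℝ :=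
  semigroup ρ t (Pi.single y 1) x

/-- Total variation distance between the time-`t` law started at `x` and `ρ`. -/
noncomputable def tvDist (ρ : (ι → Bool) → ℝ) (t : ℝ) (x : ι → Bool) : ℝ :=
  (∑ y, |transProb ρ t x y - ρ y|) / 2

variable {ρ : (ι → Bool) → ℝ} {J : ι → ι → ℝ} {h : ι → ℝ}

lemma semigroup_zero (f : (ι → Bool) → ℝ) : semigroup ρ 0 f = f := by
  simp [semigroup, NormedSpace.exp_zero]

lemma semigroup_add (s t : ℝ) (f : (ι → Bool) → ℝ) :
    semigroup ρ (s + t) f = semigroup ρ s (semigroup ρ t f) := by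
  letI : NormedAlgebra ℚ (((ι → Bool) → ℝ) →L[ℝ] ((ι → Bool) → ℝ)) :=
    NormedAlgebra.restrictScalars ℚ ℝ _
  rw [semigroup, semigroup, semigroup, add_smul,
    NormedSpace.exp_add_of_commute (((Commute.refl _).smul_left s).smul_right t)]
  rfl

lemma semigroup_deriv (f : (ι → Bool) → ℝ) (t : ℝ) :
    HasDerivAt (fun u => semigroup ρ u f) (generator ρ (semigroup ρ t f)) t := by
  have h1 := hasDerivAt_exp_smul_const' (LinearMap.toContinuousLinearMap (genLM ρ)) t
  have h2 := h1.clm_apply (hasDerivAt_const t f)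
  simpa [semigroup, genLM] using h2

lemma semigroup_deriv_apply (f : (ι → Bool) → ℝ) (t : ℝ) (x : ι → Bool) :
    HasDerivAt (fun u => semigroup ρ u f x) (generator ρ (semigroup ρ t f) x) t :=
  (hasDerivAt_pi.1 (semigroup_deriv f t)) x

lemma semigroup_deriv_rev (f : (ι → Bool) → ℝ) (t s : ℝ) (x : ι → Bool) :
    HasDerivAt (fun u => semigroup ρ (t - u) f x)
      (-generator ρ (semigroup ρ (t - s) f) x) s := by
  have := (semigroup_deriv_apply (ρ := ρ) f (t - s) x).comp s ((hasDerivAt_id s).const_sub t)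
  exact this.congr_deriv (by simp)

lemma semigroup_nonneg (hρ : IsWeight ρ) {t : ℝ} (ht : 0 ≤ t) {f : (ι → Bool) → ℝ}
    (hf : ∀ x, 0 ≤ f x) (x : ι → Bool) : 0 ≤ semigroup ρ t f x := by
  set L := LinearMap.toContinuousLinearMap (genLM ρ)
  set n := (Fintype.card ι : ℝ)
  set S := L + algebraMap ℝ (((ι → Bool) → ℝ) →L[ℝ] ((ι → Bool) → ℝ)) n with hS
  have hSapp : ∀ g y, S g y = ∑ i, resample ρ i g y := fun g y => by
    simp [hS, L, genLM, generator, Algebra.algebraMap_eq_smul_one, n, sum_sub_distrib]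
  have hpow : ∀ k : ℕ, ∀ g : (ι → Bool) → ℝ, (∀ y, 0 ≤ g y) → ∀ y, 0 ≤ (S ^ k) g y := by
    intro k
    induction k with
    | zero => intro g hg y; simpa using hg y
    | succ k ih =>
      intro g hg y
      rw [pow_succ]
      show 0 ≤ (S ^ k) (S g) y
      refine ih _ (fun z => ?_) y
      rw [hSapp]
      exact sum_nonneg fun i _ => div_nonneg
        (add_nonneg (mul_nonneg (hρ.1 _).le (hg _)) (mul_nonneg (hρ.1 _).le (hg _)))
        (add_pos (hρ.1 _) (hρ.1 _)).le
  have e : t • L = algebraMap ℝ _ (-(t * n)) + t • S := by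
    simp [hS, smul_add, Algebra.algebraMap_eq_smul_one, smul_smul]
  letI : NormedAlgebra ℚ (((ι → Bool) → ℝ) →L[ℝ] ((ι → Bool) → ℝ)) :=
    NormedAlgebra.restrictScalars ℚ ℝ _
  rw [semigroup, e, NormedSpace.exp_add_of_commute (Algebra.commute_algebraMap_left _ _),
    ← NormedSpace.algebraMap_exp_comm, Algebra.algebraMap_eq_smul_one]
  show 0 ≤ NormedSpace.exp (-(t * n)) * NormedSpace.exp (t • S) f x
  refine mul_nonneg (by rw [← Real.exp_eq_exp_ℝ]; exact (exp_pos _).le) ?_
  have hs := (NormedSpace.exp_series_hasSum_exp' (𝕂 := ℝ) (t • S)).mapL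
    ((ContinuousLinearMap.proj (R := ℝ) (φ := fun _ : ι → Bool => ℝ) x).comp
      (ContinuousLinearMap.apply ℝ ((ι → Bool) → ℝ) f))
  refine hs.nonneg fun k => ?_
  simp only [ContinuousLinearMap.coe_comp, comp_apply, ContinuousLinearMap.apply_apply,
    ContinuousLinearMap.proj_apply, smul_pow, ContinuousLinearMap.smul_apply, Pi.smul_apply,
    smul_eq_mul]
  exact mul_nonneg (inv_nonneg.2 (Nat.cast_nonneg _)) (mul_nonneg (pow_nonneg ht k) (hpow k f hf x))

lemma generator_const (hρ : IsWeight ρ) (c : ℝ) : generator ρ (fun _ => c) = 0 := by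
  funext x
  refine sum_eq_zero fun i _ => ?_
  rw [resample, ← add_mul, mul_div_cancel_left₀ _ (add_pos (hρ.1 _) (hρ.1 _)).ne', sub_self]

lemma semigroup_const (hρ : IsWeight ρ) (c t : ℝ) :
    semigroup ρ t (fun _ => c) = fun _ => c := by
  have h1 : ∀ u, HasDerivAt (fun u => semigroup ρ u (fun _ : ι → Bool => c)) 0 u := fun u => by
    have h2 := (hasDerivAt_exp_smul_const (LinearMap.toContinuousLinearMap (genLM ρ)) u).clm_apply
      (hasDerivAt_const u (fun _ : ι → Bool => c))
    simpa [semigroup, genLM, generator_const hρ] using h2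
  have := is_const_of_deriv_eq_zero (fun u => (h1 u).differentiableAt) (fun u => (h1 u).deriv) t 0
  rw [this, semigroup_zero]

lemma semigroup_mono (hρ : IsWeight ρ) {t : ℝ} (ht : 0 ≤ t) {f g : (ι → Bool) → ℝ}
    (hfg : ∀ x, f x ≤ g x) (x : ι → Bool) : semigroup ρ t f x ≤ semigroup ρ t g x := by
  have := semigroup_nonneg hρ ht (f := g - f) (fun y => sub_nonneg.2 (hfg y)) x
  simpa [map_sub] using this

lemma semigroup_pos (hρ : IsWeight ρ) {t : ℝ} (ht : 0 ≤ t) {f : (ι → Bool) → ℝ}
    (hf : ∀ x, 0 < f x) (x : ι → Bool) : 0 < semigroup ρ t f x := by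
  obtain ⟨y, -, hy⟩ := exists_min_image univ f univ_nonempty
  refine (hf y).trans_le ?_
  calc f y = semigroup ρ t (fun _ => f y) x := by rw [semigroup_const hρ]
    _ ≤ _ := semigroup_mono hρ ht (fun z => hy z (mem_univ z)) x

lemma mean_generator_mul (hsymm : ∀ i j, J i j = J j i) (hdiag : ∀ i, J i i = 0)
    (f g : (ι → Bool) → ℝ) :
    mean (gibbs J h) (fun x => f x * generator (gibbs J h) g x)
      = -∑ i, mean (gibbs J h) (fun x => resid J h i f x * resid J h i g x) := by
  simp only [← mean_mul_sub_resample hsymm hdiag]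
  simp only [mean, generator, mul_sum, ← sum_neg_distrib]
  rw [sum_comm]
  refine sum_congr rfl fun i _ => sum_congr rfl fun x _ => ?_
  rw [← sub_resample hsymm hdiag]
  ring

lemma semigroup_symm (hsymm : ∀ i j, J i j = J j i) (hdiag : ∀ i, J i i = 0) (t : ℝ)
    (f g : (ι → Bool) → ℝ) :
    mean (gibbs J h) (fun x => semigroup (gibbs J h) t f x * g x)
      = mean (gibbs J h) (fun x => f x * semigroup (gibbs J h) t g x) := by
  set μ := gibbs J h with hμ
  set u : ℝ → ℝ := fun s => mean μ fun x => semigroup μ s f x * semigroup μ (t - s) g x with hu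
  have hd : ∀ s, HasDerivAt u 0 s := fun s => by
    have h2 : HasDerivAt u (∑ x, μ x * (generator μ (semigroup μ s f) x * semigroup μ (t - s) g x
        + semigroup μ s f x * -generator μ (semigroup μ (t - s) g) x)) s :=
      HasDerivAt.fun_sum fun x _ =>
        (((semigroup_deriv_apply f s x).mul (semigroup_deriv_rev g t s x)).const_mul (μ x))
    refine h2.congr_deriv ?_
    have e1 := mean_generator_mul (h := h) hsymm hdiag (semigroup μ (t - s) g) (semigroup μ s f)
    have e2 := mean_generator_mul (h := h) hsymm hdiag (semigroup μ s f) (semigroup μ (t - s) g)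
    simp only [mean, ← hμ] at e1 e2
    calc _ = (∑ x, μ x * (semigroup μ (t - s) g x * generator μ (semigroup μ s f) x))
          - ∑ x, μ x * (semigroup μ s f x * generator μ (semigroup μ (t - s) g) x) := by
          rw [← sum_sub_distrib]; exact sum_congr rfl fun x _ => by ring
      _ = 0 := by
          rw [e1, e2, sub_eq_zero, neg_inj]
          exact sum_congr rfl fun i _ => sum_congr rfl fun x _ => by ring
  have := is_const_of_deriv_eq_zero (fun s => (hd s).differentiableAt) (fun s => (hd s).deriv) t 0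
  simpa [hu, semigroup_zero] using this

lemma mean_semigroup (hsymm : ∀ i j, J i j = J j i) (hdiag : ∀ i, J i i = 0) (t : ℝ)
    (f : (ι → Bool) → ℝ) :
    mean (gibbs J h) (semigroup (gibbs J h) t f) = mean (gibbs J h) f := by
  have := semigroup_symm (h := h) hsymm hdiag t f (fun _ => 1)
  simpa [semigroup_const (IsWeight.gibbs J h)] using this

lemma sum_siteEnt_le (hsymm : ∀ i j, J i j = J j i) (hdiag : ∀ i, J i i = 0)
    {f : (ι → Bool) → ℝ} (hf : ∀ x, 0 < f x) :
    ∑ i, siteEnt (gibbs J h) i f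
      ≤ -mean (gibbs J h) (fun x => log (f x) * generator (gibbs J h) f x) := by
  set μ := gibbs J h with hμ
  have hρ : IsWeight μ := IsWeight.gibbs J h
  simp only [mean, generator, mul_sum, ← sum_neg_distrib]
  rw [sum_comm]
  refine sum_le_sum fun i _ => ?_
  set G := resample μ i f
  have hG : ∀ x, 0 < G x := resample_pos hρ hf i
  have n1 : 0 ≤ mean μ fun x => psi (G x) (f x) :=
    sum_nonneg fun x _ => mul_nonneg (hρ.1 x).le (psi_nonneg (hG x) (hf x))
  have r1 : mean μ (fun x => log (G x) * G x) = mean μ (fun x => log (G x) * f x) :=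
    mean_resample hρ i f (fun x => log (G x)) fun x b => by simp [G, resample_update_self]
  have e1 : ∀ x, μ x * psi (G x) (f x) = μ x * (log (G x) * G x) - μ x * (G x * log (f x))
      - μ x * G x + μ x * f x := fun x => by
    rw [psi, log_div (hG x).ne' (hf x).ne']
    ring
  have e2 : ∀ x, μ x * psi (f x) (G x) = μ x * (f x * log (f x)) - μ x * (log (G x) * f x)
      - μ x * f x + μ x * G x := fun x => by
    rw [psi, log_div (hf x).ne' (hG x).ne']
    ring
  simp only [mean, e1, sum_add_distrib, sum_sub_distrib] at n1 r1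
  change ∑ x, μ x * psi (f x) (G x) ≤ _
  simp only [e2, sum_add_distrib, sum_sub_distrib]
  have e3 : ∀ x, -(μ x * (log (f x) * (G x - f x)))
      = μ x * (f x * log (f x)) - μ x * (G x * log (f x)) := fun x => by ring
  -- rewrite the right-hand side
  simp only [e3, sum_sub_distrib]
  linarith

/-- Entropy decays exponentially at rate `1 / K`. -/
theorem ent_semigroup_le (hsymm : ∀ i j, J i j = J j i) (hdiag : ∀ i, J i i = 0) {K : ℝ}
    (hK : 0 < K) (hE : EntFactor (gibbs J h) K) {f : (ι → Bool) → ℝ} (hf : ∀ x, 0 < f x)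
    {t : ℝ} (ht : 0 ≤ t) :
    ent (gibbs J h) (semigroup (gibbs J h) t f) ≤ exp (-t / K) * ent (gibbs J h) f := by
  set μ := gibbs J h with hμ
  have hρ : IsWeight μ := IsWeight.gibbs J h
  set m := mean μ f
  set F : ℝ → ℝ := fun u => exp (u / K) *
    (∑ x, μ x * (semigroup μ u f x * log (semigroup μ u f x)) - m * log m) with hF
  have hpos : ∀ u, 0 ≤ u → ∀ x, 0 < semigroup μ u f x := fun u hu => semigroup_pos hρ hu hf
  have hent : ∀ u, 0 ≤ u → ent μ (semigroup μ u f)
      = ∑ x, μ x * (semigroup μ u f x * log (semigroup μ u f x)) - m * log m := fun u hu => by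
    rw [ent_eq hρ (hpos u hu), mean_semigroup hsymm hdiag u f]
  have hd : ∀ u, 0 ≤ u → ∃ D, HasDerivAt F D u ∧ D ≤ 0 := by
    intro u hu
    set g := semigroup μ u f with hg
    have h1 : HasDerivAt (fun v => ∑ x, μ x * (semigroup μ v f x * log (semigroup μ v f x))
        - m * log m) (∑ x, μ x * ((log (g x) + 1) * generator μ g x)) u := by
      refine (HasDerivAt.fun_sum fun x _ => HasDerivAt.const_mul (μ x) ?_).sub_const _
      have := (semigroup_deriv_apply (ρ := μ) f u x).mul
        ((semigroup_deriv_apply (ρ := μ) f u x).log (hpos u hu x).ne')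
      refine this.congr_deriv ?_
      rw [← hg]
      have hx : g x ≠ 0 := (hpos u hu x).ne'
      field_simp
    refine ⟨_, (((hasDerivAt_id u).div_const K).exp).mul h1, ?_⟩
    have h2 := sum_siteEnt_le (h := h) hsymm hdiag (hpos u hu)
    have h3 := hE _ (hpos u hu)
    have h4 := mean_generator (h := h) hsymm hdiag g
    have h5 : ∑ x, μ x * ((log (g x) + 1) * generator μ g x)
        = mean μ (fun x => log (g x) * generator μ g x) + mean μ (generator μ g) := by
      simp only [mean, ← sum_add_distrib]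
      exact sum_congr rfl fun x _ => by ring
    rw [← hg] at h2 h3
    rw [h5, h4, add_zero, ← hent u hu, ← hg]
    simp only [id_eq]
    have h6 : exp (u / K) * (1 / K) * ent μ g
        ≤ exp (u / K) * (1 / K) * (K * -mean μ fun x => log (g x) * generator μ g x) :=
      mul_le_mul_of_nonneg_left (h3.trans (mul_le_mul_of_nonneg_left h2 hK.le)) (by positivity)
    have e : exp (u / K) * (1 / K) * (K * -mean μ fun x => log (g x) * generator μ g x)
        = -(exp (u / K) * mean μ fun x => log (g x) * generator μ g x) := by field_simp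
    linarith
  have hanti : AntitoneOn F (Set.Ici 0) := by
    refine antitoneOn_of_deriv_nonpos (convex_Ici 0) (fun u hu => ?_) (fun u hu => ?_) fun u hu => ?_
    · obtain ⟨D, hD, -⟩ := hd u hu
      exact hD.continuousAt.continuousWithinAt
    · rw [interior_Ici] at hu
      obtain ⟨D, hD, -⟩ := hd u (le_of_lt hu)
      exact hD.differentiableAt.differentiableWithinAt
    · rw [interior_Ici] at hu
      obtain ⟨D, hD, hD0⟩ := hd u (le_of_lt hu)
      rwa [hD.deriv]
  have := hanti (Set.self_mem_Ici) ht ht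
  simp only [hF, zero_div, exp_zero, one_mul] at this
  rw [← hent t ht, ← hent 0 le_rfl, semigroup_zero] at this
  rw [neg_div, exp_neg, ← div_eq_inv_mul, le_div_iff₀ (exp_pos _), mul_comm]
  exact this

/-- Mixing from entropy factorisation. -/
theorem tvDist_sq_le (hsymm : ∀ i j, J i j = J j i) (hdiag : ∀ i, J i i = 0) {K : ℝ}
    (hK : 0 < K) (hE : EntFactor (gibbs J h) K) {t : ℝ} (ht : 0 ≤ t) (x : ι → Bool) :
    tvDist (gibbs J h) t x ^ 2 ≤ 4 * (exp (-t / K) * log (1 / gibbs J h x)) := by
  set μ := gibbs J h with hμ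
  have hρ : IsWeight μ := IsWeight.gibbs J h
  have hμx := hρ.1 x
  set δ : (ι → Bool) → ℝ := Pi.single x 1
  set g : (ι → Bool) → ℝ := (1 / (2 * μ x)) • δ + fun _ => 1 / 2 with hg
  have hgv : ∀ y, g y = 1 / (2 * μ x) * δ y + 1 / 2 := fun y => rfl
  have hδ : ∀ y, 0 ≤ δ y ∧ δ y ≤ 1 := fun y => by
    simp only [δ, Pi.single_apply]
    split_ifs <;> norm_num
  have hgp : ∀ y, 0 < g y := fun y => by
    rw [hgv]
    have := mul_nonneg (show 0 ≤ 1 / (2 * μ x) by positivity) (hδ y).1
    linarith
  have hgm : mean μ g = 1 := by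
    simp only [mean, hgv, mul_add, sum_add_distrib, ← sum_mul, hρ.2, δ, Pi.single_apply, mul_ite,
      mul_one, mul_zero, sum_ite_eq', mem_univ, if_true]
    field_simp
    ring
  have hx1 : μ x ≤ 1 := hρ.2 ▸ single_le_sum (fun y _ => (hρ.1 y).le) (mem_univ x)
  have hgb : ∀ y, g y ≤ 1 / μ x := fun y => by
    rw [hgv]
    have h1 : 1 / (2 * μ x) * δ y ≤ 1 / (2 * μ x) := mul_le_of_le_one_right (by positivity) (hδ y).2
    have h2 : 1 / (2 * μ x) = 1 / μ x / 2 := by ring
    have h3 : 1 ≤ 1 / μ x := (one_le_div hμx).2 hx1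
    linarith
  have hent0 : ent μ g ≤ log (1 / μ x) := by
    rw [ent_eq hρ hgp, hgm, log_one, mul_zero, sub_zero]
    calc ∑ y, μ y * (g y * log (g y)) ≤ ∑ y, μ y * (g y * log (1 / μ x)) :=
          sum_le_sum fun y _ => mul_le_mul_of_nonneg_left
            (mul_le_mul_of_nonneg_left (log_le_log (hgp y) (hgb y)) (hgp y).le) (hρ.1 y).le
      _ = mean μ g * log (1 / μ x) := by
          simp only [mean, sum_mul]; exact sum_congr rfl fun y _ => by ring
      _ = _ := by rw [hgm, one_mul]
  have hPgp := semigroup_pos hρ ht hgp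
  have hmP : mean μ (semigroup μ t g) = 1 := by rw [mean_semigroup hsymm hdiag, hgm]
  have hrev : ∀ y, μ x * transProb μ t x y = μ y * semigroup μ t δ y := fun y => by
    have := semigroup_symm (h := h) hsymm hdiag t δ (Pi.single y 1)
    simp only [mean, δ, Pi.single_apply, mul_ite, mul_one, mul_zero, sum_ite_eq', mem_univ,
      if_true, ite_mul, one_mul, zero_mul] at this
    simpa [transProb, δ] using this.symm
  have e : ∀ y, μ y * (semigroup μ t g y - mean μ (semigroup μ t g))
      = (transProb μ t x y - μ y) / 2 := fun y => by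
    rw [hmP, hg, map_add, map_smul, semigroup_const hρ]
    simp only [Pi.add_apply, Pi.smul_apply, smul_eq_mul]
    field_simp
    linear_combination -(hrev y)
  have h := sq_mean_abs_le hρ hPgp
  simp only [e] at h
  simp only [hmP, mul_one] at h
  have e2 : tvDist μ t x = ∑ y, |(transProb μ t x y - μ y) / 2| := by
    rw [tvDist, sum_div]
    exact sum_congr rfl fun y _ => by rw [abs_div, abs_two]
  rw [e2]
  refine h.trans ?_
  have := ent_semigroup_le (h := _) hsymm hdiag hK hE hgp ht
  calc 4 * ent μ (semigroup μ t g) ≤ 4 * (exp (-t / K) * ent μ g) := by linarith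
    _ ≤ _ := by gcongr

end Vale.Agent.P150
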