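import Mathlib
import Vale.Agent.P150.Semigroup
import Vale.Agent.P150.Factor

/-!
# A lower bound `c log n` on the mixing time

For couplings with bounded operator norm the squared gradient of `P_t f` grows at most
exponentially, so linear statistics keep variance `O(n e^{ct})` while from a suitable start
their mean is at least `n e^{-t}`.
-/

namespace Vale.Agent.P150

open Finset Function Real
open scoped Topology

variable {ι : Type*} [Fintype ι] [DecidableEq ι]

/-! ### Scalar facts -/

lemma tanh_diff_half {J : ℝ} (hJ : |J| ≤ 1 / 30) {m σ : ℝ} (hm : |m| < 1) (hσ : |σ| = 1) :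
    |(1 - m ^ 2) * (tanh (2 * J) / (1 - σ * m * tanh (2 * J))) / 2 - J * (1 - m ^ 2)| ≤ 5 * J ^ 2 ∧
    |(1 - m ^ 2) * (tanh (2 * J) / (1 - σ * m * tanh (2 * J))) / 2| ≤ 2 * |J| * (1 - m ^ 2) := by
  obtain ⟨h1, h2⟩ := tanh_sub_self_le (2 * J)
  set T := tanh (2 * J)
  rw [abs_mul, abs_two] at h1 h2
  have hv : 0 ≤ 1 - m ^ 2 := by
    have := (sq_lt_one_iff_abs_lt_one m).2 hm
    linarith
  have hv1 : 1 - m ^ 2 ≤ 1 := sub_le_self _ (sq_nonneg m)
  have hT : |T| ≤ 1 / 15 := by linarith
  have hσm : |σ * m| ≤ 1 := by rw [abs_mul, hσ, one_mul]; exact hm.le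
  set D := 1 - σ * m * T with hD
  have hsmall : |σ * m * T| ≤ |T| := by
    rw [abs_mul]; exact mul_le_of_le_one_left (abs_nonneg _) hσm
  have hD0 : 14 / 15 ≤ D := by
    have := le_abs_self (σ * m * T)
    rw [hD]; linarith
  have hDp : 0 < D := by linarith
  have hq : |T / D| ≤ 15 / 14 * |T| := by
    rw [abs_div, abs_of_pos hDp, div_le_iff₀ hDp]
    have := mul_le_mul_of_nonneg_left hD0 (abs_nonneg T)
    linarith
  refine ⟨?_, ?_⟩
  · have e : (1 - m ^ 2) * (T / D) / 2 - J * (1 - m ^ 2)
        = (1 - m ^ 2) * ((T - 2 * J) / 2 + T / D * (σ * m * T) / 2) := by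
      have : T / D - T = T / D * (σ * m * T) := by
        field_simp
        rw [hD]; ring
      linear_combination ((1 - m ^ 2) / 2) * this
    rw [e, abs_mul, abs_of_nonneg hv]
    refine (mul_le_of_le_one_left (abs_nonneg _) hv1).trans ((abs_add_le _ _).trans ?_)
    rw [abs_div, abs_div (T / D * (σ * m * T)), abs_two, abs_mul (T / D)]
    have h3 := mul_le_mul hq hsmall (abs_nonneg _) (by positivity)
    have h4 := mul_le_mul h2 h2 (abs_nonneg _) (by positivity)
    have h5 : |J| * |J| = J ^ 2 := by rw [abs_mul_abs_self, sq]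
    have h6 : (2 * |J|) ^ 3 ≤ 8 / 30 * J ^ 2 := by
      have := mul_le_mul_of_nonneg_right hJ (sq_nonneg J)
      rw [mul_pow, pow_succ |J| 2, sq_abs]
      linarith
    have := sq_nonneg J
    linarith
  · rw [abs_div, abs_mul, abs_of_nonneg hv, abs_two]
    have := mul_le_mul_of_nonneg_left (hq.trans (by linarith [abs_nonneg J] : 15 / 14 * |T| ≤ 4 * |J|)) hv
    linarith

/-- Hypotheses for the gradient bound. -/
def BoundedCoupling (J : ι → ι → ℝ) (B Λ : ℝ) : Prop :=
  (∀ i j, J i j = J j i) ∧ (∀ i, J i i = 0) ∧ (∀ i j, |J i j| ≤ 1 / 30) ∧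
  (∀ i, ∑ j, J i j ^ 2 ≤ B) ∧ 0 ≤ Λ ∧
  (∀ a : ι → ℝ, |∑ i, ∑ j, J i j * a i * a j| ≤ Λ * ∑ i, a i ^ 2)

lemma bilinear_le {J : ι → ι → ℝ} {Λ : ℝ} (hsymm : ∀ i j, J i j = J j i)
    (hq : ∀ a : ι → ℝ, |∑ i, ∑ j, J i j * a i * a j| ≤ Λ * ∑ i, a i ^ 2) (g y : ι → ℝ) :
    ∑ i, ∑ j, J i j * g i * y j ≤ Λ / 2 * (∑ i, g i ^ 2 + ∑ i, y i ^ 2) := by
  have h1 := (le_abs_self _).trans (hq fun i => g i + y i)
  have h2 := (neg_le_abs _).trans (hq fun i => g i - y i)
  have e : (∑ i, ∑ j, J i j * (g i + y i) * (g j + y j))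
      - ∑ i, ∑ j, J i j * (g i - y i) * (g j - y j) = 4 * ∑ i, ∑ j, J i j * g i * y j := by
    have e0 : ∑ i, ∑ j, J i j * y i * g j = ∑ i, ∑ j, J i j * g i * y j := by
      rw [sum_comm]
      exact sum_congr rfl fun i _ => sum_congr rfl fun j _ => by rw [hsymm j i]; ring
    calc _ = 2 * (∑ i, ∑ j, J i j * g i * y j) + 2 * (∑ i, ∑ j, J i j * y i * g j) := by
          simp only [mul_sum, ← sum_add_distrib, ← sum_sub_distrib]
          exact sum_congr rfl fun i _ => sum_congr rfl fun j _ => by ring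
      _ = _ := by rw [e0]; ring
  have e2 : ∑ i, (g i + y i) ^ 2 + ∑ i, (g i - y i) ^ 2 = 2 * (∑ i, g i ^ 2 + ∑ i, y i ^ 2) := by
    simp only [mul_add, mul_sum, ← sum_add_distrib]
    exact sum_congr rfl fun i _ => by ring
  have h3 := mul_le_mul_of_nonneg_left e2.le (le_refl (0:ℝ))
  have e3 : Λ * ∑ i, (g i + y i) ^ 2 + Λ * ∑ i, (g i - y i) ^ 2
      = 2 * Λ * (∑ i, g i ^ 2 + ∑ i, y i ^ 2) := by rw [← mul_add, e2]; ring
  linarith

/-! ### The pointwise gradient inequality -/

/-- Squared gradient. -/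
noncomputable def gradSq (w : (ι → Bool) → ℝ) (x : ι → Bool) : ℝ := ∑ i, deriv2 i w x ^ 2

variable {J : ι → ι → ℝ} {h : ι → ℝ}

lemma generator_eq (hsymm : ∀ i j, J i j = J j i) (hdiag : ∀ i, J i i = 0)
    (w : (ι → Bool) → ℝ) (x : ι → Bool) :
    generator (gibbs J h) w x = ∑ j, (localMean J h j x - spin (x j)) * deriv2 j w x :=
  sum_congr rfl fun j _ => by
    have := sub_resample (h := h) hsymm hdiag j w x
    rw [resid] at this
    linarith

lemma update_spin_cases (x : ι → Bool) (i : ι) :
    (x i = true ∧ update x i true = x) ∨ (x i = false ∧ update x i false = x) := by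
  cases hb : x i
  · exact Or.inr ⟨rfl, by rw [← hb]; exact update_eq_self i x⟩
  · exact Or.inl ⟨rfl, by rw [← hb]; exact update_eq_self i x⟩

lemma deriv2_swap (i j : ι) (w : (ι → Bool) → ℝ) (x : ι → Bool) :
    deriv2 i (deriv2 j w) x = deriv2 j (deriv2 i w) x := by
  rcases eq_or_ne i j with rfl | h
  · rfl
  · simp only [deriv2, update_comm h]
    ring

lemma deriv2_localMean (hsymm : ∀ i j, J i j = J j i) (i j : ι) (x : ι → Bool) :
    deriv2 i (localMean J h j) x
      = (1 - localMean J h j x ^ 2) * (tanh (2 * J i j)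
        / (1 - spin (x i) * localMean J h j x * tanh (2 * J i j))) / 2 := by
  have hden : ∀ F, 1 - tanh F * tanh (2 * J i j) ≠ 0 ∧ 1 + tanh F * tanh (2 * J i j) ≠ 0 :=
    fun F => by
      have h1 := abs_lt.1 (show |tanh F * tanh (2 * J i j)| < 1 by
        rw [abs_mul]
        exact mul_lt_one_of_nonneg_of_lt_one_left (abs_nonneg _) (abs_tanh_lt_one F)
          (abs_tanh_lt_one _).le)
      exact ⟨by linarith [h1.2], by linarith [h1.1]⟩
  simp only [deriv2, localMean, localField_update j i, hsymm j i]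
  set F := localField J h j x
  obtain ⟨d1, d2⟩ := hden F
  cases x i
  · simp only [spin, Bool.false_eq_true, if_false, if_true]
    rw [show F + J i j * (1 - -1) = F + 2 * J i j by ring,
      show F + J i j * (-1 - -1) = F by ring, tanh_add']
    rw [show 1 - -1 * tanh F * tanh (2 * J i j) = 1 + tanh F * tanh (2 * J i j) by ring]
    field_simp
    ring
  · simp only [spin, Bool.false_eq_true, if_false, if_true]
    rw [show F + J i j * (-1 - 1) = F + -(2 * J i j) by ring,
      show F + J i j * (1 - 1) = F by ring, tanh_add', tanh_neg]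
    rw [show 1 - 1 * tanh F * tanh (2 * J i j) = 1 - tanh F * tanh (2 * J i j) by ring,
      show 1 + tanh F * -tanh (2 * J i j) = 1 - tanh F * tanh (2 * J i j) by ring]
    field_simp
    ring

lemma deriv2_generator (hsymm : ∀ i j, J i j = J j i) (hdiag : ∀ i, J i i = 0) (i : ι)
    (w : (ι → Bool) → ℝ) (x : ι → Bool) :
    deriv2 i (generator (gibbs J h) w) x
      = -deriv2 i w x + ∑ j, (deriv2 i (localMean J h j) x * deriv2 j w x
        + (localMean J h j x - spin (x j) - 2 * (spin (x i) * deriv2 i (localMean J h j) x))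
          * deriv2 j (deriv2 i w) x) := by
  have e : ∀ j, deriv2 i (fun y => (localMean J h j y - spin (y j)) * deriv2 j w y) x
      = (if j = i then -deriv2 i w x else 0) + (deriv2 i (localMean J h j) x * deriv2 j w x
        + (localMean J h j x - spin (x j) - 2 * (spin (x i) * deriv2 i (localMean J h j) x))
          * deriv2 j (deriv2 i w) x) := by
    intro j
    rcases eq_or_ne j i with rfl | hji
    · rw [if_pos rfl]
      have z1 : deriv2 j (localMean J h j) x = 0 := by simp [deriv2, localMean_update_self hdiag]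
      have z2 : deriv2 j (deriv2 j w) x = 0 := by simp [deriv2]
      rw [z1, z2]
      simp only [deriv2, update_self, localMean_update_self hdiag, update_idem]
      simp only [spin, Bool.false_eq_true, if_false, if_true]
      ring
    · rw [if_neg hji, deriv2_swap j i w x]
      simp only [deriv2, update_of_ne hji]
      rcases update_spin_cases x i with ⟨hb, hu⟩ | ⟨hb, hu⟩ <;>
      · simp only [hb, hu, spin, Bool.false_eq_true, if_false, if_true]
        ring
  calc deriv2 i (generator (gibbs J h) w) x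
      = ∑ j, deriv2 i (fun y => (localMean J h j y - spin (y j)) * deriv2 j w y) x := by
        simp only [deriv2, generator_eq hsymm hdiag, ← sum_sub_distrib, sum_div]
    _ = _ := by simp only [e, sum_add_distrib, sum_ite_eq', mem_univ, if_true]

lemma generator_gradSq (hsymm : ∀ i j, J i j = J j i) (hdiag : ∀ i, J i i = 0)
    (w : (ι → Bool) → ℝ) (x : ι → Bool) :
    generator (gibbs J h) (gradSq w) x
      = ∑ i, ∑ j, (localMean J h j x - spin (x j))
          * (2 * (deriv2 i w x - spin (x j) * deriv2 j (deriv2 i w) x)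
            * deriv2 j (deriv2 i w) x) := by
  rw [generator_eq hsymm hdiag, sum_comm]
  refine sum_congr rfl fun j _ => ?_
  rw [← mul_sum]
  congr 1
  simp only [gradSq, deriv2, ← sum_sub_distrib, sum_div]
  refine sum_congr rfl fun i _ => ?_
  rcases update_spin_cases x j with ⟨hb, hu⟩ | ⟨hb, hu⟩ <;>
  · simp only [hb, hu, spin, Bool.false_eq_true, if_false, if_true]
    ring

/-- The carre du champ bound for the gradient. -/
theorem gradSq_deriv_le {B Λ : ℝ} (hJ : BoundedCoupling J B Λ) (w : (ι → Bool) → ℝ)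
    (x : ι → Bool) :
    2 * ∑ i, deriv2 i w x * deriv2 i (generator (gibbs J h) w) x
      - generator (gibbs J h) (gradSq w) x ≤ (2 * Λ + 26 * B) * gradSq w x := by
  obtain ⟨hsymm, hdiag, hsmall, hrow, hΛ, hq⟩ := hJ
  set g : ι → ℝ := fun i => deriv2 i w x
  set b : ι → ι → ℝ := fun i j => deriv2 j (deriv2 i w) x
  set m : ι → ℝ := fun j => localMean J h j x
  set σ : ι → ℝ := fun j => spin (x j) with hσdef
  set c : ι → ι → ℝ := fun i j => deriv2 i (localMean J h j) x with hcdef
  have hm : ∀ j, |m j| < 1 := fun j => abs_tanh_lt_one _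
  have hσ : ∀ j, |σ j| = 1 := fun j => by
    simp only [σ]; cases x j <;> simp [spin]
  have hσsq : ∀ j, σ j * σ j = 1 := fun j => by
    simp only [σ]; cases x j <;> simp [spin]
  have hc : ∀ i j, c i j
      = (1 - m j ^ 2) * (tanh (2 * J i j) / (1 - σ i * m j * tanh (2 * J i j))) / 2 := fun i j =>
    deriv2_localMean hsymm i j x
  have hlhs : 2 * ∑ i, g i * deriv2 i (generator (gibbs J h) w) x
      - generator (gibbs J h) (gradSq w) x
      = -2 * ∑ i, g i ^ 2 + ∑ i, ∑ j, (2 * (g i * c i j * g j) - 4 * σ i * (g i * c i j * b i j)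
          - 2 * (1 - σ j * m j) * b i j ^ 2) := by
    simp only [deriv2_generator hsymm hdiag, generator_gradSq hsymm hdiag, mul_sum,
      ← sum_add_distrib, ← sum_sub_distrib]
    refine sum_congr rfl fun i _ => ?_
    rw [mul_add, mul_add, mul_sum, mul_sum, add_sub_assoc, ← sum_sub_distrib]
    congr 1
    · ring
    · refine sum_congr rfl fun j _ => ?_
      linear_combination (-2 * b i j ^ 2) * (hσsq j)
  rw [hlhs]
  have hpair : ∀ i j, 2 * (g i * c i j * g j) - 4 * σ i * (g i * c i j * b i j)
      - 2 * (1 - σ j * m j) * b i j ^ 2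
      ≤ 2 * (J i j * g i * ((1 - m j ^ 2) * g j)) + 21 * J i j ^ 2 * g i ^ 2
        + 5 * J i j ^ 2 * g j ^ 2 := by
    intro i j
    obtain ⟨c1, c2⟩ := tanh_diff_half (hsmall i j) (hm j) (hσ i)
    rw [← hc] at c1 c2
    set v := 1 - m j ^ 2 with hv
    have hv0 : 0 ≤ v := sub_nonneg.2 ((sq_lt_one_iff_abs_lt_one _).2 (hm j)).le
    have hv1 : v ≤ 1 := sub_le_self _ (sq_nonneg _)
    set r := 1 - σ j * m j with hr
    have hσm : |σ j * m j| < 1 := by rw [abs_mul, hσ, one_mul]; exact hm j
    have hr0 : 0 < r := by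
      have := (abs_lt.1 hσm).2
      rw [hr]; linarith
    have hvr : v ≤ 2 * r := by
      have e : v = r * (1 + σ j * m j) := by
        rw [hv, hr]; linear_combination (m j ^ 2) * (hσsq j)
      rw [e, mul_comm 2 r]
      exact mul_le_mul_of_nonneg_left (by linarith [(abs_lt.1 hσm).2]) hr0.le
    have t1 : 2 * (g i * c i j * g j)
        ≤ 2 * (J i j * g i * (v * g j)) + 5 * J i j ^ 2 * (g i ^ 2 + g j ^ 2) := by
      have h1 : (c i j - J i j * v) * (g i * g j) ≤ 5 * J i j ^ 2 * |g i * g j| := by
        refine (le_abs_self _).trans ?_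
        rw [abs_mul]
        exact mul_le_mul_of_nonneg_right c1 (abs_nonneg _)
      have h2 : |g i * g j| * 2 ≤ g i ^ 2 + g j ^ 2 := by
        have := two_mul_le_add_sq |g i| |g j|
        rw [sq_abs, sq_abs] at this
        rw [abs_mul]; linarith
      have := mul_le_mul_of_nonneg_left h2 (show 0 ≤ 5 * J i j ^ 2 by positivity)
      linarith
    have t2 : -4 * σ i * (g i * c i j * b i j) - 2 * r * b i j ^ 2
        ≤ 16 * J i j ^ 2 * g i ^ 2 := by
      have h1 : -4 * σ i * (g i * c i j * b i j) * r - 2 * r * b i j ^ 2 * r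
          ≤ 2 * g i ^ 2 * c i j ^ 2 := by
        have hb := mul_nonneg two_pos.le (sq_nonneg (σ i * (g i * c i j) + r * b i j))
        have e : σ i ^ 2 = 1 := by rw [sq]; exact hσsq i
        have : 2 * (σ i * (g i * c i j) + r * b i j) ^ 2 = 2 * g i ^ 2 * c i j ^ 2
            + 4 * σ i * (g i * c i j * b i j) * r + 2 * r * b i j ^ 2 * r := by
          linear_combination (2 * (g i * c i j) ^ 2) * e
        linarith
      have h2 : c i j ^ 2 ≤ 8 * J i j ^ 2 * r := by
        calc c i j ^ 2 = |c i j| ^ 2 := (sq_abs _).symm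
          _ ≤ (2 * |J i j| * v) ^ 2 := pow_le_pow_left₀ (abs_nonneg _) c2 2
          _ = 4 * J i j ^ 2 * (v * v) := by rw [mul_pow, mul_pow, sq_abs]; ring
          _ ≤ 4 * J i j ^ 2 * (2 * r * 1) := by
              gcongr
          _ = _ := by ring
      have h3 := mul_le_mul_of_nonneg_left h2 (mul_nonneg two_pos.le (sq_nonneg (g i)))
      refine le_of_mul_le_mul_right ?_ hr0
      linarith
    linarith
  have hsum := sum_le_sum fun i (_ : i ∈ univ) => sum_le_sum fun j (_ : j ∈ univ) => hpair i j
  refine (add_le_add le_rfl hsum).trans ?_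
  simp only [sum_add_distrib, ← mul_sum]
  have b1 := bilinear_le hsymm hq g fun j => (1 - m j ^ 2) * g j
  have b2 : ∑ j, ((1 - m j ^ 2) * g j) ^ 2 ≤ ∑ j, g j ^ 2 := sum_le_sum fun j _ => by
    rw [mul_pow]
    refine mul_le_of_le_one_left (sq_nonneg _) (pow_le_one₀
      (sub_nonneg.2 ((sq_lt_one_iff_abs_lt_one _).2 (hm j)).le) (sub_le_self _ (sq_nonneg _)))
  have b2' := mul_le_mul_of_nonneg_left b2 hΛ
  have b3 : ∑ i, ∑ j, 21 * J i j ^ 2 * g i ^ 2 ≤ 21 * B * ∑ i, g i ^ 2 := by
    rw [mul_sum]
    refine sum_le_sum fun i _ => ?_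
    rw [← sum_mul, ← mul_sum]
    exact mul_le_mul_of_nonneg_right (mul_le_mul_of_nonneg_left (hrow i) (by norm_num))
      (sq_nonneg _)
  have b4 : ∑ i, ∑ j, 5 * J i j ^ 2 * g j ^ 2 ≤ 5 * B * ∑ i, g i ^ 2 := by
    rw [sum_comm, mul_sum]
    refine sum_le_sum fun j _ => ?_
    rw [← sum_mul, ← mul_sum]
    refine mul_le_mul_of_nonneg_right (mul_le_mul_of_nonneg_left ?_ (by norm_num)) (sq_nonneg _)
    calc ∑ i, J i j ^ 2 = ∑ i, J j i ^ 2 := sum_congr rfl fun i _ => by rw [hsymm]
      _ ≤ B := hrow j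
  have hg0 : 0 ≤ ∑ i, g i ^ 2 := sum_nonneg fun i _ => sq_nonneg _
  change _ ≤ (2 * Λ + 26 * B) * ∑ i, g i ^ 2
  linarith

/-! ### Interpolation along the semigroup -/

lemma interp_deriv {ρ : (ι → Bool) → ℝ} (u u' : ℝ → (ι → Bool) → ℝ)
    (hu : ∀ s y, HasDerivAt (fun r => u r y) (u' s y) s) (s : ℝ) (x : ι → Bool) :
    HasDerivAt (fun r => semigroup ρ r (u r) x)
      (semigroup ρ s (generator ρ (u s) + u' s) x) s := by
  have h1 := hasDerivAt_exp_smul_const (LinearMap.toContinuousLinearMap (genLM ρ)) s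
  have h2 : HasDerivAt u (u' s) s := hasDerivAt_pi.2 fun y => hu s y
  have h3 := hasDerivAt_pi.1 (h1.clm_apply h2) x
  refine h3.congr_deriv ?_
  simp [semigroup, genLM, map_add]

/-- Exponential growth bound for the gradient of the semigroup. -/
theorem gradSq_semigroup_le {B Λ : ℝ} (hJ : BoundedCoupling J B Λ) {t : ℝ} (ht : 0 ≤ t)
    (f : (ι → Bool) → ℝ) (x : ι → Bool) :
    gradSq (semigroup (gibbs J h) t f) x
      ≤ exp ((2 * Λ + 26 * B) * t) * semigroup (gibbs J h) t (gradSq f) x := by
  set μ := gibbs J h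
  have hρ : IsWeight μ := IsWeight.gibbs J h
  set c₀ := 2 * Λ + 26 * B
  set u : ℝ → (ι → Bool) → ℝ := fun s y => exp (c₀ * s) * gradSq (semigroup μ (t - s) f) y with hu
  set u' : ℝ → (ι → Bool) → ℝ := fun s y =>
    exp (c₀ * s) * c₀ * gradSq (semigroup μ (t - s) f) y + exp (c₀ * s) *
      -(2 * ∑ i, deriv2 i (semigroup μ (t - s) f) y
        * deriv2 i (generator μ (semigroup μ (t - s) f)) y) with hu'
  have hdu : ∀ s y, HasDerivAt (fun r => u r y) (u' s y) s := fun s y => by
    have h1 : HasDerivAt (fun r => exp (c₀ * r)) (exp (c₀ * s) * c₀) s := by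
      simpa using ((hasDerivAt_id s).const_mul c₀).exp
    have h2 : ∀ i, HasDerivAt (fun r => deriv2 i (semigroup μ (t - r) f) y ^ 2)
        (2 * deriv2 i (semigroup μ (t - s) f) y
          * -deriv2 i (generator μ (semigroup μ (t - s) f)) y) s := fun i => by
      have := (((semigroup_deriv_rev (ρ := μ) f t s (update y i true)).sub
        (semigroup_deriv_rev (ρ := μ) f t s (update y i false))).div_const 2).pow 2
      refine this.congr_deriv ?_
      simp only [deriv2, Pi.sub_apply]
      ring
    refine (h1.mul (HasDerivAt.fun_sum (u := univ) fun i _ => h2 i)).congr_deriv ?_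
    simp only [hu', gradSq, mul_sum, ← sum_neg_distrib]
    congr 1
    exact sum_congr rfl fun i _ => by ring
  set ψ := fun s => semigroup μ s (u s) x
  have hψ : ∀ s, HasDerivAt ψ (semigroup μ s (generator μ (u s) + u' s) x) s := fun s =>
    interp_deriv u u' hdu s x
  have hmono : MonotoneOn ψ (Set.Icc 0 t) := by
    refine monotoneOn_of_deriv_nonneg (convex_Icc 0 t)
      (fun s _ => (hψ s).continuousAt.continuousWithinAt)
      (fun s _ => (hψ s).differentiableAt.differentiableWithinAt) fun s hs => ?_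
    rw [interior_Icc] at hs
    rw [(hψ s).deriv]
    refine semigroup_nonneg hρ hs.1.le (fun y => ?_) x
    have hg := gradSq_deriv_le (h := h) hJ (semigroup μ (t - s) f) y
    have e : generator μ (u s) y = exp (c₀ * s) * generator μ (gradSq (semigroup μ (t - s) f)) y := by
      have := congrFun ((genLM μ).map_smul (exp (c₀ * s)) (gradSq (semigroup μ (t - s) f))) y
      simpa [genLM, hu, Pi.smul_def] using this
    rw [Pi.add_apply, e, hu']
    have := mul_le_mul_of_nonneg_left hg (exp_pos (c₀ * s)).le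
    simp only [μ] at this ⊢
    linarith
  have := hmono (Set.left_mem_Icc.2 ht) (Set.right_mem_Icc.2 ht) ht
  simp only [ψ, semigroup_zero, hu, mul_zero, exp_zero, one_mul, sub_zero, sub_self] at this
  refine this.trans (le_of_eq ?_)
  have := congrFun (map_smul (semigroup μ t) (exp (c₀ * t)) (gradSq f)) x
  simpa [Pi.smul_def] using this

lemma generator_sq (hsymm : ∀ i j, J i j = J j i) (hdiag : ∀ i, J i i = 0)
    (w : (ι → Bool) → ℝ) (x : ι → Bool) :
    generator (gibbs J h) (fun y => w y ^ 2) x - 2 * w x * generator (gibbs J h) w x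
      = ∑ i, 2 * (1 - spin (x i) * localMean J h i x) * deriv2 i w x ^ 2 := by
  rw [generator_eq hsymm hdiag, generator_eq hsymm hdiag, mul_sum, ← sum_sub_distrib]
  refine sum_congr rfl fun i _ => ?_
  simp only [deriv2]
  rcases update_spin_cases x i with ⟨hb, hu⟩ | ⟨hb, hu⟩ <;>
  · simp only [hb, hu, spin, Bool.false_eq_true, if_false, if_true]
    ring

/-- Variance of a Lipschitz statistic after time `t`. -/
theorem semigroup_variance_le {B Λ : ℝ} (hJ : BoundedCoupling J B Λ) (hB : 0 ≤ B) {t : ℝ}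
    (ht : 0 ≤ t) (f : (ι → Bool) → ℝ) {G : ℝ} (hG : ∀ y, gradSq f y ≤ G) (x : ι → Bool) :
    semigroup (gibbs J h) t (fun y => f y ^ 2) x - semigroup (gibbs J h) t f x ^ 2
      ≤ 4 * t * exp ((2 * Λ + 26 * B) * t) * G := by
  have hJ' := hJ
  obtain ⟨hsymm, hdiag, -, -, hΛ, -⟩ := hJ'
  set μ := gibbs J h
  have hρ : IsWeight μ := IsWeight.gibbs J h
  set c₀ := 2 * Λ + 26 * B
  have hc0 : 0 ≤ c₀ := by positivity
  have hG0 : 0 ≤ G := (sum_nonneg fun i _ => sq_nonneg _).trans (hG x)
  set u : ℝ → (ι → Bool) → ℝ := fun s y => semigroup μ (t - s) f y ^ 2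
  set u' : ℝ → (ι → Bool) → ℝ := fun s y =>
    2 * semigroup μ (t - s) f y * -generator μ (semigroup μ (t - s) f) y with hu'
  have hdu : ∀ s y, HasDerivAt (fun r => u r y) (u' s y) s := fun s y => by
    refine ((semigroup_deriv_rev (ρ := μ) f t s y).pow 2).congr_deriv ?_
    simp only [hu']
    ring
  set ψ := fun s => semigroup μ s (u s) x - 4 * exp (c₀ * t) * G * s with hψdef
  have hψ : ∀ s, HasDerivAt ψ (semigroup μ s (generator μ (u s) + u' s) x
      - 4 * exp (c₀ * t) * G * 1) s := fun s =>
    (interp_deriv u u' hdu s x).sub ((hasDerivAt_id s).const_mul _)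
  have hanti : AntitoneOn ψ (Set.Icc 0 t) := by
    refine antitoneOn_of_deriv_nonpos (convex_Icc 0 t)
      (fun s _ => (hψ s).continuousAt.continuousWithinAt)
      (fun s _ => (hψ s).differentiableAt.differentiableWithinAt) fun s hs => ?_
    rw [interior_Icc] at hs
    rw [(hψ s).deriv, mul_one, sub_nonpos]
    have hpt : ∀ y, (generator μ (u s) + u' s) y ≤ 4 * exp (c₀ * t) * G := by
      intro y
      have e := generator_sq (h := h) hsymm hdiag (semigroup μ (t - s) f) y
      have h1 : ∑ i, 2 * (1 - spin (y i) * localMean J h i y)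
          * deriv2 i (semigroup μ (t - s) f) y ^ 2 ≤ 4 * gradSq (semigroup μ (t - s) f) y := by
        rw [gradSq, mul_sum]
        refine sum_le_sum fun i _ => mul_le_mul_of_nonneg_right ?_ (sq_nonneg _)
        have := abs_lt.1 (abs_tanh_lt_one (localField J h i y))
        have hm : localMean J h i y = tanh (localField J h i y) := rfl
        cases y i <;> simp [spin, hm] <;> linarith
      have h2 := gradSq_semigroup_le (h := h) hJ (show 0 ≤ t - s by linarith [hs.2]) f y
      have h3 : semigroup μ (t - s) (gradSq f) y ≤ G := by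
        have := semigroup_mono hρ (show 0 ≤ t - s by linarith [hs.2]) hG y
        rwa [semigroup_const hρ] at this
      have h4 : exp (c₀ * (t - s)) ≤ exp (c₀ * t) := by
        apply exp_le_exp.2
        have := mul_nonneg hc0 hs.1.le
        linarith
      have h5 : gradSq (semigroup μ (t - s) f) y ≤ exp (c₀ * t) * G :=
        h2.trans ((mul_le_mul_of_nonneg_left h3 (exp_pos _).le).trans
          (mul_le_mul_of_nonneg_right h4 hG0))
      simp only [Pi.add_apply, hu']
      simp only [u, μ] at e h1 ⊢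
      linarith
    refine (semigroup_mono hρ hs.1.le hpt x).trans (le_of_eq ?_)
    rw [semigroup_const hρ]
  have := hanti (Set.left_mem_Icc.2 ht) (Set.right_mem_Icc.2 ht) ht
  simp only [hψdef, u, semigroup_zero, mul_zero, sub_zero, sub_self] at this
  linarith

/-! ### The slow start -/

lemma mean_sq_semigroup_ge (hsymm : ∀ i j, J i j = J j i) (hdiag : ∀ i, J i i = 0)
    {f : (ι → Bool) → ℝ} (hf : f ≠ 0) {r : ℝ}
    (hr : dirichlet (gibbs J h) f ≤ r * mean (gibbs J h) (fun x => f x ^ 2)) {t : ℝ} (ht : 0 ≤ t) :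
    exp (-r * t) * mean (gibbs J h) (fun x => f x ^ 2)
      ≤ mean (gibbs J h) (fun x => f x * semigroup (gibbs J h) t f x) := by
  set μ := gibbs J h with hμ
  set S : ℝ → (ι → Bool) → ℝ := fun u => semigroup μ u f
  set q : ℝ → ℝ := fun u => mean μ fun x => S u x * S u x with hq
  set p : ℝ → ℝ := fun u => 2 * mean μ fun x => S u x * generator μ (S u) x with hp
  set k : ℝ → ℝ := fun u => mean μ fun x => generator μ (S u) x * generator μ (S u) x with hk
  have hS : ∀ u, S u ≠ 0 := fun u h0 => hf <| by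
    have := semigroup_add (ρ := μ) (-u) u f
    rw [neg_add_cancel, semigroup_zero] at this
    rw [this, show semigroup μ u f = 0 from h0, map_zero]
  have hqp : ∀ u, 0 < q u := fun u => by
    obtain ⟨x, hx⟩ := Function.ne_iff.1 (hS u)
    exact lt_of_lt_of_le (mul_pos (gibbs_pos x) (mul_self_pos.2 hx))
      (single_le_sum (f := fun x => μ x * (S u x * S u x))
        (fun y _ => mul_nonneg (gibbs_pos y).le (mul_self_nonneg _)) (mem_univ x))
  have dq : ∀ u, HasDerivAt q (p u) u := fun u => by
    have h1 : HasDerivAt q (∑ x, μ x * (generator μ (S u) x * S u x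
        + S u x * generator μ (S u) x)) u := HasDerivAt.fun_sum fun x _ =>
      ((semigroup_deriv_apply f u x).mul (semigroup_deriv_apply f u x)).const_mul (μ x)
    refine h1.congr_deriv ?_
    simp only [hp, mean, mul_sum]
    exact sum_congr rfl fun x _ => by ring
  have dG : ∀ u x, HasDerivAt (fun v => generator μ (S v) x) (generator μ (generator μ (S u)) x) u :=
    fun u x => by
    have h1 := (LinearMap.toContinuousLinearMap (genLM μ)).hasFDerivAt.comp_hasDerivAt u
      (semigroup_deriv (ρ := μ) f u)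
    exact (hasDerivAt_pi.1 h1) x
  have dp : ∀ u, HasDerivAt p (4 * k u) u := fun u => by
    have h1 : HasDerivAt p (2 * ∑ x, μ x * (generator μ (S u) x * generator μ (S u) x
        + S u x * generator μ (generator μ (S u)) x)) u :=
      (HasDerivAt.fun_sum fun x _ =>
        ((semigroup_deriv_apply f u x).mul (dG u x)).const_mul (μ x)).const_mul 2
    refine h1.congr_deriv ?_
    have e1 := mean_generator_mul (h := h) hsymm hdiag (S u) (generator μ (S u))
    have e2 := mean_generator_mul (h := h) hsymm hdiag (generator μ (S u)) (S u)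
    have e : mean μ (fun x => S u x * generator μ (generator μ (S u)) x) = k u := by
      simp only [hk, hμ] at e1 e2 ⊢
      rw [e1, e2, neg_inj]
      exact sum_congr rfl fun i _ => sum_congr rfl fun x _ => by ring
    simp only [hk, mean] at e ⊢
    simp only [mul_add, sum_add_distrib]
    rw [e]
    ring
  have hcs : ∀ u, p u ^ 2 ≤ 4 * (q u * k u) := fun u => by
    have := Finset.sum_sq_le_sum_mul_sum_of_sq_le_mul (R := ℝ) univ
      (r := fun x => μ x * (S u x * generator μ (S u) x))
      (f := fun x => μ x * (S u x * S u x))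
      (g := fun x => μ x * (generator μ (S u) x * generator μ (S u) x))
      (fun x _ => mul_nonneg (gibbs_pos x).le (mul_self_nonneg _))
      (fun x _ => mul_nonneg (gibbs_pos x).le (mul_self_nonneg _))
      (fun x _ => le_of_eq (by ring))
    simp only [hp, hq, hk, mean] at *
    rw [mul_pow]
    linarith
  have hmono : Monotone fun u => p u / q u :=
    monotone_of_hasDerivAt_nonneg (fun u => (dp u).div (dq u) (hqp u).ne') fun u => by
      refine div_nonneg ?_ (sq_nonneg _)
      have := hcs u
      linarith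
  have hp0 : -(2 * r) * q 0 ≤ p 0 := by
    have : mean μ (fun x => f x * generator μ f x) = -dirichlet μ f := by
      simp [dirichlet]
    simp only [hp, hq, S, semigroup_zero, this]
    simp only [← sq] at *
    linarith
  have hlow : ∀ u, 0 ≤ u → -(2 * r) * q u ≤ p u := fun u hu => by
    have := hmono hu
    have h0 : -(2 * r) ≤ p 0 / q 0 := (le_div_iff₀ (hqp 0)).2 hp0
    exact (le_div_iff₀ (hqp u)).1 (h0.trans this)
  have hgrow : MonotoneOn (fun u => exp (2 * r * u) * q u) (Set.Ici 0) := by
    have d : ∀ u, HasDerivAt (fun u => exp (2 * r * u) * q u)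
        (exp (2 * r * u) * (2 * r * 1) * q u + exp (2 * r * u) * p u) u := fun u =>
      (((hasDerivAt_id u).const_mul (2 * r)).exp).mul (dq u)
    refine monotoneOn_of_deriv_nonneg (convex_Ici 0)
      (fun u _ => (d u).continuousAt.continuousWithinAt)
      (fun u _ => (d u).differentiableAt.differentiableWithinAt) fun u hu => ?_
    rw [interior_Ici] at hu
    rw [(d u).deriv]
    have := mul_le_mul_of_nonneg_left (hlow u (le_of_lt hu)) (exp_pos (2 * r * u)).le
    linarith
  have := hgrow Set.self_mem_Ici (show t / 2 ∈ Set.Ici 0 from div_nonneg ht two_pos.le)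
    (div_nonneg ht two_pos.le)
  simp only [mul_zero, exp_zero, one_mul] at this
  have e : q (t / 2) = mean μ fun x => f x * semigroup μ t f x := by
    simp only [hq, S]
    rw [semigroup_symm hsymm hdiag, ← semigroup_add, add_halves]
  rw [e, show q 0 = mean μ fun x => f x ^ 2 by simp [hq, S, semigroup_zero, sq],
    show 2 * r * (t / 2) = r * t by ring] at this
  rw [neg_mul, exp_neg, ← div_eq_inv_mul, div_le_iff₀ (exp_pos _), mul_comm]
  exact this

lemma gibbs_flip (hh : ∀ i, h i = 0) (x : ι → Bool) :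
    gibbs J h (fun i => !x i) = gibbs J h x := by
  have : ∀ b, spin (!b) = -spin b := fun b => by cases b <;> simp [spin]
  simp [gibbs, energy, this, hh]

/-- From a suitable start the total variation distance is still above `1/4`. -/
theorem exists_slow_start {B Λ : ℝ} (hJ : BoundedCoupling J B Λ) (hB : 0 ≤ B) [Nonempty ι]
    {t : ℝ} (ht : 0 ≤ t)
    (hsmall : 16 * exp ((2 * Λ + 26 * B + 3) * t) < Fintype.card ι) :
    ∃ x, 1 / 4 < tvDist (gibbs J (0 : ι → ℝ)) t x := by
  have hJ' := hJ
  obtain ⟨hsymm, hdiag, -, -, -, -⟩ := hJ'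
  set μ := gibbs J (0 : ι → ℝ) with hμ
  have hρ : IsWeight μ := IsWeight.gibbs J 0
  have hflip : ∀ x, μ (fun i => !x i) = μ x := gibbs_flip fun _ => rfl
  let e : (ι → Bool) ≃ (ι → Bool) := Involutive.toPerm (fun x k => !x k) fun x => by simp
  set n := (Fintype.card ι : ℝ)
  have hn : 0 < n := Nat.cast_pos.2 Fintype.card_pos
  have hspin : ∀ i, exp (-t)
      ≤ mean μ (fun x => spin (x i) * semigroup μ t (fun y => spin (y i)) x) := by
    intro i
    have hsq : mean μ (fun x => spin (x i) ^ 2) = 1 := by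
      have : ∀ x : ι → Bool, spin (x i) ^ 2 = 1 := fun x => by cases x i <;> simp [spin]
      simp only [mean, this, mul_one]
      exact hρ.2
    have hd : dirichlet μ (fun x => spin (x i)) ≤ 1 * mean μ (fun x => spin (x i) ^ 2) := by
      rw [hsq, one_mul]
      have := dirichlet_linObs_le hsymm hdiag (0 : ι → ℝ) (Pi.single i 1)
      have e1 : linObs (Pi.single i (1:ℝ)) = fun x : ι → Bool => spin (x i) := by
        funext x; simp [linObs, Pi.single_apply]
      rw [e1] at this
      simpa [Pi.single_apply, ite_pow] using this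
    have := mean_sq_semigroup_ge (h := 0) hsymm hdiag
      (f := fun x => spin (x i)) (fun h0 => by
        have := congrFun h0 fun _ => true
        simp [spin] at this) hd ht
    rw [← hμ, hsq, mul_one] at this
    simpa using this
  set P : (ι → Bool) → ℝ := fun x => semigroup μ t (linObs fun i => spin (x i)) x
  have hmeanP : n * exp (-t) ≤ ∑ x, μ x * P x := by
    have e1 : ∀ x, P x = ∑ i, spin (x i) * semigroup μ t (fun y => spin (y i)) x := fun x => by
      have : (linObs fun i => spin (x i))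
          = ∑ i, spin (x i) • fun y : ι → Bool => spin (y i) := by
        funext y; simp [linObs, Finset.sum_apply]
      simp only [P, this, map_sum, map_smul, Finset.sum_apply, Pi.smul_apply, smul_eq_mul]
    calc n * exp (-t) = ∑ _i : ι, exp (-t) := by simp [n]
      _ ≤ ∑ i, mean μ (fun x => spin (x i) * semigroup μ t (fun y => spin (y i)) x) :=
          sum_le_sum fun i _ => hspin i
      _ = _ := by
          simp only [mean, e1, mul_sum]
          exact sum_comm
  obtain ⟨x₀, hx₀⟩ : ∃ x₀, n * exp (-t) ≤ P x₀ := by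
    by_contra hcon
    simp only [not_exists, not_le] at hcon
    have : ∑ x, μ x * P x < ∑ x, μ x * (n * exp (-t)) :=
      sum_lt_sum_of_nonempty univ_nonempty fun x _ => mul_lt_mul_of_pos_left (hcon x) (hρ.1 x)
    rw [← sum_mul, hρ.2, one_mul] at this
    linarith
  refine ⟨x₀, ?_⟩
  set a : ι → ℝ := fun i => spin (x₀ i)
  set F := linObs a
  set M := semigroup μ t F x₀
  have hM : n * exp (-t) ≤ M := hx₀
  have hMp : 0 < M := lt_of_lt_of_le (by positivity) hM
  have hgrad : ∀ y, gradSq F y ≤ n := fun y => by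
    have : ∀ i, deriv2 i F y = a i := fun i => by
      have hu : ∀ b, F (update y i b) = a i * spin b + ∑ k ∈ univ.erase i, a k * spin (y k) :=
        fun b => by
          simp only [F, linObs]
          rw [← add_sum_erase _ _ (mem_univ i), update_self]
          exact congrArg _ (sum_congr rfl fun k hk => by rw [update_of_ne (ne_of_mem_erase hk)])
      rw [deriv2, hu, hu]
      simp only [spin, Bool.false_eq_true, if_false, if_true]
      ring
    simp only [gradSq, this]
    refine le_of_eq ?_
    have : ∀ i, a i ^ 2 = 1 := fun i => by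
      simp only [a]; cases x₀ i <;> simp [spin]
    simp [this, n]
  have hvar := semigroup_variance_le (h := 0) hJ hB ht F hgrad x₀
  set c₀ := 2 * Λ + 26 * B
  have hV : semigroup μ t (fun y => F y ^ 2) x₀ - M ^ 2 < M ^ 2 / 4 := by
    refine hvar.trans_lt ?_
    have h1 : (n * exp (-t)) ^ 2 ≤ M ^ 2 := pow_le_pow_left₀ (by positivity) hM 2
    have h2 : t ≤ exp t := (le_add_of_nonneg_right zero_le_one).trans (add_one_le_exp t)
    have h3 : 16 * t * exp (c₀ * t) * n < (n * exp (-t)) ^ 2 := by
      rw [mul_pow, ← exp_nat_mul]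
      have h4 : 16 * t * exp (c₀ * t) * exp (2 * t) < n := by
        refine lt_of_le_of_lt ?_ hsmall
        rw [show (c₀ + 3) * t = t + c₀ * t + 2 * t by ring, exp_add, exp_add]
        have := mul_le_mul_of_nonneg_right h2
          (show 0 ≤ 16 * (exp (c₀ * t) * exp (2 * t)) by positivity)
        linarith
      have h5 := mul_lt_mul_of_pos_right h4
        (show 0 < n * exp ((2:ℕ) * -t) by positivity)
      have h6 : exp (2 * t) * exp ((2:ℕ) * -t) = 1 := by
        rw [← exp_add]; push_cast; ring_nf; exact exp_zero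
      calc 16 * t * exp (c₀ * t) * n = 16 * t * exp (c₀ * t) * n * (exp (2 * t) * exp ((2:ℕ) * -t)) := by
            rw [h6, mul_one]
        _ = 16 * t * exp (c₀ * t) * exp (2 * t) * (n * exp ((2:ℕ) * -t)) := by ring
        _ < n * (n * exp ((2:ℕ) * -t)) := h5
        _ = _ := by ring
    linarith
  set q : (ι → Bool) → ℝ := fun y => transProb μ t x₀ y
  have hq0 : ∀ y, 0 ≤ q y := fun y =>
    semigroup_nonneg hρ ht (fun z => by by_cases hz : z = y <;> simp [Pi.single_apply, hz]) x₀
  have hexp : ∀ G : (ι → Bool) → ℝ, semigroup μ t G x₀ = ∑ y, q y * G y := by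
    intro G
    have : G = ∑ y, G y • (Pi.single y (1:ℝ) : (ι → Bool) → ℝ) := by
      funext z; simp [Finset.sum_apply, Pi.single_apply]
    conv_lhs => rw [this, map_sum]
    simp only [map_smul, Finset.sum_apply, Pi.smul_apply, smul_eq_mul, q, transProb]
    exact sum_congr rfl fun y _ => mul_comm _ _
  have hqsum : ∑ y, q y = 1 := by
    have := hexp (fun _ => 1)
    rw [semigroup_const hρ] at this
    simpa using this.symm
  have hMq : M = ∑ y, q y * F y := hexp F
  rw [hexp] at hV
  set S := univ.filter (fun y => 0 < F y) with hSdef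
  have hout : ∑ y ∈ Sᶜ, q y < 1 / 4 := by
    have h1 : M ^ 2 * ∑ y ∈ Sᶜ, q y ≤ ∑ y, q y * (F y - M) ^ 2 := by
      rw [mul_sum]
      refine (sum_le_sum fun y hy => ?_).trans (sum_le_univ_sum_of_nonneg fun y =>
        mul_nonneg (hq0 y) (sq_nonneg _))
      rw [mul_comm]
      refine mul_le_mul_of_nonneg_left ?_ (hq0 y)
      simp only [hSdef, mem_compl, mem_filter, mem_univ, true_and, not_lt] at hy
      rw [← neg_sq (F y - M)]
      exact pow_le_pow_left₀ hMp.le (by linarith) 2
    have h2 : ∑ y, q y * (F y - M) ^ 2 = ∑ y, q y * F y ^ 2 - M ^ 2 := by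
      have e2 : ∀ y, q y * (F y - M) ^ 2 = q y * F y ^ 2 - 2 * M * (q y * F y) + M ^ 2 * q y :=
        fun y => by ring
      simp only [e2, sum_add_distrib, sum_sub_distrib, ← mul_sum, ← hMq, hqsum]
      ring
    have hM2 : 0 < M ^ 2 := pow_pos hMp 2
    by_contra hcon
    have := mul_le_mul_of_nonneg_left (not_lt.1 hcon) hM2.le
    linarith
  have hμS : ∑ y ∈ S, μ y ≤ 1 / 2 := by
    set T := univ.filter (fun y => F y < 0) with hTdef
    have hodd : ∀ y, F (e y) = -F y := fun y => by
      change F (fun k => !y k) = -F y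
      simp only [F, linObs, ← sum_neg_distrib]
      exact sum_congr rfl fun i _ => by cases y i <;> simp [spin]
    have hST : ∑ y ∈ S, μ y = ∑ y ∈ T, μ y := by
      refine sum_equiv e (fun y => ?_) fun y _ => (hflip y).symm
      simp only [hSdef, hTdef, mem_filter, mem_univ, true_and, hodd]
      constructor <;> intro hy <;> linarith
    have hdis : Disjoint S T := by
      rw [disjoint_left]
      intro y hy hy'
      simp only [hSdef, hTdef, mem_filter, mem_univ, true_and] at hy hy'
      linarith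
    have := sum_le_univ_sum_of_nonneg (s := S ∪ T) fun y => (hρ.1 y).le
    rw [sum_union hdis, hρ.2, ← hST] at this
    linarith
  have hsplit := sum_add_sum_compl S q
  rw [hqsum] at hsplit
  have hsplit2 := sum_add_sum_compl S μ
  rw [hρ.2] at hsplit2
  have h1 : ∑ y ∈ S, (q y - μ y) ≤ ∑ y ∈ S, |q y - μ y| := sum_le_sum fun y _ => le_abs_self _
  have h2 : ∑ y ∈ Sᶜ, -(q y - μ y) ≤ ∑ y ∈ Sᶜ, |q y - μ y| :=
    sum_le_sum fun y _ => neg_le_abs _
  simp only [sum_sub_distrib, sum_neg_distrib] at h1 h2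
  have h3 := sum_add_sum_compl S fun y => |q y - μ y|
  change 1 / 4 < (∑ y, |q y - μ y|) / 2
  linarith

end Vale.Agent.P150
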