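import Mathlib
import Vale.Agent.P150.Disorder
import Vale.Agent.P150.Factor
import Vale.Agent.P150.Semigroup
import Vale.Agent.P150.Lower

/-!
# Mixing time of heat-bath dynamics for the Sherrington-Kirkpatrick model
-/

namespace Vale.Agent.P150

open MeasureTheory ProbabilityTheory Finset Filter Real Matrix
open scoped ENNReal Topology MatrixOrder

/-- The three quantitative properties of the couplings, two-sided in the quadratic form. -/
def DisorderEvent (β ε : ℝ) {n : ℕ} (g : Fin n × Fin n → ℝ) : Prop :=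
  (∀ i j, |skCoupling β g i j| ≤ √2 * β * (ε / 2)) ∧
  (∀ i, ∑ j, skCoupling β g i j ^ 2 ≤ β ^ 2 * (1 + ε)) ∧
  (∀ a : Fin n → ℝ, |∑ i, ∑ j, skCoupling β g i j * a i * a j|
    ≤ β * (2 + 4 * ε) * ∑ i, a i ^ 2)

lemma skCoupling_neg (β : ℝ) {n : ℕ} (g : Fin n × Fin n → ℝ) (i j : Fin n) :
    skCoupling β (fun p => -g p) i j = -skCoupling β g i j := by
  simp only [skCoupling]
  split_ifs <;> ring

lemma gauss_map_neg (n : ℕ) :
    (gauss (Fin n × Fin n)).map (fun g p => -g p) = gauss (Fin n × Fin n) := by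
  have h := gauss_map_rowMap (κ := Fin n × Fin n) (ι := Fin n × Fin n)
    (fun p k => if k = p then (-1 : ℝ) else 0) fun p q => by
      rcases eq_or_ne p q with rfl | hpq
      · simp
      · simp [hpq, Ne.symm hpq]
  have e : rowMap (fun p k : Fin n × Fin n => if k = p then (-1 : ℝ) else 0)
      = fun g p => -g p := by
    funext g p
    simp [rowMap]
  rwa [e] at h

/-- The disorder event has probability tending to one. -/
theorem tendsto_of_disorderEvent {β ε : ℝ} (hβ : 0 ≤ β) (hε : 0 < ε) (hε1 : ε ≤ 1)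
    {Gd : ∀ n, Set (Fin n × Fin n → ℝ)}
    (hG : ∀ᶠ n in atTop, ∀ g, DisorderEvent β ε g → g ∈ Gd n) :
    Tendsto (fun n : ℕ => Measure.pi (fun _ : Fin n × Fin n => gaussianReal 0 1) (Gd n))
      atTop (𝓝 1) := by
  set q := Real.exp (-(ε ^ 2 / 16))
  have hq : Tendsto (fun n : ℕ => (1:ℝ≥0∞) - 2 * ENNReal.ofReal (6 * (n : ℝ) ^ 2 * q ^ n)) atTop
      (𝓝 1) := by
    have h1 := ((tendsto_pow_const_mul_const_pow_of_lt_one 2 (Real.exp_pos _).le
      (Real.exp_lt_one_iff.2 (by have := pow_pos hε 2; linarith) : q < 1)).const_mul (6:ℝ))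
    have h2 := ENNReal.tendsto_ofReal h1
    simp only [mul_zero, ENNReal.ofReal_zero, ← mul_assoc] at h2
    have h3 := ENNReal.Tendsto.const_mul (a := 2) h2 (Or.inr (by simp))
    simpa using ENNReal.Tendsto.sub (tendsto_const_nhds (x := (1:ℝ≥0∞))) h3
      (Or.inl ENNReal.one_ne_top)
  refine tendsto_of_tendsto_of_tendsto_of_le_of_le' hq tendsto_const_nhds ?_
    (Eventually.of_forall fun n => prob_le_one)
  filter_upwards [eventually_gt_atTop 0, hG] with n hn hGn
  set Bd := badArray β (√2 * β * (ε / 2)) (β ^ 2 * (1 + ε)) (β * (2 + 4 * ε)) n with hBd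
  have hcov : (Set.univ : Set (Fin n × Fin n → ℝ))
      ⊆ Gd n ∪ (Bd ∪ (fun g p => -g p) ⁻¹' Bd) := by
    intro g _
    by_cases hb : g ∈ Bd
    · exact Or.inr (Or.inl hb)
    by_cases hb' : (fun p => -g p) ∈ Bd
    · exact Or.inr (Or.inr hb')
    refine Or.inl (hGn g ?_)
    simp only [hBd, badArray, Set.mem_compl_iff, not_not, Set.mem_setOf_eq] at hb hb'
    refine ⟨hb.1, hb.2.1, fun a => abs_le.2 ⟨?_, hb.2.2 a⟩⟩
    have := hb'.2.2 a
    simp only [skCoupling_neg, neg_mul, sum_neg_distrib] at this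
    linarith
  have hmeas := measurableSet_badArray β (√2 * β * (ε / 2)) (β ^ 2 * (1 + ε)) (β * (2 + 4 * ε)) n
  have h2 : gauss (Fin n × Fin n) ((fun g p => -g p) ⁻¹' Bd) = gauss (Fin n × Fin n) Bd := by
    rw [← Measure.map_apply (by fun_prop) hmeas, gauss_map_neg]
  have h3 := (measure_mono hcov).trans ((measure_union_le (μ := gauss (Fin n × Fin n)) _ _).trans
    (add_le_add le_rfl (measure_union_le _ _)))
  rw [measure_univ, h2, ← two_mul] at h3
  change 1 - 2 * ENNReal.ofReal (6 * (n : ℝ) ^ 2 * q ^ n) ≤ gauss (Fin n × Fin n) (Gd n)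
  refine tsub_le_iff_right.2 (h3.trans (add_le_add le_rfl (mul_le_mul le_rfl ?_ bot_le bot_le)))
  exact gauss_badArray_le hβ hε hε1 hn

/-- A square root of `J + Λ I`. -/
lemma exists_factor {n : ℕ} {J : Fin n → Fin n → ℝ} {Λ : ℝ} (hsymm : ∀ i j, J i j = J j i)
    (hq : ∀ a : Fin n → ℝ, |∑ i, ∑ j, J i j * a i * a j| ≤ Λ * ∑ i, a i ^ 2) :
    ∃ R : Fin n → Fin n → ℝ, (∀ i j, ∑ k, R k i * R k j = J i j + if i = j then Λ else 0) ∧
      ∀ a : Fin n → ℝ, ∑ k, (∑ i, R k i * a i) ^ 2 ≤ 2 * Λ * ∑ i, a i ^ 2 := by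
  set A : Matrix (Fin n) (Fin n) ℝ := Matrix.of fun i j => J i j + if i = j then Λ else 0
  have hform : ∀ a : Fin n → ℝ, ∑ i, ∑ j, A i j * a i * a j
      = ∑ i, ∑ j, J i j * a i * a j + Λ * ∑ i, a i ^ 2 := by
    intro a
    simp only [A, Matrix.of_apply, add_mul, ite_mul, zero_mul, sum_add_distrib, sum_ite_eq,
      mem_univ, if_true]
    rw [mul_sum]
    congr 1
    exact sum_congr rfl fun i _ => by ring
  have hA : A.PosSemidef := by
    refine posSemidef_iff_dotProduct_mulVec.2 ⟨?_, fun a => ?_⟩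
    · ext i j
      simp [A, hsymm i j, eq_comm]
    · have : star a ⬝ᵥ A *ᵥ a = ∑ i, ∑ j, A i j * a i * a j := by
        simp only [dotProduct, mulVec, star_trivial, mul_sum]
        exact sum_congr rfl fun i _ => sum_congr rfl fun j _ => by ring
      rw [this, hform]
      linarith [(abs_le.1 (hq a)).1]
  set R := CFC.sqrt A
  have hRR : R * R = A := CFC.sqrt_mul_sqrt_self A hA.nonneg
  have hRs : ∀ i j, R i j = R j i := fun i j => by
    have := congrFun (congrFun (nonneg_iff_posSemidef.1 (CFC.sqrt_nonneg A)).isHermitian j) i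
    simpa [Matrix.conjTranspose_apply] using this
  have hgram : ∀ i j, ∑ k, R k i * R k j = J i j + if i = j then Λ else 0 := by
    intro i j
    have := congrFun (congrFun hRR i) j
    simp only [Matrix.mul_apply, A, Matrix.of_apply] at this
    rw [← this]
    exact sum_congr rfl fun k _ => by rw [hRs k i]
  refine ⟨fun k i => R k i, hgram, fun a => ?_⟩
  have e : ∑ k, (∑ i, R k i * a i) ^ 2 = ∑ i, ∑ j, A i j * a i * a j := by
    simp only [sq, sum_mul_sum]
    rw [sum_comm, sum_congr rfl fun i _ => sum_comm]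
    refine sum_congr rfl fun i _ => sum_congr rfl fun j _ => ?_
    rw [show A i j = ∑ k, R k i * R k j from (hgram i j).symm, sum_mul, sum_mul]
    exact sum_congr rfl fun k _ => by ring
  rw [e, hform]
  linarith [(abs_le.1 (hq a)).2]

lemma log_inv_gibbs_le {n : ℕ} {J : Fin n → Fin n → ℝ} {Λ : ℝ}
    (hq : ∀ a : Fin n → ℝ, |∑ i, ∑ j, J i j * a i * a j| ≤ Λ * ∑ i, a i ^ 2)
    (x : Fin n → Bool) :
    log (1 / gibbs J (0 : Fin n → ℝ) x) ≤ (1 + Λ) * n := by
  have hE : ∀ y : Fin n → Bool, |energy J (0 : Fin n → ℝ) y| ≤ Λ * n / 2 := fun y => by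
    have := hq fun i => spin (y i)
    have e : ∀ i, spin (y i) ^ 2 = 1 := fun i => by cases y i <;> simp [spin]
    simp only [e, sum_const, card_univ, Fintype.card_fin, nsmul_eq_mul, mul_one] at this
    simp only [energy, Pi.zero_apply, zero_mul, sum_const_zero, add_zero]
    rw [abs_div, abs_two]
    linarith
  have hle : 1 / gibbs J (0 : Fin n → ℝ) x ≤ exp ((1 + Λ) * n) := by
    rw [gibbs, one_div_div, div_le_iff₀ (exp_pos _)]
    calc ∑ y, exp (energy J (0 : Fin n → ℝ) y) ≤ ∑ _y : Fin n → Bool, exp (Λ * n / 2) :=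
          sum_le_sum fun y _ => exp_le_exp.2 ((le_abs_self _).trans (hE y))
      _ = (2 : ℝ) ^ n * exp (Λ * n / 2) := by simp
      _ ≤ exp n * exp (Λ * n / 2) := by
          refine mul_le_mul_of_nonneg_right ?_ (exp_pos _).le
          calc (2 : ℝ) ^ n ≤ exp 1 ^ n := pow_le_pow_left₀ zero_le_two
                (by linarith [add_one_le_exp (1:ℝ)]) n
            _ = exp n := by rw [← exp_nat_mul, mul_one]
      _ ≤ _ := by
          rw [← exp_add, ← exp_add]
          refine exp_le_exp.2 ?_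
          linarith [(abs_le.1 (hE x)).1]
  calc log (1 / gibbs J (0 : Fin n → ℝ) x) ≤ log (exp ((1 + Λ) * n)) :=
        log_le_log (one_div_pos.2 (gibbs_pos x)) hle
    _ = _ := log_exp _

lemma goodCoupling_scale {ι : Type*} [Fintype ι] {J : ι → ι → ℝ} {δ B Λ : ℝ}
    (hJ : GoodCoupling J δ B Λ) (hΛ : 0 ≤ Λ) {t : ℝ} (ht : 0 ≤ t) (ht1 : t ≤ 1) :
    GoodCoupling (fun i j => t * J i j) δ B Λ := by
  obtain ⟨hsymm, hdiag, hδ, hsmall, hrow, hop, h2⟩ := hJ
  refine ⟨fun i j => by simp only [hsymm i j], fun i => by simp only [hdiag, mul_zero], hδ, fun i j => ?_,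
    fun i => ?_, fun a => ?_, h2⟩
  · rw [abs_mul, abs_of_nonneg ht]
    exact (mul_le_of_le_one_left (abs_nonneg _) ht1).trans (hsmall i j)
  · refine le_trans (sum_le_sum fun j _ => ?_) (hrow i)
    rw [mul_pow]
    exact mul_le_of_le_one_left (sq_nonneg _) (pow_le_one₀ ht ht1)
  · simp only [mul_assoc, ← mul_sum]
    have h1 := hop a
    simp only [mul_assoc] at h1
    calc t * _ ≤ t * (Λ * ∑ i, a i ^ 2) := mul_le_mul_of_nonneg_left h1 ht
      _ ≤ 1 * (Λ * ∑ i, a i ^ 2) := mul_le_mul_of_nonneg_right ht1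
          (mul_nonneg hΛ (sum_nonneg fun i _ => sq_nonneg _))
      _ = _ := one_mul _

/-- Gap and `O(log n)` mixing for `β < 1/2`. -/
theorem upper_bounds {β : ℝ} (hβ : 0 ≤ β) (hβ2 : β < 1 / 2) :
    ∃ κ > 0, ∃ C > 0, Tendsto (fun n : ℕ =>
      Measure.pi (fun _ : Fin n × Fin n => gaussianReal 0 1)
        {g | (∀ (h : Fin n → ℝ) (f : (Fin n → Bool) → ℝ),
            κ * variance (gibbs (skCoupling β g) h) f ≤ dirichlet (gibbs (skCoupling β g) h) f) ∧
          ∀ t : ℝ, C * log n ≤ t → ∀ x, tvDist (gibbs (skCoupling β g) 0) t x ≤ 1 / 4})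
      atTop (𝓝 1) := by
  set ε := (1 - 2 * β) / 200 with hε_def
  have hε : 0 < ε := by rw [hε_def]; linarith
  have hε1 : ε ≤ 1 / 200 := by rw [hε_def]; linarith
  set κ := (1 - 2 * β) / 2 with hκdef
  have hκ : 0 < κ := by rw [hκdef]; linarith
  set Λ := β * (2 + 4 * ε) with hΛdef
  set K := exp (32 * (2 * Λ) * (1 / κ) + 7) with hKdef
  have hK : 0 < K := exp_pos _
  have hΛ : 0 ≤ Λ := mul_nonneg hβ (by linarith)
  refine ⟨κ, hκ, 2 * K, by positivity,
    tendsto_of_disorderEvent hβ hε (by linarith) ?_⟩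
  filter_upwards [eventually_ge_atTop ⌈64 * (1 + Λ)⌉₊, eventually_gt_atTop 0] with n hn64 hn0
  intro g ⟨h1, h2, h3⟩
  set J := skCoupling β g
  set δ := √2 * β * (ε / 2) with hδ
  set B := β ^ 2 * (1 + ε) with hBdef
  have hδ1 : δ ≤ ε / 2 := by
    rw [hδ]
    have : √2 ≤ 2 := by rw [Real.sqrt_le_iff]; norm_num
    calc √2 * β * (ε / 2) ≤ 2 * (1 / 2) * (ε / 2) := by gcongr
      _ = ε / 2 := by ring
  have hb2 : β ^ 2 ≤ β := by
    rw [sq]
    exact mul_le_of_le_one_left hβ (by linarith)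
  have hgood : GoodCoupling J δ B Λ :=
    ⟨skCoupling_symm β g, skCoupling_self β g, ⟨by positivity, by linarith⟩, h1, h2,
      fun a => (le_abs_self _).trans (h3 a), by
        have := mul_le_mul_of_nonneg_right hb2 (show 0 ≤ 1 + ε by linarith)
        have := mul_nonneg hβ hε.le
        rw [hBdef, hΛdef]
        linarith⟩
  have hκle : κ ≤ 1 - Λ - 120 * δ * B := by
    have hB1 : B ≤ 1 := by
      rw [hBdef]
      calc β ^ 2 * (1 + ε) ≤ (1 / 2) ^ 2 * 2 := by gcongr; linarith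
        _ ≤ 1 := by norm_num
    have e1 : 120 * δ * B ≤ 120 * (ε / 2) * 1 := by gcongr
    have e2 : β * ε ≤ 1 / 2 * ε := by gcongr
    rw [hκdef, hΛdef]
    linarith
  have hgap : ∀ {J' : Fin n → Fin n → ℝ}, GoodCoupling J' δ B Λ → ∀ h f,
      κ * variance (gibbs J' h) f ≤ dirichlet (gibbs J' h) f := fun hJ' h f =>
    le_trans (mul_le_mul_of_nonneg_right hκle
      (sum_nonneg fun x _ => mul_nonneg (gibbs_pos x).le (sq_nonneg _)))
      (gap_of_goodCoupling hJ' h f)
  refine ⟨fun h f => hgap hgood h f, fun t ht x => ?_⟩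
  obtain ⟨R, hR1, hR2⟩ := exists_factor (skCoupling_symm β g) h3
  have hE : EntFactor (gibbs J (0 : Fin n → ℝ)) K :=
    entFactor_of_covBound (by positivity : (0:ℝ) < 1 / κ) (by positivity) hR2 hR1
      (fun s hs hs1 => by
        have hg := goodCoupling_scale hgood hΛ hs hs1
        exact covBound_of_gap hg.1 hg.2.1 hκ (hgap hg)) 0
  have hn : (0:ℝ) < n := Nat.cast_pos.2 hn0
  have hn1 : (1:ℝ) ≤ n := Nat.one_le_cast.2 hn0
  have ht0 : 0 ≤ t := le_trans (by have := log_nonneg hn1; positivity) ht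
  have hsq := tvDist_sq_le (h := 0) (skCoupling_symm β g) (skCoupling_self β g) hK hE ht0 x
  have hl := log_inv_gibbs_le h3 x
  have hexp : exp (-t / K) * ((n:ℝ) * n) ≤ 1 := by
    have : exp (-t / K) ≤ exp (-(2 * log n)) := by
      refine exp_le_exp.2 ?_
      rw [neg_div, neg_le_neg_iff, le_div_iff₀ hK]
      linarith
    refine (mul_le_mul_of_nonneg_right this (by positivity)).trans (le_of_eq ?_)
    rw [exp_neg, two_mul, exp_add, exp_log hn]
    field_simp
  have h64 : 64 * (1 + Λ) ≤ n := Nat.ceil_le.1 hn64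
  have h5 : tvDist (gibbs J (0 : Fin n → ℝ)) t x ^ 2 ≤ (1 / 4) ^ 2 := by
    refine hsq.trans ?_
    have a1 := mul_le_mul_of_nonneg_left hl (exp_pos (-t / K)).le
    have a2 := mul_le_mul_of_nonneg_left h64
      (show 0 ≤ exp (-t / K) * n by positivity)
    linarith
  exact (pow_le_pow_iff_left₀
    (div_nonneg (sum_nonneg fun y _ => abs_nonneg _) two_pos.le) (by norm_num) two_ne_zero).1 h5

/-- The mixing time is at least a constant times `log n`, and the gap at most one, for all `β`. -/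
theorem lower_bounds {β : ℝ} (hβ : 0 ≤ β) :
    ∃ c > 0, Tendsto (fun n : ℕ =>
      Measure.pi (fun _ : Fin n × Fin n => gaussianReal 0 1)
        {g | (∀ t : ℝ, 0 ≤ t → t ≤ c * log n →
            ∃ x, 1 / 4 < tvDist (gibbs (skCoupling β g) 0) t x) ∧
          ∃ f, 0 < variance (gibbs (skCoupling β g) 0) f ∧
            dirichlet (gibbs (skCoupling β g) 0) f ≤ variance (gibbs (skCoupling β g) 0) f})
      atTop (𝓝 1) := by
  set ε := 1 / (30 * (β + 1)) with hεdef
  have hε : 0 < ε := by positivity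
  have hε1 : ε ≤ 1 := by
    rw [hεdef, div_le_one (by positivity)]
    linarith
  set Λ := β * (2 + 4 * ε) with hΛdef
  set B := β ^ 2 * (1 + ε) with hBdef
  set d := 2 * Λ + 26 * B + 3 with hddef
  have hd : 0 < d := by positivity
  refine ⟨1 / (2 * d), by positivity, tendsto_of_disorderEvent hβ hε hε1 ?_⟩
  filter_upwards [eventually_gt_atTop 257] with n hn
  intro g ⟨h1, h2, h3⟩
  set J := skCoupling β g
  have hsmall : ∀ i j, |J i j| ≤ 1 / 30 := fun i j => by
    refine (h1 i j).trans ?_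
    have h2' : √2 ≤ 2 := by rw [Real.sqrt_le_iff]; norm_num
    calc √2 * β * (ε / 2) ≤ 2 * β * (ε / 2) := by gcongr
      _ = β / (β + 1) * (1 / 30) := by rw [hεdef]; field_simp
      _ ≤ 1 * (1 / 30) := by
          gcongr
          rw [div_le_one (by linarith)]
          linarith
      _ = _ := one_mul _
  have hbc : BoundedCoupling J B Λ :=
    ⟨skCoupling_symm β g, skCoupling_self β g, hsmall, h2, by positivity, h3⟩
  have : Nonempty (Fin n) := ⟨⟨0, by omega⟩⟩
  refine ⟨fun t ht0 ht => exists_slow_start hbc (by positivity) ht0 ?_,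
    zero_field_witness (skCoupling_symm β g) (skCoupling_self β g)⟩
  rw [Fintype.card_fin]
  have hn' : (257:ℝ) < n := by exact_mod_cast hn
  have hnp : (0:ℝ) < n := by linarith
  have hs := Real.sq_sqrt hnp.le
  have hexp : exp (d * t) ≤ √(n : ℝ) := by
    rw [← exp_log (Real.sqrt_pos.2 hnp), log_sqrt hnp.le]
    refine exp_le_exp.2 ?_
    calc d * t ≤ d * (1 / (2 * d) * log n) := mul_le_mul_of_nonneg_left ht hd.le
      _ = log n / 2 := by field_simp
  have h16 : 16 < √(n : ℝ) := Real.lt_sqrt (by norm_num) |>.2 (by linarith)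
  calc 16 * exp (d * t) ≤ 16 * √(n : ℝ) := by linarith
    _ < √(n : ℝ) * √(n : ℝ) := mul_lt_mul_of_pos_right h16 (by linarith)
    _ = n := Real.mul_self_sqrt hnp.le

end Vale.Agent.P150
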