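import Mathlib
import Vale.Agent.P150.Edge

/-!
# Gaussian integration by parts in one coordinate
-/

namespace Vale.Agent.P150

open MeasureTheory ProbabilityTheory Finset Real Function
open scoped NNReal ENNReal

variable {ι : Type*} [Fintype ι]

/-- Polynomial growth. -/
def PolyGrowth (F : (ι → ℝ) → ℝ) : Prop :=
  ∃ (A : ℝ) (m : ℕ), ∀ g, |F g| ≤ A * (1 + ∑ q, |g q|) ^ m

lemma integrable_one_add_abs_pow (m : ℕ) :
    Integrable (fun x : ℝ => (1 + |x|) ^ m) (gaussianReal 0 1) := by
  have hid : MemLp (fun x : ℝ => x) ((m : ℝ≥0) : ℝ≥0∞) (gaussianReal 0 1) :=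
    memLp_id_gaussianReal (μ := 0) (v := 1) (m : ℝ≥0)
  have habs : MemLp (fun x : ℝ => |x|) ((m : ℝ≥0) : ℝ≥0∞) (gaussianReal 0 1) := by
    simpa [Real.norm_eq_abs] using hid.norm
  have h1 : MemLp (fun _ : ℝ => (1:ℝ)) ((m : ℝ≥0) : ℝ≥0∞) (gaussianReal 0 1) := memLp_const 1
  have h : MemLp (fun x : ℝ => 1 + |x|) ((m : ℝ≥0) : ℝ≥0∞) (gaussianReal 0 1) := h1.add habs
  rcases eq_or_ne m 0 with rfl | hm
  · simp
  have h2 := h.integrable_norm_rpow (by simpa using hm) (by simp)
  refine h2.congr (ae_of_all _ fun x => ?_)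
  simp [abs_of_nonneg (show 0 ≤ 1 + |x| by positivity)]

lemma one_add_sum_le_prod (g : ι → ℝ) : 1 + ∑ q, |g q| ≤ ∏ q, (1 + |g q|) := by
  classical
  suffices ∀ s : Finset ι, 1 + ∑ q ∈ s, |g q| ≤ ∏ q ∈ s, (1 + |g q|) from this univ
  intro s
  induction s using Finset.induction_on with
  | empty => simp
  | @insert a s ha ih =>
    rw [sum_insert ha, prod_insert ha]
    have h0 := mul_nonneg (abs_nonneg (g a)) (sum_nonneg fun q (_ : q ∈ s) => abs_nonneg (g q))
    have := mul_le_mul_of_nonneg_left ih (show 0 ≤ 1 + |g a| by positivity)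
    linarith

lemma PolyGrowth.integrable {F : (ι → ℝ) → ℝ} (hF : PolyGrowth F) (hc : Continuous F) :
    Integrable F (gauss ι) := by
  obtain ⟨A, m, hA⟩ := hF
  have h : Integrable (fun g : ι → ℝ => ∏ q, (1 + |g q|) ^ m) (gauss ι) :=
    Integrable.fintype_prod fun _ => integrable_one_add_abs_pow m
  refine (h.const_mul |A|).mono' hc.aestronglyMeasurable (ae_of_all _ fun g => ?_)
  rw [Real.norm_eq_abs]
  refine (hA g).trans ?_
  rw [prod_pow]
  have h1 := pow_le_pow_left₀ (by positivity) (one_add_sum_le_prod g) m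
  exact mul_le_mul (le_abs_self A) h1 (by positivity) (abs_nonneg A)

lemma ibp_real {f f' : ℝ → ℝ} (hd : ∀ x, HasDerivAt f (f' x) x) (hf' : Continuous f') {A : ℝ}
    {m : ℕ} (hA : ∀ x, |f x| ≤ A * (1 + |x|) ^ m) (hA' : ∀ x, |f' x| ≤ A * (1 + |x|) ^ m) :
    ∫ x, x * f x ∂gaussianReal 0 1 = ∫ x, f' x ∂gaussianReal 0 1 := by
  set φ : ℝ → ℝ := gaussianPDFReal 0 1 with hφ
  have hfc : Continuous f := continuous_iff_continuousAt.2 fun x => (hd x).continuousAt
  have hA0 : 0 ≤ A := by
    have := (abs_nonneg _).trans (hA 0)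
    simpa using this
  have i1 : Integrable f (gaussianReal 0 1) :=
    ((integrable_one_add_abs_pow m).const_mul A).mono' hfc.aestronglyMeasurable
      (ae_of_all _ fun x => hA x)
  have i2 : Integrable f' (gaussianReal 0 1) :=
    ((integrable_one_add_abs_pow m).const_mul A).mono' hf'.aestronglyMeasurable
      (ae_of_all _ fun x => hA' x)
  have i3 : Integrable (fun x => x * f x) (gaussianReal 0 1) := by
    refine ((integrable_one_add_abs_pow (m + 1)).const_mul A).mono'
      (continuous_id.mul hfc).aestronglyMeasurable (ae_of_all _ fun x => ?_)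
    rw [Real.norm_eq_abs, abs_mul, pow_succ]
    have := mul_le_mul (show |x| ≤ 1 + |x| by linarith) (hA x) (abs_nonneg _) (by positivity)
    linarith
  have conv : ∀ {u : ℝ → ℝ}, Integrable u (gaussianReal 0 1) →
      Integrable (fun x => u x * φ x) := by
    intro u hu
    rw [gaussianReal_of_var_ne_zero _ one_ne_zero,
      integrable_withDensity_iff (measurable_gaussianPDF _ _)
        (ae_of_all _ fun x => gaussianPDF_lt_top)] at hu
    simpa [toReal_gaussianPDF] using hu
  have hφd : ∀ x, HasDerivAt φ (-x * φ x) x := by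
    intro x
    have h1 := (((hasDerivAt_pow 2 x).neg).div_const 2).exp.const_mul (√(2 * π * 1))⁻¹
    have e : φ = fun x => (√(2 * π * 1))⁻¹ * exp (-x ^ 2 / 2) := by
      funext y
      simp [hφ, gaussianPDFReal_def]
    rw [e]
    refine h1.congr_deriv ?_
    simp only [Pi.neg_apply]
    push_cast
    ring
  have key := integral_mul_deriv_eq_deriv_mul_of_integrable (u := f) (v := φ) (u' := f')
    (v' := fun x => -x * φ x) (fun x _ => hd x) (fun x _ => hφd x)
    (((conv i3).neg).congr (ae_of_all _ fun x => by simp; ring))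
    (conv i2) (conv i1)
  rw [integral_gaussianReal_eq_integral_smul one_ne_zero,
    integral_gaussianReal_eq_integral_smul one_ne_zero]
  simp only [smul_eq_mul, ← hφ]
  have e1 : ∫ x, φ x * (x * f x) = -∫ x, f x * (-x * φ x) := by
    rw [← integral_neg]
    exact integral_congr_ae (ae_of_all _ fun x => by ring)
  have e2 : ∫ x, φ x * f' x = ∫ x, f' x * φ x :=
    integral_congr_ae (ae_of_all _ fun x => mul_comm _ _)
  rw [e1, e2, key, neg_neg]

variable [DecidableEq ι]

lemma sum_abs_update_le (g : ι → ℝ) (p : ι) (s : ℝ) :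
    1 + ∑ q, |update g p s q| ≤ (1 + |s|) * (1 + ∑ q, |g q|) := by
  have h1 : ∑ q, |update g p s q| ≤ |s| + ∑ q, |g q| := by
    rw [← add_sum_erase _ _ (mem_univ p), update_self]
    refine add_le_add le_rfl ((sum_congr rfl fun q hq => ?_).trans_le
      (sum_le_sum_of_subset_of_nonneg (erase_subset _ _) fun q _ _ => abs_nonneg _))
    rw [update_of_ne (ne_of_mem_erase hq)]
  have h2 : 0 ≤ ∑ q, |g q| := sum_nonneg fun q _ => abs_nonneg _
  have := mul_nonneg (abs_nonneg s) h2
  linarith

/-- `E[g_p F] = E[∂_p F]`. -/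
theorem gauss_ibp (p : ι) {F G : (ι → ℝ) → ℝ} (hF : Continuous F) (hG : Continuous G)
    (hd : ∀ g, HasDerivAt (fun s => F (update g p s)) (G g) (g p))
    (hFb : PolyGrowth F) (hGb : PolyGrowth G) :
    ∫ g, g p * F g ∂gauss ι = ∫ g, G g ∂gauss ι := by
  have hFb' : PolyGrowth fun g => g p * F g := by
    obtain ⟨A, m, hA⟩ := hFb
    refine ⟨A, m + 1, fun g => ?_⟩
    rw [abs_mul, pow_succ]
    have h1 : |g p| ≤ 1 + ∑ q, |g q| := by
      have := single_le_sum (f := fun q => |g q|) (fun q _ => abs_nonneg _) (mem_univ p)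
      linarith
    have := mul_le_mul h1 (hA g) (abs_nonneg _) (by positivity)
    linarith
  let : Fintype {q // q = p} := Subtype.fintype _
  set e := MeasurableEquiv.piEquivPiSubtypeProd (fun _ : ι => ℝ) (fun q => q = p)
  have he : MeasurePreserving e (gauss ι) ((Measure.pi fun _ => gaussianReal 0 1).prod
      (Measure.pi fun _ => gaussianReal 0 1)) :=
    measurePreserving_piEquivPiSubtypeProd (fun _ : ι => gaussianReal 0 1) fun q => q = p
  set base : ({q // ¬ q = p} → ℝ) → ι → ℝ := fun z => e.symm (0, z)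
  have hsymm : ∀ a z, e.symm (a, z) = update (base z) p (a ⟨p, rfl⟩) := by
    intro a z
    funext q
    rcases eq_or_ne q p with rfl | hq
    · simp [e, base, MeasurableEquiv.piEquivPiSubtypeProd, Equiv.piEquivPiSubtypeProd]
    · simp [e, base, MeasurableEquiv.piEquivPiSubtypeProd, Equiv.piEquivPiSubtypeProd, hq]
  let e1 := MeasurableEquiv.funUnique {q // q = p} ℝ
  have he1 : MeasurePreserving e1 (Measure.pi fun _ : {q // q = p} => gaussianReal 0 1)
      (gaussianReal 0 1) := by
    have h := measurePreserving_funUnique (gaussianReal 0 1) {q // q = p}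
    rwa [Subsingleton.elim (Unique.fintype : Fintype {q // q = p}) inferInstance] at h
  have red : ∀ {H : (ι → ℝ) → ℝ}, Integrable H (gauss ι) → ∫ g, H g ∂gauss ι
      = ∫ z, (∫ s, H (update (base z) p s) ∂gaussianReal 0 1)
          ∂Measure.pi fun _ : {q // ¬ q = p} => gaussianReal 0 1 := by
    intro H hH
    rw [← (he.symm e).integral_comp e.symm.measurableEmbedding]
    rw [integral_prod_symm (fun z => H (e.symm z)) ((he.symm e).integrable_comp_of_integrable hH)]
    refine integral_congr_ae (ae_of_all _ fun z => ?_)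
    simp only [hsymm]
    exact he1.integral_comp e1.measurableEmbedding (fun s => H (update (base z) p s))
  rw [red (hFb'.integrable ((continuous_apply p).mul hF)), red (hGb.integrable hG)]
  refine integral_congr_ae (ae_of_all _ fun z => ?_)
  simp only [update_self]
  obtain ⟨A, m, hA⟩ := hFb
  obtain ⟨A', m', hA'⟩ := hGb
  set g₀ := base z
  set S := 1 + ∑ q, |g₀ q|
  have hS : 1 ≤ S := le_add_of_nonneg_right (sum_nonneg fun q _ => abs_nonneg _)
  have hS0 : (0:ℝ) ≤ S := zero_le_one.trans hS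
  have hpoly : ∀ {H : (ι → ℝ) → ℝ} {B : ℝ} {k : ℕ}, (∀ g, |H g| ≤ B * (1 + ∑ q, |g q|) ^ k) →
      k ≤ m + m' → ∀ s, |H (update g₀ p s)| ≤ |B| * S ^ (m + m') * (1 + |s|) ^ (m + m') := by
    intro H B k hB hk s
    refine (hB _).trans ?_
    have h1 : (1:ℝ) ≤ 1 + |s| := le_add_of_nonneg_right (abs_nonneg s)
    calc B * (1 + ∑ q, |update g₀ p s q|) ^ k
        ≤ |B| * (1 + ∑ q, |update g₀ p s q|) ^ k := by
          gcongr; exact le_abs_self B
      _ ≤ |B| * ((1 + |s|) * S) ^ k := by
          gcongr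
          exact sum_abs_update_le g₀ p s
      _ ≤ |B| * ((1 + |s|) * S) ^ (m + m') := by
          gcongr
          exact one_le_mul_of_one_le_of_one_le h1 hS
      _ = _ := by rw [mul_pow]; ring
  refine ibp_real (A := |A| * S ^ (m + m') + |A'| * S ^ (m + m')) (m := m + m') (fun s => ?_)
    (hG.comp (continuous_const.update p continuous_id)) (fun s => ?_) (fun s => ?_)
  · have := hd (update g₀ p s)
    simpa using this
  · refine (hpoly hA (by omega) s).trans ?_
    have : 0 ≤ |A'| * S ^ (m + m') * (1 + |s|) ^ (m + m') := by positivity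
    linarith
  · refine (hpoly hA' (by omega) s).trans ?_
    have : 0 ≤ |A| * S ^ (m + m') * (1 + |s|) ^ (m + m') := by positivity
    linarith

end Vale.Agent.P150
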