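import Mathlib
import Vale.Agent.P150.Disorder
import Vale.Agent.P150.GaussIBP
import Vale.Agent.P150.Factor

/-!
# Derivatives in the disorder and a priori bounds
-/

namespace Vale.Agent.P150

open MeasureTheory ProbabilityTheory Finset Function Real Matrix
open scoped ENNReal

variable {n : ℕ}

/-- A realisation of the disorder. -/
abbrev Dis (n : ℕ) := Fin n × Fin n → ℝ

/-- The normalised disorder matrix `g_ij / √n`. -/
noncomputable def wig (g : Dis n) : Matrix (Fin n) (Fin n) ℝ := Matrix.of (skCoupling 1 g)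

/-- Zero-field Gibbs expectation. -/
noncomputable def gExp (β : ℝ) (g : Dis n) (Φ : (Fin n → Bool) → ℝ) : ℝ :=
  mean (gibbs (skCoupling β g) 0) Φ

/-- Correlation matrix. -/
noncomputable def corr (β : ℝ) (g : Dis n) : Matrix (Fin n) (Fin n) ℝ :=
  Matrix.of fun i j => gExp β g fun x => spin (x i) * spin (x j)

/-- Operator norm of the disorder matrix. -/
noncomputable def opN (g : Dis n) : ℝ := ‖Matrix.toEuclideanCLM (𝕜 := ℝ) (wig g)‖

/-- Sum of squared entries. -/
def frob {α γ : Type*} [Fintype α] [Fintype γ] (M : Matrix α γ ℝ) : ℝ := ∑ i, ∑ j, M i j ^ 2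

/-! ### Matrices -/

lemma frob_nonneg {α γ : Type*} [Fintype α] [Fintype γ] (M : Matrix α γ ℝ) : 0 ≤ frob M :=
  sum_nonneg fun _ _ => sum_nonneg fun _ _ => sq_nonneg _

lemma frob_transpose {α γ : Type*} [Fintype α] [Fintype γ] (M : Matrix α γ ℝ) :
    frob Mᵀ = frob M := sum_comm

lemma frob_one : frob (1 : Matrix (Fin n) (Fin n) ℝ) = n := by
  simp [frob, Matrix.one_apply]

lemma sq_entry_le_frob {α γ : Type*} [Fintype α] [Fintype γ] (M : Matrix α γ ℝ) (i : α) (j : γ) :
    M i j ^ 2 ≤ frob M :=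
  (single_le_sum (f := fun j => M i j ^ 2) (fun _ _ => sq_nonneg _) (mem_univ j)).trans
    (single_le_sum (f := fun i => ∑ j, M i j ^ 2) (fun _ _ => sum_nonneg fun _ _ => sq_nonneg _)
      (mem_univ i))

lemma abs_inner_le {α γ : Type*} [Fintype α] [Fintype γ] (A B : Matrix α γ ℝ) {a b : ℝ}
    (ha : frob A ≤ a ^ 2) (hb : frob B ≤ b ^ 2) (ha0 : 0 ≤ a) (hb0 : 0 ≤ b) :
    |∑ i, ∑ j, A i j * B i j| ≤ a * b := by
  refine abs_le_of_sq_le_sq ?_ (mul_nonneg ha0 hb0)
  have h := sum_mul_sq_le_sq_mul_sq (univ : Finset (α × γ)) (fun p => A p.1 p.2)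
    (fun p => B p.1 p.2)
  simp only [Fintype.sum_prod_type] at h
  calc _ ≤ frob A * frob B := h
    _ ≤ a ^ 2 * b ^ 2 := mul_le_mul ha hb (frob_nonneg _) (sq_nonneg _)
    _ = _ := by ring

lemma frob_add_smul_le {α γ : Type*} [Fintype α] [Fintype γ] (A B : Matrix α γ ℝ) (a b : ℝ) :
    frob (a • A + b • B) ≤ 2 * (a ^ 2 * frob A + b ^ 2 * frob B) := by
  simp only [frob, mul_add, mul_sum, ← sum_add_distrib, Matrix.add_apply, Matrix.smul_apply,
    smul_eq_mul]
  refine sum_le_sum fun i _ => sum_le_sum fun j _ => ?_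
  have := two_mul_le_add_sq (a * A i j) (b * B i j)
  have e1 : (a * A i j + b * B i j) ^ 2
      = (a * A i j) ^ 2 + 2 * (a * A i j) * (b * B i j) + (b * B i j) ^ 2 := by ring
  rw [e1]
  rw [mul_pow, mul_pow] at *
  linarith

lemma wig_symm (g : Dis n) : (wig g)ᵀ = wig g := by
  ext i j
  simp [wig, skCoupling_symm 1 g i j]

lemma wig_pow_symm (g : Dis n) (k : ℕ) : ((wig g) ^ k)ᵀ = (wig g) ^ k := by
  rw [Matrix.transpose_pow, wig_symm]

lemma wig_pow_apply_symm (g : Dis n) (k : ℕ) (i j : Fin n) :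
    ((wig g) ^ k) i j = ((wig g) ^ k) j i :=
  (congrFun (congrFun (wig_pow_symm g k) j) i)

lemma skCoupling_smul (β : ℝ) (g : Dis n) (i j : Fin n) :
    skCoupling β g i j = β * wig g i j := by
  simp only [wig, Matrix.of_apply, skCoupling]
  split_ifs <;> ring

lemma opN_nonneg (g : Dis n) : 0 ≤ opN g := norm_nonneg _

lemma mulVec_sq_le (g : Dis n) (v : Fin n → ℝ) :
    ∑ i, (wig g *ᵥ v) i ^ 2 ≤ opN g ^ 2 * ∑ i, v i ^ 2 := by
  have h := (Matrix.toEuclideanCLM (𝕜 := ℝ) (wig g)).le_opNorm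
    (WithLp.toLp 2 v : EuclideanSpace ℝ (Fin n))
  have h2 := pow_le_pow_left₀ (norm_nonneg _) h 2
  rw [mul_pow, EuclideanSpace.real_norm_sq_eq, EuclideanSpace.real_norm_sq_eq,
    Matrix.toEuclideanCLM_toLp] at h2
  exact h2

lemma frob_wig_mul {γ : Type*} [Fintype γ] (g : Dis n) (M : Matrix (Fin n) γ ℝ) :
    frob (wig g * M) ≤ opN g ^ 2 * frob M := by
  unfold frob
  rw [sum_comm, sum_comm (f := fun i j => M i j ^ 2), mul_sum]
  refine sum_le_sum fun j _ => ?_
  exact mulVec_sq_le g fun i => M i j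

lemma frob_pow_mul {γ : Type*} [Fintype γ] (g : Dis n) (M : Matrix (Fin n) γ ℝ) (k : ℕ) :
    frob ((wig g) ^ k * M) ≤ (opN g ^ k) ^ 2 * frob M := by
  induction k with
  | zero => simp
  | succ k ih =>
    rw [pow_succ' (wig g), Matrix.mul_assoc]
    calc _ ≤ opN g ^ 2 * frob ((wig g) ^ k * M) := frob_wig_mul g _
      _ ≤ opN g ^ 2 * ((opN g ^ k) ^ 2 * frob M) := by gcongr
      _ = _ := by ring

lemma frob_mul_pow (g : Dis n) (M : Matrix (Fin n) (Fin n) ℝ) (k : ℕ) :
    frob (M * (wig g) ^ k) ≤ (opN g ^ k) ^ 2 * frob M := by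
  rw [← frob_transpose, Matrix.transpose_mul, wig_pow_symm, ← frob_transpose M]
  exact frob_pow_mul g _ k

lemma frob_pow (g : Dis n) (k : ℕ) : frob ((wig g) ^ k) ≤ (√n * opN g ^ k) ^ 2 := by
  have := frob_pow_mul g (1 : Matrix (Fin n) (Fin n) ℝ) k
  rw [Matrix.mul_one, frob_one] at this
  rw [mul_pow, sq_sqrt (Nat.cast_nonneg n)]
  linarith

lemma opN_le_sqrt_frob (g : Dis n) : opN g ≤ √(frob (wig g)) := by
  refine ContinuousLinearMap.opNorm_le_bound _ (Real.sqrt_nonneg _) fun v => ?_
  rw [← pow_le_pow_iff_left₀ (norm_nonneg _) (by positivity) two_ne_zero, mul_pow,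
    sq_sqrt (frob_nonneg _), EuclideanSpace.real_norm_sq_eq, EuclideanSpace.real_norm_sq_eq]
  obtain ⟨w, rfl⟩ : ∃ w : Fin n → ℝ, WithLp.toLp 2 w = v := ⟨v.ofLp, rfl⟩
  rw [Matrix.toEuclideanCLM_toLp]
  change ∑ i, (∑ j, wig g i j * w j) ^ 2 ≤ frob (wig g) * ∑ i, w i ^ 2
  rw [frob, sum_mul]
  exact sum_le_sum fun i _ => sum_mul_sq_le_sq_mul_sq _ _ _

lemma opN_le_sum (g : Dis n) : opN g ≤ 2 * ∑ q, |g q| := by
  have hsum : 0 ≤ ∑ q, |g q| := sum_nonneg fun q _ => abs_nonneg _
  refine (opN_le_sqrt_frob g).trans (Real.sqrt_le_iff.2 ⟨by positivity, ?_⟩)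
  have hw : ∀ i j, |wig g i j| ≤ |g (i, j)| + |g (j, i)| := by
    intro i j
    have hn : (1:ℝ) ≤ √n := Real.one_le_sqrt.2 (Nat.one_le_cast.2 (Fin.pos i))
    have hd : ∀ x : ℝ, |1 / √(n:ℝ) * x| ≤ |x| := fun x => by
      rw [abs_mul, abs_div, abs_one, abs_of_nonneg (Real.sqrt_nonneg _)]
      exact mul_le_of_le_one_left (abs_nonneg x) ((div_le_one (by linarith)).2 hn)
    simp only [wig, Matrix.of_apply, skCoupling]
    split_ifs
    · exact (hd _).trans (le_add_of_nonneg_right (abs_nonneg _))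
    · exact (hd _).trans (le_add_of_nonneg_left (abs_nonneg _))
    · simp; positivity
  have h1 : ∑ i, ∑ j, |wig g i j| ≤ 2 * ∑ q, |g q| := by
    calc _ ≤ ∑ i, ∑ j, (|g (i, j)| + |g (j, i)|) :=
          sum_le_sum fun i _ => sum_le_sum fun j _ => hw i j
      _ = _ := by
          simp only [sum_add_distrib]
          rw [sum_comm (f := fun i j => |g (j, i)|), ← two_mul, Fintype.sum_prod_type]
  have h2 : frob (wig g) ≤ (∑ i, ∑ j, |wig g i j|) ^ 2 := by
    have := sum_sq_le_sq_sum_of_nonneg (s := (univ : Finset (Fin n × Fin n)))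
      (f := fun p => |wig g p.1 p.2|) fun p _ => abs_nonneg _
    simp only [sq_abs, Fintype.sum_prod_type] at this
    exact this
  refine h2.trans (pow_le_pow_left₀ ?_ h1 2)
  exact sum_nonneg fun i _ => sum_nonneg fun j _ => abs_nonneg _

lemma opN_le_of_form (g : Dis n) {L : ℝ} (hL : 0 < L)
    (hq : ∀ a : Fin n → ℝ, |∑ i, ∑ j, skCoupling 1 g i j * a i * a j| ≤ L * ∑ i, a i ^ 2) :
    opN g ≤ L := by
  refine ContinuousLinearMap.opNorm_le_bound _ hL.le fun v => ?_
  rw [← pow_le_pow_iff_left₀ (norm_nonneg _) (by positivity) two_ne_zero, mul_pow,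
    EuclideanSpace.real_norm_sq_eq, EuclideanSpace.real_norm_sq_eq]
  obtain ⟨w, rfl⟩ : ∃ w : Fin n → ℝ, WithLp.toLp 2 w = v := ⟨v.ofLp, rfl⟩
  rw [Matrix.toEuclideanCLM_toLp]
  change ∑ i, (wig g *ᵥ w) i ^ 2 ≤ L ^ 2 * ∑ i, w i ^ 2
  set y := wig g *ᵥ w
  have h1 := bilinear_le_form (skCoupling_symm 1 g) hq y fun i => L * w i
  have h2 : ∑ i, ∑ j, skCoupling 1 g i j * y i * (L * w j) = L * ∑ i, y i ^ 2 := by
    rw [mul_sum]
    refine sum_congr rfl fun i _ => ?_
    have : y i = ∑ j, skCoupling 1 g i j * w j := rfl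
    rw [sq]
    nth_rewrite 3 [this]
    rw [mul_sum, mul_sum]
    exact sum_congr rfl fun j _ => by ring
  rw [h2] at h1
  simp only [mul_pow, ← mul_sum] at h1
  have : L * ∑ i, y i ^ 2 ≤ L * (L ^ 2 * ∑ i, w i ^ 2) := by linarith
  exact le_of_mul_le_mul_left this hL
where
  bilinear_le_form {J : Fin n → Fin n → ℝ} (hsymm : ∀ i j, J i j = J j i)
      (hq : ∀ a : Fin n → ℝ, |∑ i, ∑ j, J i j * a i * a j| ≤ L * ∑ i, a i ^ 2)
      (u v : Fin n → ℝ) :
      ∑ i, ∑ j, J i j * u i * v j ≤ L / 2 * (∑ i, u i ^ 2 + ∑ i, v i ^ 2) := by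
    have h1 := (le_abs_self _).trans (hq fun i => u i + v i)
    have h2 := (neg_le_abs _).trans (hq fun i => u i - v i)
    have e : ∑ i, ∑ j, J i j * v i * u j = ∑ i, ∑ j, J i j * u i * v j := by
      rw [sum_comm]
      exact sum_congr rfl fun i _ => sum_congr rfl fun j _ => by rw [hsymm j i]; ring
    simp only [add_sq, sub_sq, mul_add, add_mul, mul_sub, sub_mul, sum_add_distrib,
      sum_sub_distrib] at h1 h2
    linarith

lemma continuous_opN : Continuous (opN : Dis n → ℝ) := by
  have h1 : Continuous fun g : Dis n => wig g := continuous_matrix fun i j => by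
    simp only [wig, Matrix.of_apply, skCoupling]
    split_ifs <;> fun_prop
  have h2 : Continuous fun M : Matrix (Fin n) (Fin n) ℝ => Matrix.toEuclideanCLM (𝕜 := ℝ) M :=
    LinearMap.continuous_of_finiteDimensional
      (Matrix.toEuclideanCLM (n := Fin n) (𝕜 := ℝ)).toAlgEquiv.toLinearMap
  exact continuous_norm.comp (h2.comp h1)

/-! ### Gradients -/

/-- `G g i j` is the derivative of `F` in the symmetrised matrix entry `(i, j)`. -/
def HasGrad (F : Dis n → ℝ) (G : Dis n → Matrix (Fin n) (Fin n) ℝ) : Prop :=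
  Continuous F ∧ (∀ i j, Continuous fun g => G g i j) ∧ (∀ g i j, G g i j = G g j i) ∧
  ∀ g i j, i < j → HasDerivAt (fun s => F (update g (i, j) s)) (G g i j / √n) (g (i, j))

lemma HasGrad.const (c : ℝ) : HasGrad (n := n) (fun _ => c) (fun _ => 0) :=
  ⟨continuous_const, fun _ _ => by simp only [Matrix.zero_apply]; exact continuous_const,
    fun _ _ _ => rfl, fun g i j _ => by simpa using hasDerivAt_const (g (i, j)) c⟩

lemma HasGrad.add {F H : Dis n → ℝ} {G K : Dis n → Matrix (Fin n) (Fin n) ℝ}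
    (hF : HasGrad F G) (hH : HasGrad H K) :
    HasGrad (fun g => F g + H g) (fun g => G g + K g) := by
  refine ⟨hF.1.add hH.1, fun i j => (hF.2.1 i j).add (hH.2.1 i j), fun g i j => ?_,
    fun g i j hij => ?_⟩
  · simp only [Matrix.add_apply, hF.2.2.1 g i j, hH.2.2.1 g i j]
  · exact ((hF.2.2.2 g i j hij).add (hH.2.2.2 g i j hij)).congr_deriv
      (by simp only [Matrix.add_apply, add_div])

lemma HasGrad.sum {α : Type*} (s : Finset α) {F : α → Dis n → ℝ}
    {G : α → Dis n → Matrix (Fin n) (Fin n) ℝ} (h : ∀ a ∈ s, HasGrad (F a) (G a)) :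
    HasGrad (fun g => ∑ a ∈ s, F a g) (fun g => ∑ a ∈ s, G a g) := by
  refine ⟨continuous_finsetSum _ fun a ha => (h a ha).1, fun i j => ?_, fun g i j => ?_,
    fun g i j hij => ?_⟩
  · simp only [Matrix.sum_apply]
    exact continuous_finsetSum _ fun a ha => (h a ha).2.1 i j
  · simp only [Matrix.sum_apply]
    exact sum_congr rfl fun a ha => (h a ha).2.2.1 g i j
  · simp only [Matrix.sum_apply, sum_div]
    exact HasDerivAt.fun_sum fun a ha => (h a ha).2.2.2 g i j hij

lemma HasGrad.mul {F H : Dis n → ℝ} {G K : Dis n → Matrix (Fin n) (Fin n) ℝ}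
    (hF : HasGrad F G) (hH : HasGrad H K) :
    HasGrad (fun g => F g * H g) (fun g => F g • K g + H g • G g) := by
  refine ⟨hF.1.mul hH.1, fun i j => ?_, fun g i j => ?_, fun g i j hij => ?_⟩
  · simp only [Matrix.add_apply, Matrix.smul_apply, smul_eq_mul]
    exact (hF.1.mul (hH.2.1 i j)).add (hH.1.mul (hF.2.1 i j))
  · simp only [Matrix.add_apply, Matrix.smul_apply, hF.2.2.1 g i j, hH.2.2.1 g i j]
  · refine ((hF.2.2.2 g i j hij).mul (hH.2.2.2 g i j hij)).congr_deriv ?_
    simp only [update_eq_self, Matrix.add_apply, Matrix.smul_apply, smul_eq_mul]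
    ring

lemma HasGrad.const_mul {F : Dis n → ℝ} {G : Dis n → Matrix (Fin n) (Fin n) ℝ} (c : ℝ)
    (hF : HasGrad F G) : HasGrad (fun g => c * F g) (fun g => c • G g) := by
  refine ⟨continuous_const.mul hF.1, fun i j => ?_, fun g i j => ?_, fun g i j hij => ?_⟩
  · simp only [Matrix.smul_apply, smul_eq_mul]
    exact continuous_const.mul (hF.2.1 i j)
  · simp only [Matrix.smul_apply, hF.2.2.1 g i j]
  · exact ((hF.2.2.2 g i j hij).const_mul c).congr_deriv
      (by simp only [Matrix.smul_apply, smul_eq_mul]; ring)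

/-- The derivative of `wig g a b`. -/
def unitPair (a b : Fin n) : Matrix (Fin n) (Fin n) ℝ :=
  Matrix.of fun i j => if i = j then 0 else
    (if a = i ∧ b = j then 1 else 0) + (if a = j ∧ b = i then 1 else 0)

lemma hasGrad_wig (a b : Fin n) : HasGrad (fun g => wig g a b) (fun _ => unitPair a b) := by
  refine ⟨?_, fun i j => continuous_const, fun g i j => ?_, fun g i j hij => ?_⟩
  · simp only [wig, Matrix.of_apply, skCoupling]
    split_ifs <;> fun_prop
  · simp only [unitPair, Matrix.of_apply, eq_comm (a := i) (b := j)]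
    split_ifs <;> simp_all
  · have key : ∀ s, wig (update g (i, j) s) a b
        = wig g a b + (s - g (i, j)) * (unitPair a b i j / √n) := by
      intro s
      simp only [wig, Matrix.of_apply, skCoupling, unitPair, if_neg hij.ne]
      rcases lt_trichotomy a b with h | h | h
      · have h2 : ¬ (a = j ∧ b = i) := fun e => lt_asymm hij (e.1 ▸ e.2 ▸ h)
        rw [if_pos h, if_pos h, if_neg h2]
        by_cases e : a = i ∧ b = j
        · obtain ⟨rfl, rfl⟩ := e
          simp; ring
        · rw [update_of_ne (fun e' => e (Prod.ext_iff.1 e')), if_neg e]; simp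
      · subst h
        have h1 : ¬ (a = i ∧ a = j) := fun e => hij.ne (e.1.symm.trans e.2)
        have h2 : ¬ (a = j ∧ a = i) := fun e => h1 e.symm
        simp [h1, h2]
      · have h1 : ¬ (a = i ∧ b = j) := fun e => lt_asymm hij (e.1 ▸ e.2 ▸ h)
        rw [if_neg h.not_gt, if_pos h, if_neg h.not_gt, if_pos h, if_neg h1]
        by_cases e : a = j ∧ b = i
        · obtain ⟨rfl, rfl⟩ := e
          simp; ring
        · rw [update_of_ne (fun e' => e (Prod.ext_iff.1 e').symm), if_neg e]; simp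
    simp only [key]
    exact ((((hasDerivAt_id (g (i, j))).sub_const _).mul_const _).const_add _).congr_deriv
      (by ring)

/-- The derivative of `(W ^ k) a b`. -/
noncomputable def gradPow (g : Dis n) (k : ℕ) (a b : Fin n) : Matrix (Fin n) (Fin n) ℝ :=
  Matrix.of fun i j => if i = j then 0 else
    ∑ l ∈ range k, (((wig g) ^ l) a i * ((wig g) ^ (k - 1 - l)) j b
      + ((wig g) ^ l) a j * ((wig g) ^ (k - 1 - l)) i b)

lemma sum_unitPair_mul (v : Fin n → ℝ) (b i j : Fin n) :
    ∑ c, v c * unitPair c b i j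
      = if i = j then 0 else v i * (1 : Matrix (Fin n) (Fin n) ℝ) j b
        + v j * (1 : Matrix (Fin n) (Fin n) ℝ) i b := by
  by_cases h : i = j
  · simp [unitPair, h]
  · simp [unitPair, h, mul_add, sum_add_distrib, Matrix.one_apply, ite_and, eq_comm (a := b)]

lemma hasGrad_pow (k : ℕ) : ∀ a b : Fin n,
    HasGrad (fun g => ((wig g) ^ k) a b) (fun g => gradPow g k a b) := by
  induction k with
  | zero =>
    intro a b
    simp only [pow_zero]
    convert HasGrad.const (n := n) ((1 : Matrix (Fin n) (Fin n) ℝ) a b) using 1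
    funext g
    ext i j
    simp [gradPow]
  | succ k ih =>
    intro a b
    have h := HasGrad.sum (n := n) univ (fun c _ => (ih a c).mul (hasGrad_wig c b))
    convert h using 1
    · funext g
      rw [pow_succ, Matrix.mul_apply]
    · funext g
      ext i j
      simp only [Matrix.sum_apply, Matrix.add_apply, Matrix.smul_apply, smul_eq_mul]
      rw [sum_add_distrib, sum_unitPair_mul]
      simp only [gradPow, Matrix.of_apply]
      by_cases hij : i = j
      · simp [hij]
      · simp only [if_neg hij]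
        rw [sum_range_succ, add_comm]
        congr 1
        · simp
        · simp only [mul_sum]
          rw [sum_comm]
          refine sum_congr rfl fun l hl => ?_
          rw [mem_range] at hl
          rw [show k + 1 - 1 - l = (k - 1 - l) + 1 by omega, pow_succ, Matrix.mul_apply,
            Matrix.mul_apply, mul_sum, mul_sum, ← sum_add_distrib]
          exact sum_congr rfl fun c _ => by ring

/-- The covariance derivative of a Gibbs expectation. -/
noncomputable def gradExp (β : ℝ) (g : Dis n) (Φ : (Fin n → Bool) → ℝ) :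
    Matrix (Fin n) (Fin n) ℝ :=
  Matrix.of fun i j =>
    β * (gExp β g (fun x => Φ x * (spin (x i) * spin (x j))) - gExp β g Φ * corr β g i j)

lemma continuous_gExp (β : ℝ) (Φ : (Fin n → Bool) → ℝ) :
    Continuous fun g : Dis n => gExp β g Φ := by
  have he : ∀ x : Fin n → Bool,
      Continuous fun g : Dis n => exp (energy (skCoupling β g) 0 x) := fun x => by
    refine continuous_exp.comp ?_
    have hc : ∀ i j, Continuous fun g : Dis n => skCoupling β g i j := fun i j => by
      simp only [skCoupling]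
      split_ifs <;> fun_prop
    simp only [energy]
    fun_prop
  refine continuous_finsetSum _ fun x _ => ?_
  exact ((he x).div (continuous_finsetSum _ fun y _ => he y)
    (fun g => partition_pos.ne')).mul continuous_const

lemma energy_update_disorder (β : ℝ) (g : Dis n) {i j : Fin n} (hij : i < j) (s : ℝ)
    (x : Fin n → Bool) :
    energy (skCoupling β (update g (i, j) s)) 0 x
      = energy (skCoupling β g) 0 x + (s - g (i, j)) * (β / √n * (spin (x i) * spin (x j))) := by
  have key : ∀ a b, skCoupling β (update g (i, j) s) a b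
      = skCoupling β g a b + (s - g (i, j)) * (β / √n) *
        ((if a = i ∧ b = j then 1 else 0) + (if a = j ∧ b = i then 1 else 0)) := by
    intro a b
    simp only [skCoupling]
    rcases lt_trichotomy a b with h | h | h
    · have h2 : ¬ (a = j ∧ b = i) := fun e => lt_asymm hij (e.1 ▸ e.2 ▸ h)
      rw [if_pos h, if_pos h, if_neg h2]
      by_cases e : a = i ∧ b = j
      · obtain ⟨rfl, rfl⟩ := e
        simp; ring
      · rw [update_of_ne (fun e' => e (Prod.ext_iff.1 e')), if_neg e]; simp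
    · subst h
      have h1 : ¬ (a = i ∧ a = j) := fun e => hij.ne (e.1.symm.trans e.2)
      have h2 : ¬ (a = j ∧ a = i) := fun e => h1 e.symm
      simp [h1, h2]
    · have h1 : ¬ (a = i ∧ b = j) := fun e => lt_asymm hij (e.1 ▸ e.2 ▸ h)
      rw [if_neg h.not_gt, if_pos h, if_neg h.not_gt, if_pos h, if_neg h1]
      by_cases e : a = j ∧ b = i
      · obtain ⟨rfl, rfl⟩ := e
        simp; ring
      · rw [update_of_ne (fun e' => e (Prod.ext_iff.1 e').symm), if_neg e]; simp
  simp only [energy, key, add_mul, mul_add, sum_add_distrib, ite_and, mul_ite, ite_mul, mul_one,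
    mul_zero, zero_mul, sum_ite_eq', mem_univ, if_true, sum_ite_irrel, sum_const_zero,
    Pi.zero_apply, add_zero]
  ring

lemma hasGrad_gExp (β : ℝ) (Φ : (Fin n → Bool) → ℝ) :
    HasGrad (fun g => gExp β g Φ) (fun g => gradExp β g Φ) := by
  refine ⟨continuous_gExp β Φ, fun i j => ?_, fun g i j => ?_, fun g i j hij => ?_⟩
  · simp only [gradExp, corr, Matrix.of_apply]
    exact continuous_const.mul
      ((continuous_gExp β _).sub ((continuous_gExp β Φ).mul (continuous_gExp β _)))
  · have e : ∀ Ψ : (Fin n → Bool) → ℝ, gExp β g (fun x => Ψ x * (spin (x i) * spin (x j)))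
        = gExp β g (fun x => Ψ x * (spin (x j) * spin (x i))) := fun Ψ =>
      congrArg _ (funext fun x => by ring)
    have e1 : corr β g i j = corr β g j i :=
      congrArg (gExp β g) (funext fun x => mul_comm (spin (x i)) (spin (x j)))
    simp only [gradExp, Matrix.of_apply, e Φ, e1]
  · set ω : (Fin n → Bool) → ℝ → ℝ := fun x s =>
      exp (energy (skCoupling β g) 0 x + (s - g (i, j)) * (β / √n * (spin (x i) * spin (x j))))
      with hω
    have hfun : (fun s => gExp β (update g (i, j) s) Φ)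
        = fun s => (∑ x, ω x s * Φ x) / ∑ x, ω x s := by
      funext s
      simp only [gExp, mean, gibbs, energy_update_disorder β g hij, hω, sum_div]
      exact sum_congr rfl fun x _ => by ring
    rw [hfun]
    set u : (Fin n → Bool) → ℝ := fun x => β / √n * (spin (x i) * spin (x j))
    have h0 : ∀ x, ω x (g (i, j)) = exp (energy (skCoupling β g) 0 x) := fun x => by simp [hω]
    have hd : ∀ x, HasDerivAt (ω x) (ω x (g (i, j)) * u x) (g (i, j)) := fun x =>
      ((((hasDerivAt_id (g (i, j))).sub_const _).mul_const (u x)).const_add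
        (energy (skCoupling β g) 0 x)).exp.congr_deriv (by simp [hω, u])
    have hnum := HasDerivAt.fun_sum (u := univ) fun x _ => (hd x).mul_const (Φ x)
    have hden := HasDerivAt.fun_sum (u := univ) fun x _ => hd x
    have hpos : (∑ x, ω x (g (i, j))) ≠ 0 := (sum_pos (fun x _ => exp_pos _) univ_nonempty).ne'
    refine (hnum.div hden hpos).congr_deriv ?_
    simp only [gradExp, corr, Matrix.of_apply, gExp, mean, gibbs, h0, u]
    have hZ : (∑ x, exp (energy (skCoupling β g) 0 x)) ≠ 0 := partition_pos.ne'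
    simp only [div_mul_eq_mul_div, ← sum_div, mul_div_assoc']
    field_simp
    simp only [mul_sub (a := β), mul_sum, sum_mul]
    congr 1
    congr 1
    · exact sum_comm.trans (sum_congr rfl fun x _ => sum_congr rfl fun y _ => by ring)
    · exact sum_congr rfl fun x _ => sum_congr rfl fun y _ => by ring

lemma PolyGrowth.of_opN {F : Dis n → ℝ} {A : ℝ} {m : ℕ} (h : ∀ g, |F g| ≤ A * (1 + opN g) ^ m) :
    PolyGrowth F := by
  refine ⟨|A| * 2 ^ m, m, fun g => (h g).trans ?_⟩
  rw [mul_assoc, ← mul_pow]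
  refine mul_le_mul (le_abs_self A) (pow_le_pow_left₀ (by positivity [opN_nonneg g]) ?_ m)
    (by positivity [opN_nonneg g]) (abs_nonneg A)
  have := opN_le_sum g
  linarith

/-- Gaussian integration by parts for a matrix entry. -/
theorem integral_wig_mul {F : Dis n → ℝ} {G : Dis n → Matrix (Fin n) (Fin n) ℝ}
    (hFG : HasGrad F G) (hF : PolyGrowth F) (hG : ∀ i j, PolyGrowth fun g => G g i j)
    (i j : Fin n) :
    ∫ g, wig g i j * F g ∂gauss (Fin n × Fin n)
      = if i = j then 0 else (∫ g, G g i j ∂gauss (Fin n × Fin n)) / n := by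
  have key : ∀ a b : Fin n, a < b →
      ∫ g, g (a, b) * F g ∂gauss (Fin n × Fin n)
        = (∫ g, G g a b ∂gauss (Fin n × Fin n)) / √n := fun a b hab => by
    rw [← integral_div]
    refine gauss_ibp (a, b) hFG.1 ((hFG.2.1 a b).div_const _) (fun g => hFG.2.2.2 g a b hab) hF ?_
    obtain ⟨A, m, hA⟩ := hG a b
    refine ⟨|A|, m, fun g => ?_⟩
    have hn : (1:ℝ) ≤ √n := Real.one_le_sqrt.2 (Nat.one_le_cast.2 (Fin.pos a))
    rw [abs_div, abs_of_nonneg (Real.sqrt_nonneg _)]
    refine (div_le_self (abs_nonneg _) hn).trans ((hA g).trans ?_)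
    gcongr
    exact le_abs_self A
  have hn : (0:ℝ) < n := Nat.cast_pos.2 (Fin.pos i)
  have hs : √(n:ℝ) * √n = n := Real.mul_self_sqrt hn.le
  rcases lt_trichotomy i j with h | h | h
  · simp only [wig, Matrix.of_apply, skCoupling, if_pos h, if_neg h.ne, mul_assoc,
      integral_const_mul, key i j h]
    rw [div_mul_div_comm, hs, one_mul]
  · subst h
    simp [wig, skCoupling]
  · simp only [wig, Matrix.of_apply, skCoupling, if_neg h.not_gt, if_pos h, if_neg h.ne', mul_assoc,
      integral_const_mul, key j i h, hFG.2.2.1 _ i j]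
    rw [div_mul_div_comm, hs, one_mul]

end Vale.Agent.P150
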