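import Mathlib
import Vale.Agent.P150.Main
import Vale.Agent.P150.Calculus

/-!
# Trace moments of the disorder matrix by integration by parts
-/

namespace Vale.Agent.P150

open MeasureTheory ProbabilityTheory Finset Function Real Matrix Filter
open scoped ENNReal Topology

variable {n : ℕ}

/-! ### A priori moments -/

lemma integral_gauss_coord (q : Fin n × Fin n) {φ : ℝ → ℝ} (hφ : Continuous φ) :
    ∫ g, φ (g q) ∂gauss (Fin n × Fin n) = ∫ x, φ x ∂gaussianReal 0 1 := by
  have h : (gauss (Fin n × Fin n)).map (fun g => g q) = gaussianReal 0 1 :=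
    (measurePreserving_eval (fun _ : Fin n × Fin n => gaussianReal 0 1) q).map_eq
  rw [← h, integral_map (measurable_pi_apply q).aemeasurable hφ.aestronglyMeasurable]

lemma one_le_one_add_opN (g : Dis n) : 1 ≤ 1 + opN g := le_add_of_nonneg_right (opN_nonneg g)

lemma one_add_opN_nonneg (g : Dis n) : 0 ≤ 1 + opN g := zero_le_one.trans (one_le_one_add_opN g)

lemma opN_pow_le (g : Dis n) {k m : ℕ} (h : k ≤ m) : opN g ^ k ≤ (1 + opN g) ^ m :=
  (pow_le_pow_left₀ (opN_nonneg g) (by linarith) k).trans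
    (pow_le_pow_right₀ (one_le_one_add_opN g) h)

lemma integrable_opN_pow (m : ℕ) :
    Integrable (fun g : Dis n => (1 + opN g) ^ m) (gauss (Fin n × Fin n)) := by
  refine (PolyGrowth.of_opN (A := 1) (m := m) fun g => ?_).integrable
    ((continuous_const.add continuous_opN).pow m)
  rw [abs_of_nonneg (pow_nonneg (one_add_opN_nonneg g) m), one_mul]

lemma measure_opN_gt {ε : ℝ} (hε : 0 < ε) (hε1 : ε ≤ 1) (hn : 0 < n) :
    (gauss (Fin n × Fin n)).real {g | 2 + 4 * ε < opN g}
      ≤ 12 * (n : ℝ) ^ 2 * Real.exp (-(ε ^ 2 / 16)) ^ n := by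
  set Bd := badArray (1:ℝ) (√2 * 1 * (ε / 2)) (1 ^ 2 * (1 + ε)) (1 * (2 + 4 * ε)) n
  have hsub : {g : Dis n | 2 + 4 * ε < opN g} ⊆ Bd ∪ (fun g p => -g p) ⁻¹' Bd := by
    intro g hg
    by_contra hb
    simp only [Bd, badArray, Set.mem_union, Set.mem_preimage, Set.mem_compl_iff, not_or, not_not,
      Set.mem_setOf_eq] at hb
    obtain ⟨hb, hb'⟩ := hb
    refine absurd (opN_le_of_form g (L := 2 + 4 * ε) (by positivity) fun a =>
      abs_le.2 ⟨?_, (one_mul (2 + 4 * ε)) ▸ hb.2.2 a⟩) (not_le.2 hg)
    have := hb'.2.2 a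
    simp only [skCoupling_neg, neg_mul, sum_neg_distrib, one_mul] at this
    linarith
  have h2 : gauss (Fin n × Fin n) ((fun g p => -g p) ⁻¹' Bd) = gauss (Fin n × Fin n) Bd := by
    rw [← Measure.map_apply (by fun_prop) (measurableSet_badArray _ _ _ _ _), gauss_map_neg]
  have h3 : gauss (Fin n × Fin n) {g | 2 + 4 * ε < opN g}
      ≤ ENNReal.ofReal (12 * (n : ℝ) ^ 2 * Real.exp (-(ε ^ 2 / 16)) ^ n) := by
    refine (measure_mono hsub).trans ((measure_union_le _ _).trans ?_)
    rw [h2]
    refine (add_le_add (gauss_badArray_le zero_le_one hε hε1 hn)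
      (gauss_badArray_le zero_le_one hε hε1 hn)).trans (le_of_eq ?_)
    rw [← ENNReal.ofReal_add (by positivity) (by positivity)]
    congr 1
    ring
  rw [measureReal_def]
  exact ENNReal.toReal_le_of_le_ofReal (by positivity) h3

lemma tail_moment {ε : ℝ} (hε : 0 < ε) (hε1 : ε ≤ 1) (m : ℕ) :
    Tendsto (fun n : ℕ => ∫ g in {g : Dis n | 2 + 4 * ε < opN g}, (1 + opN g) ^ m
      ∂gauss (Fin n × Fin n)) atTop (𝓝 0) := by
  set M := ∫ x, (1 + |x|) ^ (2 * m) ∂gaussianReal 0 1
  set q := Real.exp (-(ε ^ 2 / 16))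
  set D := (2:ℝ) ^ (2 * m) * M
  have hM : 0 ≤ M := integral_nonneg fun x => by positivity
  have hmain : ∀ n : ℕ, 0 < n → ∫ g in {g : Dis n | 2 + 4 * ε < opN g}, (1 + opN g) ^ m
      ∂gauss (Fin n × Fin n) ≤ (12 * (2:ℝ) ^ (4 * m + 1) * ((n : ℝ) ^ (4 * m + 3) * q ^ n)
        + D / n) / 2 := by
    intro n hn
    set S := {g : Dis n | 2 + 4 * ε < opN g}
    have hS : MeasurableSet S := measurableSet_lt measurable_const continuous_opN.measurable
    have hn' : (0:ℝ) < n := Nat.cast_pos.2 hn
    set t := (2:ℝ) ^ (4 * m + 1) * (n:ℝ) ^ (4 * m + 1)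
    have ht : 0 < t := by positivity
    have hX2 : ∫ g : Dis n, (1 + opN g) ^ (2 * m) ∂gauss (Fin n × Fin n)
        ≤ (n : ℝ) ^ (4 * m) * D := by
      rcases Nat.eq_zero_or_pos m with rfl | hm
      · simp [D, M]
      obtain ⟨p, hp⟩ : ∃ p, 2 * m = p + 1 := ⟨2 * m - 1, by omega⟩
      have hiq : ∀ q, Integrable (fun g : Dis n => (1 + |g q|) ^ (2 * m))
          (gauss (Fin n × Fin n)) := fun q =>
        (measurePreserving_eval (fun _ : Fin n × Fin n => gaussianReal 0 1) q).integrable_comp_of_integrable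
          (integrable_one_add_abs_pow (2 * m))
      have hi : Integrable (fun g : Dis n => (2:ℝ) ^ (2 * m) * ((n:ℝ) ^ 2) ^ p *
          ∑ q, (1 + |g q|) ^ (2 * m)) (gauss (Fin n × Fin n)) :=
        (integrable_finsetSum _ fun q _ => hiq q).const_mul _
      refine (integral_mono (integrable_opN_pow _) hi fun g => ?_).trans (le_of_eq ?_)
      · have h1 : 1 + opN g ≤ 2 * ∑ q, (1 + |g q|) := by
          have := opN_le_sum g
          have h1n : (1:ℝ) ≤ n := Nat.one_le_cast.2 hn
          rw [sum_add_distrib, sum_const, card_univ, Fintype.card_prod, Fintype.card_fin,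
            nsmul_eq_mul, mul_one, Nat.cast_mul]
          have := one_le_mul_of_one_le_of_one_le h1n h1n
          linarith
        refine (pow_le_pow_left₀ (one_add_opN_nonneg g) h1 _).trans ?_
        rw [mul_pow, mul_assoc]
        refine mul_le_mul_of_nonneg_left ?_ (by positivity)
        have := pow_sum_le_card_mul_sum_pow (s := (univ : Finset (Fin n × Fin n)))
          (f := fun q => 1 + |g q|) (fun q _ => by positivity) p
        rw [card_univ, Fintype.card_prod, Fintype.card_fin, Nat.cast_mul, ← sq] at this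
        simpa [hp] using this
      · rw [integral_const_mul, integral_finsetSum _ fun q _ => hiq q]
        rw [sum_congr rfl fun q _ => integral_gauss_coord q (φ := fun x => (1 + |x|) ^ (2 * m))
          (by fun_prop), sum_const, card_univ, Fintype.card_prod, Fintype.card_fin, nsmul_eq_mul]
        simp only [D]
        push_cast
        rw [show 4 * m = 2 * p + 2 by omega, pow_add, pow_mul]
        ring
    have hpt : ∀ g, S.indicator (fun g => (1 + opN g) ^ m) g
        ≤ (t * S.indicator (fun _ => (1:ℝ)) g + (1 + opN g) ^ (2 * m) / t) / 2 := by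
      intro g
      have hX : 0 ≤ (1 + opN g) ^ (2 * m) / t :=
        div_nonneg (pow_nonneg (one_add_opN_nonneg g) _) ht.le
      by_cases hg : g ∈ S
      · simp only [Set.indicator_of_mem hg]
        rw [mul_comm 2 m, pow_mul, mul_one]
        have := mul_nonneg (inv_nonneg.2 ht.le) (sq_nonneg ((1 + opN g) ^ m - t))
        have e : t⁻¹ * ((1 + opN g) ^ m - t) ^ 2
            = ((1 + opN g) ^ m) ^ 2 / t - 2 * (1 + opN g) ^ m + t := by field_simp; ring
        linarith
      · simp only [Set.indicator_of_notMem hg]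
        linarith
    rw [← integral_indicator hS]
    have hi1 : Integrable (fun g => t * S.indicator (fun _ => (1:ℝ)) g) (gauss (Fin n × Fin n)) :=
      ((integrable_const (1:ℝ)).indicator hS).const_mul t
    have hi2 := (integrable_opN_pow (n := n) (2 * m)).div_const t
    refine (integral_mono ((integrable_opN_pow m).indicator hS) ((hi1.add hi2).div_const 2) hpt).trans ?_
    simp only [Pi.add_apply]
    rw [integral_div, integral_add hi1 hi2, integral_const_mul, integral_div,
      integral_indicator hS, setIntegral_const, smul_eq_mul, mul_one]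
    have b1 := mul_le_mul_of_nonneg_left (measure_opN_gt hε hε1 hn) ht.le
    have e1 : t * (12 * (n : ℝ) ^ 2 * q ^ n)
        = 12 * (2:ℝ) ^ (4 * m + 1) * ((n : ℝ) ^ (4 * m + 3) * q ^ n) := by
      simp only [t]; ring
    have b2 : (∫ g : Dis n, (1 + opN g) ^ (2 * m) ∂gauss (Fin n × Fin n)) / t ≤ D / n := by
      rw [div_le_iff₀ ht]
      refine hX2.trans ?_
      have h21 : (1:ℝ) ≤ 2 ^ (4 * m + 1) := one_le_pow₀ (by norm_num)
      have := mul_le_mul_of_nonneg_right h21 (show 0 ≤ (n : ℝ) ^ (4 * m) * D by positivity)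
      calc (n : ℝ) ^ (4 * m) * D = 1 * ((n : ℝ) ^ (4 * m) * D) := (one_mul _).symm
        _ ≤ 2 ^ (4 * m + 1) * ((n : ℝ) ^ (4 * m) * D) := this
        _ = _ := by
            simp only [t, pow_succ (n : ℝ)]
            field_simp
    simp only [q] at e1 ⊢
    linarith
  have hlim : Tendsto (fun n : ℕ => (12 * (2:ℝ) ^ (4 * m + 1) * ((n : ℝ) ^ (4 * m + 3) * q ^ n)
      + D / n) / 2) atTop (𝓝 0) := by
    have h1 := (tendsto_pow_const_mul_const_pow_of_lt_one (4 * m + 3) (Real.exp_pos _).le
      (Real.exp_lt_one_iff.2 (by have := pow_pos hε 2; linarith) : q < 1)).const_mul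
      (12 * (2:ℝ) ^ (4 * m + 1))
    have h2 := tendsto_const_div_atTop_nhds_zero_nat D
    simpa using (h1.add h2).div_const 2
  exact tendsto_of_tendsto_of_tendsto_of_le_of_le' tendsto_const_nhds hlim
    (Eventually.of_forall fun n => integral_nonneg fun g => pow_nonneg (one_add_opN_nonneg g) _)
    ((eventually_gt_atTop 0).mono hmain)

/-- All moments of the operator norm are bounded. -/
lemma moment_bound (m : ℕ) : ∃ C : ℝ, 0 ≤ C ∧
    ∀ᶠ n : ℕ in atTop, ∫ g : Dis n, (1 + opN g) ^ m ∂gauss (Fin n × Fin n) ≤ C := by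
  refine ⟨7 ^ m + 1, by positivity, ?_⟩
  filter_upwards [(tail_moment one_pos le_rfl m).eventually_le_const one_pos] with n hn
  set S := {g : Dis n | 2 + 4 * 1 < opN g}
  have hS : MeasurableSet S := measurableSet_lt measurable_const continuous_opN.measurable
  have hpt : ∀ g : Dis n, (1 + opN g) ^ m ≤ 7 ^ m + S.indicator (fun g => (1 + opN g) ^ m) g := by
    intro g
    by_cases hg : g ∈ S
    · rw [Set.indicator_of_mem hg]
      linarith [pow_nonneg (show (0:ℝ) ≤ 7 by norm_num) m]
    · rw [Set.indicator_of_notMem hg, add_zero]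
      refine pow_le_pow_left₀ (one_add_opN_nonneg g) ?_ m
      simp only [S, Set.mem_setOf_eq, not_lt] at hg
      linarith
  refine (integral_mono (integrable_opN_pow m)
    ((integrable_const _).add ((integrable_opN_pow m).indicator hS)) hpt).trans ?_
  simp only [Pi.add_apply]
  rw [integral_add (integrable_const _) ((integrable_opN_pow m).indicator hS), integral_const,
    probReal_univ, one_smul, integral_indicator hS]
  linarith

/-! ### Test sequences -/

/-- Uniform polynomial bounds on a family of observables and their gradients. -/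
def IsTest (F : ∀ n, Dis n → ℝ) : Prop :=
  ∃ (G : ∀ n, Dis n → Matrix (Fin n) (Fin n) ℝ) (A : ℝ) (m : ℕ), 0 ≤ A ∧
    ∀ n, HasGrad (F n) (G n) ∧ ∀ g, |F n g| ≤ A * (1 + opN g) ^ m ∧
      ∀ i j, |G n g i j| ≤ A * (1 + opN g) ^ m

lemma IsTest.mul {F H : ∀ n, Dis n → ℝ} (hF : IsTest F) (hH : IsTest H) :
    IsTest fun n g => F n g * H n g := by
  obtain ⟨G, A, m, hA, hG⟩ := hF
  obtain ⟨K, B, p, hB, hK⟩ := hH
  refine ⟨fun n g => F n g • K n g + H n g • G n g, 2 * A * B, m + p, by positivity, fun n =>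
    ⟨(hG n).1.mul (hK n).1, fun g => ?_⟩⟩
  have h0 := pow_nonneg (one_add_opN_nonneg g) m
  have h0' := pow_nonneg (one_add_opN_nonneg g) p
  have e : A * (1 + opN g) ^ m * (B * (1 + opN g) ^ p) = A * B * (1 + opN g) ^ (m + p) := by
    rw [pow_add]; ring
  have hpos : 0 ≤ A * B * (1 + opN g) ^ (m + p) :=
    mul_nonneg (mul_nonneg hA hB) (pow_nonneg (one_add_opN_nonneg g) _)
  refine ⟨?_, fun i j => ?_⟩
  · rw [abs_mul]
    have := mul_le_mul ((hG n).2 g).1 ((hK n).2 g).1 (abs_nonneg _) (mul_nonneg hA h0)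
    linarith
  · simp only [Matrix.add_apply, Matrix.smul_apply, smul_eq_mul]
    refine (abs_add_le _ _).trans ?_
    rw [abs_mul, abs_mul]
    have h1 := mul_le_mul ((hG n).2 g).1 (((hK n).2 g).2 i j) (abs_nonneg _) (mul_nonneg hA h0)
    have h2 := mul_le_mul ((hK n).2 g).1 (((hG n).2 g).2 i j) (abs_nonneg _) (mul_nonneg hB h0')
    linarith

lemma IsTest.integrable {F : ∀ n, Dis n → ℝ} (hF : IsTest F) (n : ℕ) :
    Integrable (F n) (gauss (Fin n × Fin n)) := by
  obtain ⟨G, A, m, -, hG⟩ := hF
  exact (PolyGrowth.of_opN fun g => ((hG n).2 g).1).integrable (hG n).1.1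

/-- Normalised trace of a power. -/
noncomputable def traceMom (k : ℕ) (g : Dis n) : ℝ := Matrix.trace ((wig g) ^ k) / n

lemma abs_pow_apply_le (g : Dis n) (k : ℕ) (i j : Fin n) :
    |((wig g) ^ k) i j| ≤ opN g ^ k := by
  refine abs_le_of_sq_le_sq ?_ (pow_nonneg (opN_nonneg g) k)
  set e : Matrix (Fin n) Unit ℝ := Matrix.of fun a _ => if a = j then 1 else 0
  have h := (sq_entry_le_frob ((wig g) ^ k * e) i ()).trans (frob_pow_mul g e k)
  simpa [e, frob, Matrix.mul_apply] using h

lemma abs_traceMom_le (g : Dis n) (k : ℕ) : |traceMom k g| ≤ opN g ^ k := by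
  rcases Nat.eq_zero_or_pos n with rfl | hn
  · simp [traceMom, pow_nonneg (opN_nonneg g)]
  rw [traceMom, abs_div, Nat.abs_cast, div_le_iff₀ (Nat.cast_pos.2 hn)]
  refine (abs_sum_le_sum_abs _ _).trans ((sum_le_sum fun i _ => abs_pow_apply_le g k i i).trans ?_)
  simp [mul_comm]

lemma isTest_traceMom (k : ℕ) : IsTest fun _ g => traceMom k g := by
  refine ⟨fun n g => (1 / (n : ℝ)) • ∑ a, gradPow g k a a, 2 * k + 1, k, by positivity, fun n =>
    ⟨?_, fun g => ⟨?_, fun i j => ?_⟩⟩⟩
  · have h := (HasGrad.sum (n := n) univ fun a _ => hasGrad_pow k a a).const_mul (1 / (n : ℝ))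
    convert h using 1
    funext g
    simp [traceMom, Matrix.trace, div_eq_inv_mul]
  · have := abs_traceMom_le g k
    have h1 : opN g ^ k ≤ (1 + opN g) ^ k := opN_pow_le g le_rfl
    have h2 : 0 ≤ (2 * (k:ℝ)) * (1 + opN g) ^ k :=
      mul_nonneg (by positivity) (pow_nonneg (one_add_opN_nonneg g) k)
    linarith
  · have hn : (1:ℝ) ≤ n := Nat.one_le_cast.2 (Fin.pos i)
    simp only [Matrix.smul_apply, Matrix.sum_apply, gradPow, Matrix.of_apply, smul_eq_mul]
    by_cases hij : i = j
    · simp only [if_pos hij, sum_const_zero, mul_zero, abs_zero]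
      exact mul_nonneg (by positivity) (pow_nonneg (one_add_opN_nonneg g) k)
    simp only [if_neg hij]
    rw [sum_comm]
    have e : ∀ l ∈ range k, ∑ a, (((wig g) ^ l) a i * ((wig g) ^ (k - 1 - l)) j a
        + ((wig g) ^ l) a j * ((wig g) ^ (k - 1 - l)) i a) = 2 * ((wig g) ^ (k - 1)) j i := by
      intro l hl
      rw [mem_range] at hl
      have hw : ∀ p q, ∑ a, ((wig g) ^ l) a p * ((wig g) ^ (k - 1 - l)) q a
          = ((wig g) ^ (k - 1)) q p := fun p q => by
        rw [show k - 1 = (k - 1 - l) + l by omega, pow_add, Matrix.mul_apply,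
          show k - 1 - l + l - l = k - 1 - l by omega]
        exact sum_congr rfl fun a _ => mul_comm _ _
      rw [sum_add_distrib, hw, hw, wig_pow_apply_symm g (k - 1) i j]
      ring
    rw [sum_congr rfl e, sum_const, card_range, nsmul_eq_mul, abs_mul, abs_mul, abs_mul,
      abs_of_nonneg (show 0 ≤ 1 / (n:ℝ) by positivity), Nat.abs_cast,
      abs_two]
    have h1 : 1 / (n:ℝ) ≤ 1 := (div_le_one (by linarith)).2 hn
    have h2 : |((wig g) ^ (k - 1)) j i| ≤ (1 + opN g) ^ k :=
      (abs_pow_apply_le g _ j i).trans (opN_pow_le g (by omega))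
    have h3 : 0 ≤ (k:ℝ) * (2 * |((wig g) ^ (k - 1)) j i|) := by positivity
    calc 1 / (n:ℝ) * ((k:ℝ) * (2 * |((wig g) ^ (k - 1)) j i|))
        ≤ 1 * ((k:ℝ) * (2 * |((wig g) ^ (k - 1)) j i|)) := mul_le_mul_of_nonneg_right h1 h3
      _ ≤ 1 * ((k:ℝ) * (2 * (1 + opN g) ^ k)) := by gcongr
      _ ≤ _ := by
          have := pow_nonneg (one_add_opN_nonneg g) k
          linarith

/-! ### The trace recursion -/

lemma abs_diag_inner_le {A B : Matrix (Fin n) (Fin n) ℝ} {a b : ℝ}
    (ha : frob A ≤ a ^ 2) (hb : frob B ≤ b ^ 2) (ha0 : 0 ≤ a) (hb0 : 0 ≤ b) :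
    |∑ i, A i i * B i i| ≤ a * b := by
  have hd : ∀ M : Matrix (Fin n) (Fin n) ℝ,
      frob (Matrix.of fun i j => if i = j then M i j else 0) ≤ frob M := fun M =>
    sum_le_sum fun i _ => sum_le_sum fun j _ => by
      simp only [Matrix.of_apply]
      split_ifs
      · exact le_rfl
      · simpa using sq_nonneg (M i j)
  have := abs_inner_le (Matrix.of fun i j => if i = j then A i j else 0)
    (Matrix.of fun i j => if i = j then B i j else 0) ((hd A).trans ha) ((hd B).trans hb) ha0 hb0
  simpa using this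

/-- Sum over off-diagonal pairs. -/
def offSum (M : Fin n → Fin n → ℝ) : ℝ := ∑ i, ∑ j, if i = j then 0 else M i j

lemma offSum_eq (M : Fin n → Fin n → ℝ) : offSum M = ∑ i, ∑ j, M i j - ∑ i, M i i := by
  rw [offSum, ← sum_sub_distrib]
  refine sum_congr rfl fun i _ => ?_
  rw [eq_sub_iff_add_eq]
  nth_rewrite 1 [← add_sum_erase _ _ (mem_univ i)]
  rw [if_pos rfl, zero_add, ← sum_erase_add _ _ (mem_univ i)]
  exact congrArg (· + M i i) (sum_congr rfl fun j hj => if_neg (ne_of_mem_erase hj).symm)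

/-- Centred Catalan numbers (moments of the semicircle law). -/
noncomputable def catC : ℕ → ℝ
  | 0 => 1
  | 1 => 0
  | k + 2 => ∑ a : Fin (k + 1), catC a * catC (k - a)

lemma trace_step {F : Dis n → ℝ} {G : Dis n → Matrix (Fin n) (Fin n) ℝ} {A : ℝ} {m : ℕ}
    (hA : 0 ≤ A) (hFG : HasGrad F G)
    (hb : ∀ g, |F g| ≤ A * (1 + opN g) ^ m ∧ ∀ i j, |G g i j| ≤ A * (1 + opN g) ^ m)
    (hn : 0 < n) (k : ℕ) :
    |∫ g, F g * traceMom (k + 1) g ∂gauss (Fin n × Fin n)
      - ∫ g, F g * ∑ l ∈ range k, traceMom l g * traceMom (k - 1 - l) g ∂gauss (Fin n × Fin n)|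
    ≤ A * (2 + 3 * k) / √n * ∫ g : Dis n, (1 + opN g) ^ (m + k) ∂gauss (Fin n × Fin n) := by
  set γ := gauss (Fin n × Fin n)
  have hn' : (0:ℝ) < n := Nat.cast_pos.2 hn
  have hn1 : (1:ℝ) ≤ n := Nat.one_le_cast.2 hn
  have hpoly : ∀ {H : Dis n → ℝ} {B : ℝ} {p : ℕ}, Continuous H →
      (∀ g, |H g| ≤ B * (1 + opN g) ^ p) → Integrable H γ := fun hc hH =>
    (PolyGrowth.of_opN hH).integrable hc
  set H : Fin n → Fin n → Dis n → ℝ := fun i j g => ((wig g) ^ k) j i * F g with hH
  set GH : Fin n → Fin n → Dis n → Matrix (Fin n) (Fin n) ℝ := fun i j g =>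
    ((wig g) ^ k) j i • G g + F g • gradPow g k j i with hGH
  have hHg : ∀ i j, HasGrad (H i j) (GH i j) := fun i j => (hasGrad_pow k j i).mul hFG
  have hgp : ∀ (g : Dis n) a b i j, |gradPow g k a b i j| ≤ 2 * k * (1 + opN g) ^ k := by
    intro g a b i j
    have h0 := pow_nonneg (one_add_opN_nonneg g) k
    simp only [gradPow, Matrix.of_apply]
    by_cases hij : i = j
    · simp only [if_pos hij, abs_zero]; positivity
    simp only [if_neg hij]
    refine (abs_sum_le_sum_abs _ _).trans ?_
    refine (sum_le_sum (g := fun _ => 2 * (1 + opN g) ^ k) fun l hl => ?_).trans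
      (le_of_eq (by simp; ring))
    rw [mem_range] at hl
    refine (abs_add_le _ _).trans ?_
    rw [abs_mul, abs_mul]
    have e : opN g ^ l * opN g ^ (k - 1 - l) ≤ (1 + opN g) ^ k := by
      rw [← pow_add]; exact opN_pow_le g (by omega)
    have h1 := mul_le_mul (abs_pow_apply_le g l a i) (abs_pow_apply_le g (k - 1 - l) j b)
      (abs_nonneg _) (pow_nonneg (opN_nonneg g) _)
    have h2 := mul_le_mul (abs_pow_apply_le g l a j) (abs_pow_apply_le g (k - 1 - l) i b)
      (abs_nonneg _) (pow_nonneg (opN_nonneg g) _)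
    linarith
  have hHb : ∀ i j g, |H i j g| ≤ A * (1 + opN g) ^ (m + k) := fun i j g => by
    rw [hH, abs_mul, pow_add]
    have := mul_le_mul ((abs_pow_apply_le g k j i).trans (opN_pow_le g le_rfl)) (hb g).1
      (abs_nonneg _) (pow_nonneg (one_add_opN_nonneg g) k)
    linarith
  have hGb : ∀ i j a b g, |GH i j g a b| ≤ (A + A * (2 * k)) * (1 + opN g) ^ (m + k) := by
    intro i j a b g
    simp only [hGH, Matrix.add_apply, Matrix.smul_apply, smul_eq_mul]
    refine (abs_add_le _ _).trans ?_
    rw [abs_mul, abs_mul, pow_add]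
    have h1 := mul_le_mul ((abs_pow_apply_le g k j i).trans (opN_pow_le g le_rfl)) ((hb g).2 a b)
      (abs_nonneg _) (pow_nonneg (one_add_opN_nonneg g) k)
    have h2 := mul_le_mul (hb g).1 (hgp g j i a b) (abs_nonneg _)
      (mul_nonneg hA (pow_nonneg (one_add_opN_nonneg g) m))
    linarith
  set S : Dis n → ℝ := fun g => offSum (fun i j => GH i j g i j) / (n : ℝ) ^ 2 with hS
  have hiG : ∀ i j, Integrable (fun g => GH i j g i j) γ := fun i j =>
    hpoly ((hHg i j).2.1 i j) fun g => hGb i j i j g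
  have hiW : ∀ i j, Integrable (fun g => wig g i j * H i j g) γ := fun i j => by
    refine hpoly (B := A) (p := (m + k) + 1) ((hasGrad_wig i j).1.mul (hHg i j).1) fun g => ?_
    rw [abs_mul, pow_succ]
    have h1 : |wig g i j| ≤ 1 + opN g := by
      have := abs_pow_apply_le g 1 i j
      rw [pow_one, pow_one] at this
      linarith
    have := mul_le_mul h1 (hHb i j g) (abs_nonneg _) (one_add_opN_nonneg g)
    linarith
  have hiS : Integrable S γ := by
    refine Integrable.div_const (integrable_finsetSum _ fun i _ => integrable_finsetSum _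
      fun j _ => ?_) _
    by_cases hij : i = j
    · simp [hij]
    · simpa [hij] using hiG i j
  have key : ∫ g, F g * traceMom (k + 1) g ∂γ = ∫ g, S g ∂γ := by
    have e : ∀ g, F g * traceMom (k + 1) g = (∑ i, ∑ j, wig g i j * H i j g) / n := fun g => by
      rw [traceMom, pow_succ', Matrix.trace]
      simp only [Matrix.diag_apply, Matrix.mul_apply, hH, mul_div_assoc']
      simp only [mul_sum]
      congr 1
      exact sum_congr rfl fun i _ => sum_congr rfl fun j _ => by ring
    simp only [e, hS, offSum]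
    rw [integral_div, integral_div,
      integral_finsetSum _ fun i _ => integrable_finsetSum _ fun j _ => hiW i j,
      integral_finsetSum _ fun i _ => integrable_finsetSum _ fun j _ => by
        by_cases hij : i = j
        · simp [hij]
        · simpa [hij] using hiG i j]
    rw [sum_div, sum_div]
    refine sum_congr rfl fun i _ => ?_
    rw [integral_finsetSum _ fun j _ => hiW i j, integral_finsetSum _ fun j _ => by
        by_cases hij : i = j
        · simp [hij]
        · simpa [hij] using hiG i j, sum_div, sum_div]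
    refine sum_congr rfl fun j _ => ?_
    rw [integral_wig_mul (hHg i j) (PolyGrowth.of_opN (hHb i j))
      (fun a b => PolyGrowth.of_opN fun g => hGb i j a b g)]
    by_cases hij : i = j
    · simp [hij]
    · simp only [if_neg hij]
      rw [sq, div_div]
  set T : Dis n → ℝ := fun g => F g * ∑ l ∈ range k, traceMom l g * traceMom (k - 1 - l) g
  have hcT : Continuous T :=
    hFG.1.mul (continuous_finsetSum _ fun l _ => by
      have hc : ∀ p, Continuous fun g : Dis n => traceMom p g := fun p => by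
        simp only [traceMom, Matrix.trace, Matrix.diag_apply]
        exact (continuous_finsetSum _ fun a _ => (hasGrad_pow p a a).1).div_const _
      exact (hc _).mul (hc _))
  have hTb : ∀ g, |T g| ≤ A * k * (1 + opN g) ^ (m + k) := fun g => by
    simp only [T, abs_mul, pow_add]
    have h1 : |∑ l ∈ range k, traceMom l g * traceMom (k - 1 - l) g| ≤ k * (1 + opN g) ^ k := by
      refine (abs_sum_le_sum_abs _ _).trans ?_
      refine (sum_le_sum (g := fun _ => (1 + opN g) ^ k) fun l hl => ?_).trans (le_of_eq (by simp))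
      rw [mem_range] at hl
      rw [abs_mul]
      refine (mul_le_mul (abs_traceMom_le g l) (abs_traceMom_le g _) (abs_nonneg _)
        (pow_nonneg (opN_nonneg g) _)).trans ?_
      rw [← pow_add]
      exact opN_pow_le g (by omega)
    have := mul_le_mul (hb g).1 h1 (abs_nonneg _)
      (mul_nonneg hA (pow_nonneg (one_add_opN_nonneg g) m))
    linarith
  have hpt : ∀ g, |S g - T g| ≤ A * (2 + 3 * k) / √n * (1 + opN g) ^ (m + k) := by
    intro g
    set u := 1 + opN g
    have hu0 : 0 ≤ u := one_add_opN_nonneg g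
    set P := (wig g) ^ k
    have e1 : offSum (fun i j => GH i j g i j)
        = offSum (fun i j => P j i * G g i j) + F g * ∑ l ∈ range k,
          (∑ i, ∑ j, ((wig g) ^ l) j i * ((wig g) ^ (k - 1 - l)) j i
            + (n : ℝ) ^ 2 * (traceMom l g * traceMom (k - 1 - l) g)
            - 2 * ∑ i, ((wig g) ^ l) i i * ((wig g) ^ (k - 1 - l)) i i) := by
      have e0 : ∀ l, (n : ℝ) ^ 2 * (traceMom l g * traceMom (k - 1 - l) g)
          = ∑ i, ∑ j, ((wig g) ^ l) j j * ((wig g) ^ (k - 1 - l)) i i := fun l => by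
        simp only [traceMom, Matrix.trace, Matrix.diag_apply]
        rw [show (n:ℝ) ^ 2 * ((∑ i, ((wig g) ^ l) i i) / n *
          ((∑ i, ((wig g) ^ (k - 1 - l)) i i) / n))
          = (∑ i, ((wig g) ^ l) i i) * ∑ i, ((wig g) ^ (k - 1 - l)) i i by field_simp,
          sum_mul_sum, sum_comm]
      have e2 : ∀ l, (∑ i, ∑ j, ((wig g) ^ l) j i * ((wig g) ^ (k - 1 - l)) j i
            + (n : ℝ) ^ 2 * (traceMom l g * traceMom (k - 1 - l) g)
            - 2 * ∑ i, ((wig g) ^ l) i i * ((wig g) ^ (k - 1 - l)) i i)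
          = offSum fun i j => ((wig g) ^ l) j i * ((wig g) ^ (k - 1 - l)) j i
              + ((wig g) ^ l) j j * ((wig g) ^ (k - 1 - l)) i i := fun l => by
        rw [offSum_eq, e0]
        simp only [sum_add_distrib]
        ring
      rw [sum_congr rfl fun l _ => e2 l]
      simp only [offSum, mul_sum]
      rw [sum_comm (s := range k), ← sum_add_distrib]
      refine sum_congr rfl fun i _ => ?_
      rw [sum_comm (s := range k), ← sum_add_distrib]
      refine sum_congr rfl fun j _ => ?_
      by_cases hij : i = j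
      · simp [hij]
      · simp only [if_neg hij]
        show P j i * G g i j + F g * gradPow g k j i i j = _
        simp only [gradPow, Matrix.of_apply, if_neg hij, mul_sum]
    have hb1 : |offSum fun i j => P j i * G g i j| ≤ √n * opN g ^ k * (A * u ^ m * n) := by
      have hfr : frob (Matrix.of fun i j => if i = j then 0 else G g i j) ≤ (A * u ^ m * n) ^ 2 := by
        calc frob _ ≤ ∑ _i : Fin n, ∑ _j : Fin n, (A * u ^ m) ^ 2 := by
              refine sum_le_sum fun i _ => sum_le_sum fun j _ => ?_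
              simp only [Matrix.of_apply]
              split_ifs
              · simp only [ne_eq, OfNat.ofNat_ne_zero, not_false_eq_true, zero_pow]
                positivity
              · exact sq_le_sq.2 (((hb g).2 i j).trans (le_abs_self _))
          _ = _ := by simp; ring
      have hP : frob Pᵀ ≤ (√n * opN g ^ k) ^ 2 := by rw [frob_transpose]; exact frob_pow g k
      have := abs_inner_le _ _ hP hfr (by positivity [opN_nonneg g]) (by positivity)
      refine le_of_eq_of_le ?_ this
      congr 1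
      refine sum_congr rfl fun i _ => sum_congr rfl fun j _ => ?_
      simp only [Matrix.transpose_apply, Matrix.of_apply]
      split_ifs <;> simp
    have hsq : √(n:ℝ) * √n = n := Real.mul_self_sqrt hn'.le
    have hb2 : ∀ l ∈ range k, |∑ i, ∑ j, ((wig g) ^ l) j i * ((wig g) ^ (k - 1 - l)) j i
        - 2 * ∑ i, ((wig g) ^ l) i i * ((wig g) ^ (k - 1 - l)) i i| ≤ 3 * n * u ^ k := by
      intro l hl
      rw [mem_range] at hl
      have hc0 : ∀ p, 0 ≤ √(n:ℝ) * opN g ^ p := fun p =>
        mul_nonneg (Real.sqrt_nonneg _) (pow_nonneg (opN_nonneg g) p)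
      have h1 := abs_inner_le _ _ (frob_pow g l) (frob_pow g (k - 1 - l)) (hc0 _) (hc0 _)
      have h2 := abs_diag_inner_le (frob_pow g l) (frob_pow g (k - 1 - l)) (hc0 _) (hc0 _)
      have h3 : √(n:ℝ) * opN g ^ l * (√n * opN g ^ (k - 1 - l)) ≤ n * u ^ k := by
        rw [show √(n:ℝ) * opN g ^ l * (√n * opN g ^ (k - 1 - l))
          = √n * √n * (opN g ^ l * opN g ^ (k - 1 - l)) by ring, hsq, ← pow_add]
        exact mul_le_mul_of_nonneg_left (opN_pow_le g (by omega)) hn'.le
      rw [sum_comm]
      refine (abs_sub _ _).trans ?_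
      rw [abs_mul, abs_two]
      linarith
    have e3 : S g - T g = (offSum (fun i j => P j i * G g i j) + F g * ∑ l ∈ range k,
        (∑ i, ∑ j, ((wig g) ^ l) j i * ((wig g) ^ (k - 1 - l)) j i
          - 2 * ∑ i, ((wig g) ^ l) i i * ((wig g) ^ (k - 1 - l)) i i)) / (n : ℝ) ^ 2 := by
      have e5 : (∑ l ∈ range k,
          (∑ i, ∑ j, ((wig g) ^ l) j i * ((wig g) ^ (k - 1 - l)) j i
            + (n : ℝ) ^ 2 * (traceMom l g * traceMom (k - 1 - l) g)
            - 2 * ∑ i, ((wig g) ^ l) i i * ((wig g) ^ (k - 1 - l)) i i))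
          = ∑ l ∈ range k, (∑ i, ∑ j, ((wig g) ^ l) j i * ((wig g) ^ (k - 1 - l)) j i
              - 2 * ∑ i, ((wig g) ^ l) i i * ((wig g) ^ (k - 1 - l)) i i)
            + (n : ℝ) ^ 2 * ∑ l ∈ range k, traceMom l g * traceMom (k - 1 - l) g := by
        rw [mul_sum, ← sum_add_distrib]
        exact sum_congr rfl fun l _ => by ring
      simp only [hS, T]
      rw [e1, e5]
      field_simp
      ring
    rw [e3, abs_div, abs_of_nonneg (sq_nonneg (n:ℝ)), div_le_iff₀ (by positivity)]
    refine (abs_add_le _ _).trans ?_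
    rw [abs_mul]
    have hb3 : |∑ l ∈ range k, (∑ i, ∑ j, ((wig g) ^ l) j i * ((wig g) ^ (k - 1 - l)) j i
        - 2 * ∑ i, ((wig g) ^ l) i i * ((wig g) ^ (k - 1 - l)) i i)| ≤ k * (3 * n * u ^ k) :=
      (abs_sum_le_sum_abs _ _).trans ((sum_le_sum hb2).trans (le_of_eq (by simp)))
    have hb4 := mul_le_mul (hb g).1 hb3 (abs_nonneg _) (mul_nonneg hA (pow_nonneg hu0 m))
    have hb5 : √(n:ℝ) * opN g ^ k * (A * u ^ m * n) ≤ A * n * √n * u ^ (m + k) := by
      rw [show √(n:ℝ) * opN g ^ k * (A * u ^ m * n) = A * n * √n * (u ^ m * opN g ^ k) by ring,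
        pow_add]
      exact mul_le_mul_of_nonneg_left
        (mul_le_mul_of_nonneg_left (opN_pow_le g le_rfl) (pow_nonneg hu0 m)) (by positivity)
    have hs1 : (1:ℝ) ≤ √n := Real.one_le_sqrt.2 hn1
    have e4 : A * (2 + 3 * (k:ℝ)) / √n * u ^ (m + k) * (n : ℝ) ^ 2
        = A * (2 + 3 * k) * n * √n * u ^ (m + k) := by
      rw [show (n : ℝ) ^ 2 = n * (√n * √n) by rw [hsq]; ring]
      field_simp
    rw [e4]
    have g1 : 0 ≤ A * n * u ^ (m + k) * k :=
      mul_nonneg (mul_nonneg (mul_nonneg hA hn'.le) (pow_nonneg hu0 _)) (Nat.cast_nonneg k)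
    have g2 := mul_le_mul_of_nonneg_left hs1 g1
    rw [pow_add] at hb5 g1 g2 ⊢
    have g3 : 0 ≤ A * n * √n * (u ^ m * u ^ k) := by positivity
    linarith
  rw [key, ← integral_sub hiS (hpoly hcT hTb)]
  calc |∫ g, (S g - T g) ∂γ| ≤ ∫ g, |S g - T g| ∂γ := abs_integral_le_integral_abs
    _ ≤ ∫ g, A * (2 + 3 * k) / √n * (1 + opN g) ^ (m + k) ∂γ :=
        integral_mono (hiS.sub (hpoly hcT hTb)).abs ((integrable_opN_pow _).const_mul _) hpt
    _ = _ := integral_const_mul _ _

/-- Trace moments factor out of test observables. -/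
theorem traceMom_limit (k : ℕ) : ∀ F : ∀ n, Dis n → ℝ, IsTest F →
    Tendsto (fun n : ℕ => ∫ g : Dis n, F n g * traceMom k g ∂gauss (Fin n × Fin n)
      - catC k * ∫ g : Dis n, F n g ∂gauss (Fin n × Fin n)) atTop (𝓝 0) := by
  induction k using Nat.strong_induction_on with
  | _ k ih =>
    intro F hF
    match k with
    | 0 =>
      refine tendsto_const_nhds.congr' ?_
      filter_upwards [eventually_gt_atTop 0] with n hn
      simp [traceMom, catC, hn.ne']
    | 1 =>
      refine tendsto_const_nhds.congr' ?_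
      filter_upwards with n
      simp [traceMom, catC, Matrix.trace, wig, skCoupling_self]
    | k + 2 =>
      obtain ⟨G, A, m, hA, hG⟩ := id hF
      obtain ⟨C, hC0, hC⟩ := moment_bound (m + (k + 1))
      have h1 : Tendsto (fun n : ℕ => ∫ g : Dis n, F n g * traceMom (k + 2) g ∂gauss (Fin n × Fin n)
          - ∫ g : Dis n, F n g * ∑ l ∈ range (k + 1), traceMom l g * traceMom (k - l) g
            ∂gauss (Fin n × Fin n)) atTop (𝓝 0) := by
        have hlim : Tendsto (fun n : ℕ => A * (2 + 3 * (k + 1 : ℕ)) / √(n:ℝ) * C) atTop (𝓝 0) := by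
          have h := (tendsto_const_nhds (x := A * (2 + 3 * ((k + 1 : ℕ) : ℝ)))).div_atTop
            (Real.tendsto_sqrt_atTop.comp tendsto_natCast_atTop_atTop)
          simpa using h.mul_const C
        refine squeeze_zero_norm' ?_ hlim
        filter_upwards [eventually_gt_atTop 0, hC] with n hn hCn
        rw [Real.norm_eq_abs]
        refine (trace_step hA (hG n).1 (hG n).2 hn (k + 1)).trans ?_
        exact mul_le_mul_of_nonneg_left hCn (by positivity)
      have h2 : ∀ l ∈ range (k + 1), Tendsto (fun n : ℕ =>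
          ∫ g : Dis n, F n g * (traceMom l g * traceMom (k - l) g) ∂gauss (Fin n × Fin n)
            - catC l * catC (k - l) * ∫ g : Dis n, F n g ∂gauss (Fin n × Fin n)) atTop (𝓝 0) := by
        intro l hl
        rw [mem_range] at hl
        have a1 := ih (k - l) (by omega) _ (hF.mul (isTest_traceMom l))
        have a2 := (ih l (by omega) F hF).const_mul (catC (k - l))
        have := a1.add a2
        rw [mul_zero, add_zero] at this
        refine this.congr fun n => ?_
        simp only [mul_assoc]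
        ring
      have h3 := h1.add (tendsto_finsetSum _ h2)
      rw [sum_const_zero, add_zero] at h3
      refine h3.congr fun n => ?_
      rw [sum_sub_distrib, ← integral_finsetSum]
      · simp only [← mul_sum]
        rw [← sum_mul]
        have e : catC (k + 2) = ∑ l ∈ range (k + 1), catC l * catC (k - l) := by
          rw [catC, Fin.sum_univ_eq_sum_range fun a => catC a * catC (k - a)]
        rw [e]
        ring
      · intro l _
        exact ((hF.mul ((isTest_traceMom l).mul (isTest_traceMom (k - l)))).integrable n)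

end Vale.Agent.P150
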