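import Mathlib
import Vale.Agent.P150.TestSeq

/-!
# The overlap does not vanish above the critical temperature

With `u` the normalised squared Frobenius norm of the correlation matrix `C` and
`μ_k = tr (W ^ k C) / n`, Gaussian integration by parts gives a recursion for
`E[(1 - u) ^ L μ_k]` which grows faster than the spectral edge allows when `β > 1`.
-/

namespace Vale.Agent.P150

open MeasureTheory ProbabilityTheory Finset Function Real Matrix Filter
open scoped ENNReal Topology

variable {n : ℕ}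

/-! ### Gibbs averages -/

lemma gExp_sum {α : Type*} (β : ℝ) (g : Dis n) (s : Finset α) (Φ : α → (Fin n → Bool) → ℝ) :
    gExp β g (fun x => ∑ a ∈ s, Φ a x) = ∑ a ∈ s, gExp β g (Φ a) := by
  simp only [gExp, mean, mul_sum]
  exact sum_comm

lemma gExp_smul (β : ℝ) (g : Dis n) (c : ℝ) (Φ : (Fin n → Bool) → ℝ) :
    gExp β g (fun x => c * Φ x) = c * gExp β g Φ := by
  simp only [gExp, mean, mul_sum]
  exact sum_congr rfl fun x _ => by ring

lemma gExp_sub (β : ℝ) (g : Dis n) (Φ Ψ : (Fin n → Bool) → ℝ) :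
    gExp β g (fun x => Φ x - Ψ x) = gExp β g Φ - gExp β g Ψ := by
  simp only [gExp, mean, mul_sub, sum_sub_distrib]

lemma gExp_const (β : ℝ) (g : Dis n) (c : ℝ) : gExp β g (fun _ => c) = c := by
  simp only [gExp, mean, ← sum_mul, gibbs_sum, one_mul]

lemma gExp_mono (β : ℝ) (g : Dis n) {Φ Ψ : (Fin n → Bool) → ℝ} (h : ∀ x, Φ x ≤ Ψ x) :
    gExp β g Φ ≤ gExp β g Ψ :=
  sum_le_sum fun x _ => mul_le_mul_of_nonneg_left (h x) (gibbs_pos x).le

lemma abs_gExp_le_gExp_abs (β : ℝ) (g : Dis n) (Φ : (Fin n → Bool) → ℝ) :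
    |gExp β g Φ| ≤ gExp β g fun x => |Φ x| := by
  refine (abs_sum_le_sum_abs _ _).trans (le_of_eq (sum_congr rfl fun x _ => ?_))
  rw [abs_mul, abs_of_pos (gibbs_pos x)]

lemma abs_gExp_le (β : ℝ) (g : Dis n) {Φ : (Fin n → Bool) → ℝ} {B : ℝ} (h : ∀ x, |Φ x| ≤ B) :
    |gExp β g Φ| ≤ B :=
  (abs_gExp_le_gExp_abs β g Φ).trans ((gExp_mono β g h).trans (gExp_const β g B).le)

lemma sq_gExp_le (β : ℝ) (g : Dis n) (Φ : (Fin n → Bool) → ℝ) :
    gExp β g Φ ^ 2 ≤ gExp β g fun x => Φ x ^ 2 := by
  have h0 : 0 ≤ gExp β g fun x => (Φ x - gExp β g Φ) ^ 2 :=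
    sum_nonneg fun x _ => mul_nonneg (gibbs_pos x).le (sq_nonneg _)
  have e : gExp β g (fun x => (Φ x - gExp β g Φ) ^ 2)
      = gExp β g (fun x => Φ x ^ 2) - gExp β g Φ ^ 2 := by
    simp only [sub_sq]
    simp only [gExp, mean, mul_add, mul_sub, sum_add_distrib, sum_sub_distrib]
    rw [← sum_mul, gibbs_sum, one_mul]
    have : ∑ x, gibbs (skCoupling β g) 0 x * (2 * Φ x * ∑ y, gibbs (skCoupling β g) 0 y * Φ y)
        = 2 * (∑ y, gibbs (skCoupling β g) 0 y * Φ y) ^ 2 := by
      rw [sq, mul_comm 2, mul_assoc, sum_mul]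
      exact sum_congr rfl fun x _ => by ring
    rw [this]
    ring
  linarith

/-! ### The correlation matrix -/

lemma corr_symm (β : ℝ) (g : Dis n) (i j : Fin n) : corr β g i j = corr β g j i :=
  congrArg (gExp β g) (funext fun x => mul_comm (spin (x i)) (spin (x j)))

lemma spin_sq (b : Bool) : spin b * spin b = 1 := by cases b <;> simp [spin]

lemma abs_spin (b : Bool) : |spin b| = 1 := by cases b <;> simp [spin]

lemma corr_self (β : ℝ) (g : Dis n) (i : Fin n) : corr β g i i = 1 := by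
  simp only [corr, Matrix.of_apply, spin_sq, gExp_const]

lemma abs_corr_le (β : ℝ) (g : Dis n) (i j : Fin n) : |corr β g i j| ≤ 1 :=
  abs_gExp_le β g fun x => by rw [abs_mul, abs_spin, abs_spin, one_mul]

lemma frob_corr_le (β : ℝ) (g : Dis n) : frob (corr β g) ≤ (n : ℝ) ^ 2 := by
  calc frob (corr β g) ≤ ∑ _i : Fin n, ∑ _j : Fin n, (1:ℝ) :=
        sum_le_sum fun i _ => sum_le_sum fun j _ => by
          rw [← sq_abs]
          exact pow_le_one₀ (abs_nonneg _) (abs_corr_le β g i j)
    _ = _ := by simp; ring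

/-- Mean squared overlap of two independent samples. -/
noncomputable def q2 (β : ℝ) (g : Dis n) : ℝ := frob (corr β g) / (n : ℝ) ^ 2

lemma q2_nonneg (β : ℝ) (g : Dis n) : 0 ≤ q2 β g := div_nonneg (frob_nonneg _) (sq_nonneg _)

lemma q2_le_one (β : ℝ) (g : Dis n) : q2 β g ≤ 1 :=
  div_le_one_of_le₀ (frob_corr_le β g) (sq_nonneg _)

lemma frob_corr_eq (β : ℝ) (g : Dis n) :
    frob (corr β g) = ((n : ℝ) * √(q2 β g)) ^ 2 := by
  rw [mul_pow, sq_sqrt (q2_nonneg β g), q2]
  rcases Nat.eq_zero_or_pos n with rfl | hn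
  · simp [frob]
  · field_simp

/-- The quadratic spin observable of a matrix. -/
def quadObs (M : Matrix (Fin n) (Fin n) ℝ) (x : Fin n → Bool) : ℝ :=
  ∑ a, ∑ b, M a b * (spin (x a) * spin (x b))

lemma gExp_quadObs (β : ℝ) (g : Dis n) (M : Matrix (Fin n) (Fin n) ℝ) :
    gExp β g (quadObs M) = ∑ a, ∑ b, M a b * corr β g a b := by
  unfold quadObs
  rw [gExp_sum]
  refine sum_congr rfl fun a _ => ?_
  rw [gExp_sum]
  refine sum_congr rfl fun b _ => ?_
  rw [gExp_smul]
  rfl

lemma sum_gradExp (β : ℝ) (g : Dis n) (M : Matrix (Fin n) (Fin n) ℝ) (i j : Fin n) :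
    ∑ a, ∑ b, M a b * gradExp β g (fun x => spin (x a) * spin (x b)) i j
      = gradExp β g (quadObs M) i j := by
  simp only [gradExp, Matrix.of_apply, gExp_quadObs]
  simp only [quadObs, sum_mul]
  rw [gExp_sum, ← sum_sub_distrib, mul_sum]
  refine sum_congr rfl fun a _ => ?_
  rw [gExp_sum, ← sum_sub_distrib, mul_sum]
  refine sum_congr rfl fun b _ => ?_
  rw [show (fun x : Fin n → Bool => M a b * (spin (x a) * spin (x b)) * (spin (x i) * spin (x j)))
    = fun x => M a b * (spin (x a) * spin (x b) * (spin (x i) * spin (x j))) from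
      funext fun x => by ring, gExp_smul]
  simp only [corr, Matrix.of_apply]
  ring

lemma frob_spins (x : Fin n → Bool) :
    frob (Matrix.of fun a b => spin (x a) * spin (x b)) = (n : ℝ) ^ 2 := by
  simp only [frob, Matrix.of_apply, sq, mul_assoc]
  have : ∀ a b : Fin n, spin (x a) * (spin (x b) * (spin (x a) * spin (x b))) = 1 := fun a b => by
    rw [show spin (x a) * (spin (x b) * (spin (x a) * spin (x b)))
      = spin (x a) * spin (x a) * (spin (x b) * spin (x b)) by ring, spin_sq, spin_sq, one_mul]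
  simp [this]

lemma abs_quadObs_le (M : Matrix (Fin n) (Fin n) ℝ) {a : ℝ} (ha : 0 ≤ a) (hM : frob M ≤ a ^ 2)
    (x : Fin n → Bool) : |quadObs M x| ≤ a * n :=
  abs_inner_le M (Matrix.of fun a b => spin (x a) * spin (x b)) hM (frob_spins x).le ha
    (Nat.cast_nonneg n)

lemma abs_quadObs_pow_le (g : Dis n) (k : ℕ) (x : Fin n → Bool) :
    |quadObs ((wig g) ^ k) x| ≤ opN g ^ k * n := by
  set s : Matrix (Fin n) Unit ℝ := Matrix.of fun a _ => spin (x a)
  have hs : frob s = (√(n:ℝ)) ^ 2 := by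
    rw [sq_sqrt (Nat.cast_nonneg n)]
    simp [frob, s, sq, spin_sq]
  have h1 : frob ((wig g) ^ k * s) ≤ (opN g ^ k * √n) ^ 2 := by
    rw [mul_pow, ← hs]; exact frob_pow_mul g s k
  have h := abs_inner_le ((wig g) ^ k * s) s h1 hs.le
    (mul_nonneg (pow_nonneg (opN_nonneg g) k) (Real.sqrt_nonneg _)) (Real.sqrt_nonneg _)
  rw [mul_assoc, Real.mul_self_sqrt (Nat.cast_nonneg n)] at h
  refine le_of_eq_of_le ?_ h
  congr 1
  simp only [quadObs, s, Matrix.mul_apply, Matrix.of_apply, sum_mul, Fintype.sum_unique]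
  exact sum_congr rfl fun a _ => sum_congr rfl fun b _ => by ring

/-- The overlap of `x` with the correlation matrix. -/
noncomputable def overlap (β : ℝ) (g : Dis n) (x : Fin n → Bool) : ℝ :=
  quadObs (corr β g) x / (n : ℝ) ^ 2

lemma gExp_overlap (β : ℝ) (g : Dis n) : gExp β g (overlap β g) = q2 β g := by
  have : overlap β g = fun x => ((n : ℝ) ^ 2)⁻¹ * quadObs (corr β g) x := by
    funext x
    rw [overlap, div_eq_inv_mul]
  rw [this, gExp_smul, gExp_quadObs, q2, frob, div_eq_inv_mul]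
  simp [sq]

lemma overlap_nonneg (β : ℝ) (g : Dis n) (x : Fin n → Bool) : 0 ≤ overlap β g x := by
  refine div_nonneg ?_ (sq_nonneg _)
  have e : quadObs (corr β g) x
      = gExp β g fun y => (∑ a, spin (y a) * spin (x a)) ^ 2 := by
    simp only [sq, sum_mul_sum]
    rw [gExp_sum]
    refine sum_congr rfl fun a _ => ?_
    rw [gExp_sum]
    refine sum_congr rfl fun b _ => ?_
    rw [show (fun y : Fin n → Bool => spin (y a) * spin (x a) * (spin (y b) * spin (x b)))
      = fun y => spin (x a) * spin (x b) * (spin (y a) * spin (y b)) from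
        funext fun y => by ring, gExp_smul]
    exact mul_comm _ _
  rw [e]
  exact sum_nonneg fun y _ => mul_nonneg (gibbs_pos y).le (sq_nonneg _)

lemma overlap_le (β : ℝ) (g : Dis n) (x : Fin n → Bool) : overlap β g x ≤ √(q2 β g) := by
  rcases Nat.eq_zero_or_pos n with rfl | hn
  · simp [overlap, quadObs]
  rw [overlap, div_le_iff₀ (by positivity)]
  have := (le_abs_self _).trans
    (abs_quadObs_le (corr β g) (by positivity) (frob_corr_eq β g).le x)
  linarith

lemma abs_overlap_sub_le (β : ℝ) (g : Dis n) (x : Fin n → Bool) :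
    |overlap β g x - q2 β g| ≤ 1 := by
  have h1 := overlap_nonneg β g x
  have h2 := overlap_le β g x
  have h3 : √(q2 β g) ≤ 1 := Real.sqrt_le_one.2 (q2_le_one β g)
  have h4 := q2_le_one β g
  have h5 := q2_nonneg β g
  exact abs_le.2 ⟨by linarith, by linarith⟩

/-- Fourth root of the overlap. -/
noncomputable def q4 (β : ℝ) (g : Dis n) : ℝ := √√(q2 β g)

lemma q4_nonneg (β : ℝ) (g : Dis n) : 0 ≤ q4 β g := Real.sqrt_nonneg _

lemma q4_sq (β : ℝ) (g : Dis n) : q4 β g ^ 2 = √(q2 β g) := sq_sqrt (Real.sqrt_nonneg _)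

lemma q4_four (β : ℝ) (g : Dis n) : q4 β g ^ 4 = q2 β g := by
  rw [show (4:ℕ) = 2 * 2 from rfl, pow_mul, q4_sq, sq_sqrt (q2_nonneg β g)]

lemma gExp_abs_sub_le (β : ℝ) (g : Dis n) :
    gExp β g (fun x => |overlap β g x - q2 β g|) ≤ q4 β g ^ 3 := by
  refine (abs_le_of_sq_le_sq' ((sq_gExp_le β g _).trans ?_) (pow_nonneg (q4_nonneg β g) 3)).2
  have e : gExp β g (fun x => |overlap β g x - q2 β g| ^ 2)
      = gExp β g (fun x => overlap β g x ^ 2) - q2 β g ^ 2 := by
    have : ∀ x, |overlap β g x - q2 β g| ^ 2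
        = overlap β g x ^ 2 - (2 * q2 β g * overlap β g x - q2 β g ^ 2) := fun x => by
      rw [sq_abs]; ring
    simp only [this]
    rw [gExp_sub, gExp_sub, gExp_smul, gExp_overlap, gExp_const]
    ring
  have h2 : gExp β g (fun x => overlap β g x ^ 2) ≤ q4 β g ^ 2 * q2 β g := by
    refine (gExp_mono β g fun x => ?_).trans (le_of_eq (by rw [gExp_smul, gExp_overlap]))
    rw [sq, q4_sq]
    exact mul_le_mul_of_nonneg_right (overlap_le β g x) (overlap_nonneg β g x)
  rw [e]
  have h3 : q4 β g ^ 2 * q2 β g = (q4 β g ^ 3) ^ 2 := by rw [← q4_four β g]; ring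
  have := sq_nonneg (q2 β g)
  linarith

/-! ### Gradients -/

lemma HasGrad.pow_nat {F : Dis n → ℝ} {G : Dis n → Matrix (Fin n) (Fin n) ℝ} (hF : HasGrad F G)
    (L : ℕ) : HasGrad (fun g => F g ^ L) (fun g => ((L : ℝ) * F g ^ (L - 1)) • G g) := by
  induction L with
  | zero =>
    convert HasGrad.const (n := n) (1:ℝ) using 1 <;> funext g <;> simp
  | succ L ih =>
    convert hF.mul ih using 1
    · funext g; rw [pow_succ']
    · funext g
      rcases L with _ | L
      · simp
      · simp only [Nat.add_sub_cancel, smul_smul]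
        rw [← add_smul]
        congr 1
        push_cast
        ring

/-- Gradient of the overlap. -/
noncomputable def gradQ2 (β : ℝ) (g : Dis n) : Matrix (Fin n) (Fin n) ℝ :=
  Matrix.of fun i j =>
    2 * β * gExp β g fun x => (overlap β g x - q2 β g) * (spin (x i) * spin (x j))

lemma hasGrad_q2 (β : ℝ) : HasGrad (fun g : Dis n => q2 β g) (gradQ2 β) := by
  have h := (HasGrad.sum (n := n) univ fun a _ => HasGrad.sum (n := n) univ fun b _ =>
    (hasGrad_gExp β (fun x : Fin n → Bool => spin (x a) * spin (x b))).mul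
      (hasGrad_gExp β (fun x => spin (x a) * spin (x b)))).const_mul (((n : ℝ) ^ 2)⁻¹)
  convert h using 1
  · funext g
    simp [q2, frob, corr, sq, div_eq_inv_mul]
  · funext g
    ext i j
    simp only [Matrix.smul_apply, Matrix.sum_apply, Matrix.add_apply, smul_eq_mul]
    have e := sum_gradExp β g (corr β g) i j
    simp only [sum_add_distrib]
    simp only [corr, Matrix.of_apply] at e
    rw [e, ← two_mul, gradExp, gradQ2, Matrix.of_apply, Matrix.of_apply]
    have e2 : gExp β g (fun x => (overlap β g x - q2 β g) * (spin (x i) * spin (x j)))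
        = ((n : ℝ) ^ 2)⁻¹ * gExp β g (fun x => quadObs (corr β g) x * (spin (x i) * spin (x j)))
          - q2 β g * corr β g i j := by
      simp only [sub_mul, overlap, div_eq_inv_mul, mul_assoc]
      rw [gExp_sub, gExp_smul, gExp_smul]
      rfl
    rw [e2, gExp_quadObs]
    simp only [q2, frob, corr, Matrix.of_apply, div_eq_inv_mul, sq]
    ring

lemma abs_gradQ2_le (β : ℝ) (g : Dis n) (i j : Fin n) : |gradQ2 β g i j| ≤ 2 * |β| := by
  rw [gradQ2, Matrix.of_apply, abs_mul, abs_mul, abs_two]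
  refine mul_le_of_le_one_right (by positivity) (abs_gExp_le β g fun x => ?_)
  rw [abs_mul, abs_mul, abs_spin, abs_spin, one_mul, mul_one]
  exact abs_overlap_sub_le β g x

/-- The weight suppressing a macroscopic overlap. -/
noncomputable def wt (β : ℝ) (L : ℕ) (g : Dis n) : ℝ := (1 - q2 β g) ^ L

/-- Gradient of the weight. -/
noncomputable def gradWt (β : ℝ) (L : ℕ) (g : Dis n) : Matrix (Fin n) (Fin n) ℝ :=
  (-((L : ℝ) * (1 - q2 β g) ^ (L - 1))) • gradQ2 β g

lemma hasGrad_wt (β : ℝ) (L : ℕ) : HasGrad (fun g : Dis n => wt β L g) (gradWt β L) := by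
  have h := ((HasGrad.const (n := n) (1:ℝ)).add ((hasGrad_q2 β).const_mul (-1))).pow_nat L
  convert h using 1
  · funext g; simp [wt, sub_eq_add_neg]
  · funext g; simp [gradWt, sub_eq_add_neg]

lemma wt_nonneg (β : ℝ) (L : ℕ) (g : Dis n) : 0 ≤ wt β L g :=
  pow_nonneg (sub_nonneg.2 (q2_le_one β g)) L

lemma wt_le_one (β : ℝ) (L : ℕ) (g : Dis n) : wt β L g ≤ 1 :=
  pow_le_one₀ (sub_nonneg.2 (q2_le_one β g)) (sub_le_self _ (q2_nonneg β g))

lemma abs_gradWt_le (β : ℝ) (L : ℕ) (g : Dis n) (i j : Fin n) :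
    |gradWt β L g i j| ≤ L * (2 * |β|) := by
  rw [gradWt, Matrix.smul_apply, smul_eq_mul, abs_mul, abs_neg, abs_mul, Nat.abs_cast]
  refine mul_le_mul (mul_le_of_le_one_right (Nat.cast_nonneg L) ?_) (abs_gradQ2_le β g i j)
    (abs_nonneg _) (Nat.cast_nonneg L)
  rw [abs_of_nonneg (pow_nonneg (sub_nonneg.2 (q2_le_one β g)) _)]
  exact pow_le_one₀ (sub_nonneg.2 (q2_le_one β g)) (sub_le_self _ (q2_nonneg β g))

lemma isTest_wt (β : ℝ) (L : ℕ) : IsTest fun _ g => wt β L g := by
  refine ⟨fun n => gradWt β L, 1 + L * (2 * |β|), 0, by positivity, fun n =>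
    ⟨hasGrad_wt β L, fun g => ⟨?_, fun i j => ?_⟩⟩⟩
  · rw [abs_of_nonneg (wt_nonneg β L g), pow_zero, mul_one]
    exact (wt_le_one β L g).trans (le_add_of_nonneg_right (by positivity))
  · rw [pow_zero, mul_one]
    exact (abs_gradWt_le β L g i j).trans (le_add_of_nonneg_left zero_le_one)

/-- Weighted trace moments of the correlation matrix. -/
noncomputable def mu (β : ℝ) (k : ℕ) (g : Dis n) : ℝ := gExp β g (quadObs ((wig g) ^ k)) / n

lemma abs_mu_le (β : ℝ) (k : ℕ) (g : Dis n) : |mu β k g| ≤ opN g ^ k := by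
  rcases Nat.eq_zero_or_pos n with rfl | hn
  · simp [mu, pow_nonneg (opN_nonneg g)]
  rw [mu, abs_div, Nat.abs_cast, div_le_iff₀ (Nat.cast_pos.2 hn)]
  exact abs_gExp_le β g (abs_quadObs_pow_le g k)

lemma mu_eq (β : ℝ) (k : ℕ) (g : Dis n) :
    mu β k g = (∑ i, ((wig g) ^ k * corr β g) i i) / n := by
  simp only [mu, gExp_quadObs, Matrix.mul_apply, corr_symm β g]

/-- Gradient of a weighted trace moment. -/
noncomputable def gradMu (β : ℝ) (k : ℕ) (g : Dis n) : Matrix (Fin n) (Fin n) ℝ :=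
  (n : ℝ)⁻¹ • ∑ a, ∑ b, (((wig g) ^ k) a b • gradExp β g
    (fun x => spin (x a) * spin (x b)) + corr β g a b • gradPow g k a b)

lemma hasGrad_mu (β : ℝ) (k : ℕ) : HasGrad (fun g : Dis n => mu β k g) (gradMu β k) := by
  have h := (HasGrad.sum (n := n) univ fun a _ => HasGrad.sum (n := n) univ fun b _ =>
    (hasGrad_pow k a b).mul
      (hasGrad_gExp β (fun x : Fin n → Bool => spin (x a) * spin (x b)))).const_mul (n : ℝ)⁻¹
  convert h using 1
  · funext g
    rw [mu, gExp_quadObs, div_eq_inv_mul]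
    rfl
  · rfl

lemma gradMu_apply (β : ℝ) (k : ℕ) (g : Dis n) {i j : Fin n} (hij : i ≠ j) :
    gradMu β k g i j = (n : ℝ)⁻¹ * (gradExp β g (quadObs ((wig g) ^ k)) i j
      + ∑ l ∈ range k, (((wig g) ^ l * corr β g * (wig g) ^ (k - 1 - l)) i j
        + ((wig g) ^ l * corr β g * (wig g) ^ (k - 1 - l)) j i)) := by
  simp only [gradMu, Matrix.smul_apply, Matrix.sum_apply, Matrix.add_apply, smul_eq_mul,
    sum_add_distrib, sum_gradExp]
  congr 1
  rw [add_right_inj]
  simp only [gradPow, Matrix.of_apply, if_neg hij, mul_sum]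
  rw [sum_congr rfl fun a _ => sum_comm, sum_comm, ← sum_add_distrib]
  refine sum_congr rfl fun l _ => ?_
  simp only [Matrix.mul_apply, sum_mul]
  rw [sum_comm (f := fun x y => ((wig g) ^ l) i y * corr β g y x
      * ((wig g) ^ (k - 1 - l)) x j),
    sum_comm (f := fun x y => ((wig g) ^ l) j y * corr β g y x
      * ((wig g) ^ (k - 1 - l)) x i), ← sum_add_distrib]
  refine sum_congr rfl fun a _ => ?_
  rw [← sum_add_distrib]
  refine sum_congr rfl fun b _ => ?_
  rw [wig_pow_apply_symm g l i a, wig_pow_apply_symm g l j a,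
    wig_pow_apply_symm g (k - 1 - l) b j, wig_pow_apply_symm g (k - 1 - l) b i]
  ring

lemma frob_sandwich_le (β : ℝ) (g : Dis n) (l p : ℕ) :
    frob ((wig g) ^ l * corr β g * (wig g) ^ p) ≤ (opN g ^ (l + p) * n) ^ 2 := by
  refine (frob_mul_pow g _ _).trans ((mul_le_mul_of_nonneg_left ((frob_pow_mul g _ l).trans
    (mul_le_mul_of_nonneg_left (frob_corr_le β g) (sq_nonneg _))) (sq_nonneg _)).trans
      (le_of_eq ?_))
  rw [pow_add]; ring

lemma abs_gradMu_le (β : ℝ) (k : ℕ) (g : Dis n) (i j : Fin n) :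
    |gradMu β k g i j| ≤ (2 * |β| + 2 * k) * (1 + opN g) ^ k := by
  have hn : (0:ℝ) < n := Nat.cast_pos.2 (Fin.pos i)
  have hu := pow_nonneg (one_add_opN_nonneg g) k
  have hb : ∀ x, |quadObs ((wig g) ^ k) x| ≤ n * (1 + opN g) ^ k := fun x =>
    (abs_quadObs_pow_le g k x).trans (by
      rw [mul_comm]
      exact mul_le_mul_of_nonneg_left (opN_pow_le g le_rfl) hn.le)
  have h1 : |gradExp β g (quadObs ((wig g) ^ k)) i j| ≤ |β| * (2 * (n * (1 + opN g) ^ k)) := by
    rw [gradExp, Matrix.of_apply, abs_mul]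
    refine mul_le_mul_of_nonneg_left ?_ (abs_nonneg β)
    refine (abs_sub _ _).trans ?_
    rw [two_mul, abs_mul]
    refine add_le_add (abs_gExp_le β g fun x => ?_) ?_
    · rw [abs_mul, abs_mul, abs_spin, abs_spin, one_mul, mul_one]
      exact hb x
    · exact (mul_le_of_le_one_right (abs_nonneg _) (abs_corr_le β g i j)).trans
        (abs_gExp_le β g hb)
  by_cases hij : i = j
  · have h0 : gradMu β k g i j = (n : ℝ)⁻¹ * gradExp β g (quadObs ((wig g) ^ k)) i j := by
      simp only [gradMu, Matrix.smul_apply, Matrix.sum_apply, Matrix.add_apply, smul_eq_mul,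
        sum_add_distrib, sum_gradExp, gradPow, Matrix.of_apply, if_pos hij, mul_zero,
        sum_const_zero, add_zero]
    rw [h0, abs_mul, abs_of_pos (inv_pos.2 hn)]
    refine (mul_le_mul_of_nonneg_left h1 (inv_pos.2 hn).le).trans ?_
    rw [show (n:ℝ)⁻¹ * (|β| * (2 * (n * (1 + opN g) ^ k))) = 2 * |β| * (1 + opN g) ^ k by
      field_simp]
    exact mul_le_mul_of_nonneg_right (le_add_of_nonneg_right (by positivity)) hu
  rw [gradMu_apply β k g hij, abs_mul, abs_of_pos (inv_pos.2 hn)]
  have h2 : |∑ l ∈ range k, (((wig g) ^ l * corr β g * (wig g) ^ (k - 1 - l)) i j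
      + ((wig g) ^ l * corr β g * (wig g) ^ (k - 1 - l)) j i)|
      ≤ k * (2 * (n * (1 + opN g) ^ k)) := by
    refine (abs_sum_le_sum_abs _ _).trans ?_
    refine (sum_le_sum (g := fun _ => 2 * ((n:ℝ) * (1 + opN g) ^ k)) fun l hl => ?_).trans
      (le_of_eq (by simp))
    rw [mem_range] at hl
    have hent : ∀ p q, |((wig g) ^ l * corr β g * (wig g) ^ (k - 1 - l)) p q|
        ≤ n * (1 + opN g) ^ k := fun p q => by
      refine (abs_le_of_sq_le_sq ((sq_entry_le_frob _ p q).trans (frob_sandwich_le β g _ _))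
        (mul_nonneg (pow_nonneg (opN_nonneg g) _) hn.le)).trans ?_
      rw [mul_comm]
      exact mul_le_mul_of_nonneg_left (opN_pow_le g (by omega)) hn.le
    refine (abs_add_le _ _).trans ?_
    linarith [hent i j, hent j i]
  refine (mul_le_mul_of_nonneg_left ((abs_add_le _ _).trans (add_le_add h1 h2))
    (inv_pos.2 hn).le).trans (le_of_eq ?_)
  field_simp

lemma isTest_mu (β : ℝ) (k : ℕ) : IsTest fun _ g => mu β k g := by
  refine ⟨fun n => gradMu β k, 1 + (2 * |β| + 2 * k), k, by positivity, fun n =>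
    ⟨hasGrad_mu β k, fun g => ⟨?_, fun i j => ?_⟩⟩⟩
  · refine (abs_mu_le β k g).trans ((opN_pow_le g le_rfl).trans ?_)
    exact le_mul_of_one_le_left (pow_nonneg (one_add_opN_nonneg g) k)
      (le_add_of_nonneg_right (by positivity))
  · exact (abs_gradMu_le β k g i j).trans (mul_le_mul_of_nonneg_right
      (le_add_of_nonneg_left zero_le_one) (pow_nonneg (one_add_opN_nonneg g) k))

/-! ### The terms of the integration by parts -/

lemma frob_pow_mul_corr (β : ℝ) (g : Dis n) (k : ℕ) :
    frob ((wig g) ^ k * corr β g) ≤ (opN g ^ k * (n * √(q2 β g))) ^ 2 := by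
  rw [mul_pow, ← frob_corr_eq]
  exact frob_pow_mul g _ k

lemma gExp_pair_term (β : ℝ) (g : Dis n) (k : ℕ) (D : (Fin n → Bool) → ℝ) :
    |offSum fun i j => ((wig g) ^ k * corr β g) j i *
        gExp β g (fun x => D x * (spin (x i) * spin (x j)))|
      ≤ 2 * opN g ^ k * √(q2 β g) * (n : ℝ) ^ 2 * gExp β g fun x => |D x| := by
  set M := (wig g) ^ k * corr β g with hMdef
  have hM : frob Mᵀ ≤ (opN g ^ k * (n * √(q2 β g))) ^ 2 := by
    rw [frob_transpose]; exact frob_pow_mul_corr β g k
  have hN := pow_nonneg (opN_nonneg g) k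
  have hLam : ∀ x : Fin n → Bool, |offSum fun i j => M j i * (spin (x i) * spin (x j))|
      ≤ 2 * opN g ^ k * √(q2 β g) * (n : ℝ) ^ 2 := by
    intro x
    rw [offSum_eq]
    have h1 := abs_quadObs_le Mᵀ (by positivity) hM x
    have h2 := abs_diag_inner_le hM (frob_spins x).le (by positivity) (Nat.cast_nonneg n)
    simp only [quadObs, Matrix.transpose_apply, Matrix.of_apply] at h1 h2
    refine (abs_sub _ _).trans ?_
    linarith
  have e : (offSum fun i j => M j i * gExp β g (fun x => D x * (spin (x i) * spin (x j))))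
      = gExp β g fun x => D x * offSum fun i j => M j i * (spin (x i) * spin (x j)) := by
    simp only [offSum, mul_sum]
    rw [gExp_sum]
    refine sum_congr rfl fun i _ => ?_
    rw [gExp_sum]
    refine sum_congr rfl fun j _ => ?_
    by_cases hij : i = j
    · simp [hij, gExp_const]
    · simp only [if_neg hij]
      rw [← gExp_smul]
      exact congrArg (gExp β g) (funext fun x => by ring)
  rw [e]
  refine (abs_gExp_le_gExp_abs β g _).trans ((gExp_mono β g fun x => ?_).trans
    (gExp_smul β g (2 * opN g ^ k * √(q2 β g) * (n : ℝ) ^ 2) (fun x => |D x|)).le)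
  rw [abs_mul, mul_comm]
  exact mul_le_mul_of_nonneg_right (hLam x) (abs_nonneg _)

lemma weight_term (β : ℝ) (g : Dis n) (k : ℕ) :
    |offSum fun i j => ((wig g) ^ k * corr β g) j i *
        gExp β g (fun x => (overlap β g x - q2 β g) * (spin (x i) * spin (x j)))|
      ≤ 2 * opN g ^ k * q4 β g ^ 5 * (n : ℝ) ^ 2 := by
  refine (gExp_pair_term β g k _).trans ?_
  refine (mul_le_mul_of_nonneg_left (gExp_abs_sub_le β g)
    (by positivity [opN_nonneg g])).trans (le_of_eq ?_)
  rw [← q4_sq]; ring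

lemma moment_grad_term (β : ℝ) (g : Dis n) (k l : ℕ) (hn : 0 < n) :
    |offSum fun i j => ((wig g) ^ k * corr β g) j i * gradMu β l g i j|
      ≤ 4 * |β| * (1 + opN g) ^ (l + k) * √(q2 β g) * (n : ℝ) ^ 2
        + 4 * l * n * (1 + opN g) ^ (l + k) := by
  set M := (wig g) ^ k * corr β g with hMdef
  set u := (1 + opN g) ^ (l + k) with hu
  have hn' : (0:ℝ) < n := Nat.cast_pos.2 hn
  set X := quadObs ((wig g) ^ l) with hX
  set Y : ℕ → Matrix (Fin n) (Fin n) ℝ := fun q =>
    (wig g) ^ q * corr β g * (wig g) ^ (l - 1 - q) with hY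
  have e : (offSum fun i j => M j i * gradMu β l g i j)
      = (n : ℝ)⁻¹ * (β * (offSum fun i j => M j i *
            gExp β g (fun x => (X x - gExp β g X) * (spin (x i) * spin (x j))))
          + ∑ q ∈ range l, offSum fun i j => M j i * (Y q i j + Y q j i)) := by
    simp only [offSum, mul_sum, mul_add]
    rw [sum_comm (s := range l), ← sum_add_distrib]
    refine sum_congr rfl fun i _ => ?_
    rw [sum_comm (s := range l), ← sum_add_distrib]
    refine sum_congr rfl fun j _ => ?_
    by_cases hij : i = j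
    · simp [hij]
    simp only [if_neg hij]
    rw [gradMu_apply β l g hij]
    simp only [sub_mul, gExp_sub, gExp_smul, gradExp, Matrix.of_apply, mul_add, mul_sum,
      sum_add_distrib, hX, hY, corr]
    ring
  have hM : frob Mᵀ ≤ (opN g ^ k * n) ^ 2 := by
    rw [frob_transpose]
    refine (frob_pow_mul g _ k).trans ?_
    rw [mul_pow]
    exact mul_le_mul_of_nonneg_left (frob_corr_le β g) (sq_nonneg _)
  have hN := pow_nonneg (opN_nonneg g) k
  have hq : ∀ q ∈ range l, |offSum fun i j => M j i * (Y q i j + Y q j i)|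
      ≤ 4 * (n : ℝ) ^ 2 * u := by
    intro q hq
    rw [mem_range] at hq
    have h0 : 0 ≤ opN g ^ (q + (l - 1 - q)) * (n:ℝ) := by positivity [opN_nonneg g]
    have h1 := abs_inner_le Mᵀ (Y q) hM (frob_sandwich_le β g _ _) (by positivity) h0
    have h2 := abs_inner_le Mᵀ (Y q)ᵀ hM
      (by rw [frob_transpose]; exact frob_sandwich_le β g _ _) (by positivity) h0
    have h3 := abs_diag_inner_le hM (frob_sandwich_le β g q (l - 1 - q)) (by positivity) h0
    have h4 : opN g ^ k * (n:ℝ) * (opN g ^ (q + (l - 1 - q)) * n) ≤ (n : ℝ) ^ 2 * u := by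
      rw [show opN g ^ k * (n:ℝ) * (opN g ^ (q + (l - 1 - q)) * n)
        = (n : ℝ) ^ 2 * opN g ^ (k + (q + (l - 1 - q))) by rw [pow_add]; ring]
      exact mul_le_mul_of_nonneg_left (opN_pow_le g (by omega)) (sq_nonneg _)
    simp only [Matrix.transpose_apply, hY] at h1 h2 h3
    rw [offSum_eq]
    simp only [mul_add, sum_add_distrib]
    refine (abs_sub _ _).trans ((add_le_add (abs_add_le _ _) (abs_add_le _ _)).trans ?_)
    simp only [hY]
    linarith
  have hp := gExp_pair_term β g k (fun x => X x - gExp β g X)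
  have hD : gExp β g (fun x => |X x - gExp β g X|) ≤ 2 * (opN g ^ l * n) := by
    refine (gExp_mono β g fun x => ?_).trans (gExp_const β g _).le
    exact (abs_sub _ _).trans (by
      linarith [abs_quadObs_pow_le g l x, abs_gExp_le β g (abs_quadObs_pow_le g l)])
  rw [e, abs_mul, abs_of_pos (inv_pos.2 hn'), inv_mul_le_iff₀ hn']
  refine (abs_add_le _ _).trans ?_
  rw [abs_mul]
  have h5 : |β| * |offSum fun i j => M j i *
      gExp β g (fun x => (X x - gExp β g X) * (spin (x i) * spin (x j)))|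
      ≤ 4 * |β| * u * √(q2 β g) * (n : ℝ) ^ 2 * n := by
    refine (mul_le_mul_of_nonneg_left (hp.trans (mul_le_mul_of_nonneg_left hD
      (by positivity [opN_nonneg g]))) (abs_nonneg β)).trans ?_
    rw [show |β| * (2 * opN g ^ k * √(q2 β g) * (n:ℝ) ^ 2 * (2 * (opN g ^ l * n)))
      = 4 * |β| * opN g ^ (l + k) * √(q2 β g) * (n:ℝ) ^ 2 * n by rw [pow_add]; ring]
    gcongr
    exact opN_pow_le g le_rfl
  have h6 := (abs_sum_le_sum_abs _ _).trans (sum_le_sum hq)
  rw [sum_const, card_range, nsmul_eq_mul] at h6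
  have e2 : (n:ℝ) * (4 * |β| * u * √(q2 β g) * (n : ℝ) ^ 2 + 4 * l * n * u)
      = 4 * |β| * u * √(q2 β g) * (n : ℝ) ^ 2 * n + (l:ℝ) * (4 * (n:ℝ) ^ 2 * u) := by ring
  rw [e2]
  exact add_le_add h5 h6

lemma power_term (β : ℝ) (g : Dis n) (l p : ℕ) :
    |offSum (fun i j => ((wig g) ^ l) j i * ((wig g) ^ p * corr β g) j i
        + ((wig g) ^ l) j j * ((wig g) ^ p * corr β g) i i)
      - (n : ℝ) ^ 2 * (mu β p g * traceMom l g)| ≤ 3 * n * √n * opN g ^ (l + p) := by
  set M := (wig g) ^ p * corr β g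
  have hM : frob M ≤ (opN g ^ p * n) ^ 2 := by
    refine (frob_pow_mul g _ p).trans ?_
    rw [mul_pow]
    exact mul_le_mul_of_nonneg_left (frob_corr_le β g) (sq_nonneg _)
  have hl := frob_pow g l
  have hN := opN_nonneg g
  have h1 := abs_inner_le ((wig g) ^ l) M hl hM (by positivity) (by positivity)
  have h2 := abs_diag_inner_le hl hM (by positivity) (by positivity)
  have h3 : √(n:ℝ) * opN g ^ l * (opN g ^ p * n) = n * √n * opN g ^ (l + p) := by
    rw [pow_add]; ring
  have e : (n : ℝ) ^ 2 * (mu β p g * traceMom l g)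
      = ∑ i, ∑ j, ((wig g) ^ l) j j * M i i := by
    rcases Nat.eq_zero_or_pos n with rfl | hn
    · simp
    have hn' : (n:ℝ) ≠ 0 := (Nat.cast_pos.2 hn).ne'
    rw [mu_eq, traceMom, show (n:ℝ) ^ 2 * ((∑ i, M i i) / n * (Matrix.trace ((wig g) ^ l) / n))
      = (∑ i, M i i) * Matrix.trace ((wig g) ^ l) by field_simp]
    simp only [Matrix.trace, Matrix.diag_apply, sum_mul_sum]
    exact sum_congr rfl fun i _ => sum_congr rfl fun j _ => mul_comm _ _
  rw [offSum_eq, e]
  simp only [sum_add_distrib]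
  rw [sum_comm (f := fun i j => ((wig g) ^ l) j i * M j i)]
  rw [show ∀ a b c : ℝ, a + b - (c + c) - b = a - 2 * c from fun a b c => by ring]
  refine (abs_sub _ _).trans ?_
  rw [abs_mul, abs_two]
  linarith

lemma corr_term (β : ℝ) (g : Dis n) (k : ℕ) :
    |offSum (fun i j => ((wig g) ^ k * corr β g) j j
        - ((wig g) ^ k * corr β g) j i * corr β g i j)
      - (n : ℝ) ^ 2 * mu β k g| ≤ opN g ^ k * q2 β g * (n : ℝ) ^ 2 := by
  set M := (wig g) ^ k * corr β g
  have h := abs_inner_le Mᵀ (corr β g) (by rw [frob_transpose]; exact frob_pow_mul_corr β g k)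
    (frob_corr_eq β g).le (by positivity [opN_nonneg g]) (by positivity)
  have e : (n : ℝ) ^ 2 * mu β k g = ∑ i : Fin n, ∑ j, M j j := by
    rcases Nat.eq_zero_or_pos n with rfl | hn
    · simp
    have hn' : (n:ℝ) ≠ 0 := (Nat.cast_pos.2 hn).ne'
    rw [mu_eq, sum_const, card_univ, Fintype.card_fin, nsmul_eq_mul]
    field_simp
    rfl
  rw [offSum_eq, e]
  simp only [corr_self, mul_one, sub_self, sum_const_zero, sub_zero, sum_sub_distrib]
  rw [sub_sub_cancel_left, abs_neg]
  simp only [Matrix.transpose_apply] at h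
  refine h.trans (le_of_eq ?_)
  rw [show opN g ^ k * (↑n * √(q2 β g)) * (↑n * √(q2 β g))
    = opN g ^ k * (√(q2 β g) * √(q2 β g)) * (n:ℝ) ^ 2 by ring,
    Real.mul_self_sqrt (q2_nonneg β g)]

lemma mul_one_sub_pow_le {u : ℝ} (hu : 0 ≤ u) (hu1 : u ≤ 1) {M : ℕ} (hM : 0 < M) :
    u * (1 - u) ^ M ≤ 1 / M := by
  have h0 : 0 ≤ 1 - u := sub_nonneg.2 hu1
  have h1 : (1 - u) ^ M * (1 + u) ^ M ≤ 1 := by
    rw [← mul_pow]
    have := sq_nonneg u
    exact pow_le_one₀ (mul_nonneg h0 (by linarith)) (by linarith)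
  have h2 := mul_le_mul_of_nonneg_left (one_add_mul_le_pow (a := u) (by linarith) M)
    (pow_nonneg h0 M)
  have h3 := pow_nonneg h0 M
  rw [le_div_iff₀ (Nat.cast_pos.2 hM)]
  linarith

lemma fifth_bound {s : ℝ} (hs : 0 ≤ s) (hs1 : s ^ 4 ≤ 1) {r : ℕ} (hr : 1 ≤ r) :
    ((5 * r ^ 4 + 1 : ℕ) : ℝ) * ((1 - s ^ 4) ^ (5 * r ^ 4) * s ^ 5) ≤ 3 / 2 / r := by
  have hr' : (1:ℝ) ≤ r := Nat.one_le_cast.2 hr
  have h0 : 0 ≤ 1 - s ^ 4 := sub_nonneg.2 hs1
  have h1 := mul_one_sub_pow_le (pow_nonneg hs 4) hs1 (M := 4 * r ^ 4)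
    (by have := pow_pos (show 0 < r by omega) 4; omega)
  have h2 := pow_le_pow_left₀ (by positivity) h1 5
  have hX : (1 - s ^ 4) ^ (5 * r ^ 4) * s ^ 5 ≤ 1 / (4 * (r:ℝ) ^ 5) := by
    refine le_of_pow_le_pow_left₀ (by norm_num : 4 ≠ 0) (by positivity) ?_
    calc ((1 - s ^ 4) ^ (5 * r ^ 4) * s ^ 5) ^ 4
        = (s ^ 4 * (1 - s ^ 4) ^ (4 * r ^ 4)) ^ 5 := by
          rw [mul_pow, mul_pow, ← pow_mul, ← pow_mul, ← pow_mul, ← pow_mul]
          rw [show 5 * r ^ 4 * 4 = 4 * r ^ 4 * 5 by ring]
          ring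
      _ ≤ (1 / ((4 * r ^ 4 : ℕ) : ℝ)) ^ 5 := h2
      _ ≤ _ := by
          push_cast
          rw [div_pow, div_pow, one_pow, one_pow, mul_pow, mul_pow, ← pow_mul, ← pow_mul]
          gcongr <;> norm_num
  refine (mul_le_mul_of_nonneg_left hX (Nat.cast_nonneg _)).trans ?_
  push_cast
  rw [mul_one_div, div_le_div_iff₀ (by positivity) (by positivity)]
  have h4 := pow_le_pow_right₀ hr' (show 1 ≤ 5 by norm_num)
  rw [pow_one] at h4
  linarith

/-- One step of the recursion for the weighted moments. -/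
lemma mu_step (β : ℝ) {r : ℕ} (hr : 1 ≤ r) (hn : 0 < n) (m k : ℕ) :
    |∫ g, wt β (5 * r ^ 4 + 1) g * mu β m g * mu β (k + 1) g ∂gauss (Fin n × Fin n)
      - ∫ g, (β * (wt β (5 * r ^ 4 + 1) g * mu β m g * mu β k g)
          + ∑ l ∈ range k,
            wt β (5 * r ^ 4 + 1) g * mu β m g * mu β (k - 1 - l) g * traceMom l g)
        ∂gauss (Fin n × Fin n)|
    ≤ (11 * |β| / r + (3 * k + 4 * m) / √n)
        * ∫ g : Dis n, (1 + opN g) ^ (m + k) ∂gauss (Fin n × Fin n) := by
  set L := 5 * r ^ 4 + 1 with hLdef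
  set γ := gauss (Fin n × Fin n)
  have hn' : (0:ℝ) < n := Nat.cast_pos.2 hn
  have hr' : (1:ℝ) ≤ r := Nat.one_le_cast.2 hr
  have hpoly : ∀ {H : Dis n → ℝ} {B : ℝ} {p : ℕ}, Continuous H →
      (∀ g, |H g| ≤ B * (1 + opN g) ^ p) → Integrable H γ := fun hc hH =>
    (PolyGrowth.of_opN hH).integrable hc
  have hu0 : ∀ (g : Dis n) p, 0 ≤ (1 + opN g) ^ p := fun g p =>
    pow_nonneg (one_add_opN_nonneg g) p
  set H : Fin n → Fin n → Dis n → ℝ := fun i j g =>
    (∑ a, ((wig g) ^ k) j a * corr β g a i) * (wt β L g * mu β m g) with hH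
  set GH : Fin n → Fin n → Dis n → Matrix (Fin n) (Fin n) ℝ := fun i j g =>
    (∑ a, ((wig g) ^ k) j a * corr β g a i) • (wt β L g • gradMu β m g
      + mu β m g • gradWt β L g) + (wt β L g * mu β m g) •
      ∑ a, (((wig g) ^ k) j a • gradExp β g (fun x => spin (x a) * spin (x i))
        + corr β g a i • gradPow g k j a) with hGH
  have hHg : ∀ i j, HasGrad (H i j) (GH i j) := fun i j =>
    (HasGrad.sum univ fun a _ => (hasGrad_pow k j a).mul
      (hasGrad_gExp β fun x => spin (x a) * spin (x i))).mul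
      ((hasGrad_wt β L).mul (hasGrad_mu β m))
  have hgp : ∀ (g : Dis n) a b i j, |gradPow g k a b i j| ≤ 2 * k * (1 + opN g) ^ k := by
    intro g a b i j
    simp only [gradPow, Matrix.of_apply]
    by_cases hij : i = j
    · simp only [if_pos hij, abs_zero]
      exact mul_nonneg (by positivity) (hu0 g k)
    simp only [if_neg hij]
    refine (abs_sum_le_sum_abs _ _).trans ?_
    refine (sum_le_sum (g := fun _ => 2 * (1 + opN g) ^ k) fun l hl => ?_).trans
      (le_of_eq (by simp; ring))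
    rw [mem_range] at hl
    refine (abs_add_le _ _).trans ?_
    rw [abs_mul, abs_mul]
    have e : opN g ^ l * opN g ^ (k - 1 - l) ≤ (1 + opN g) ^ k := by
      rw [← pow_add]; exact opN_pow_le g (by omega)
    have h1 := mul_le_mul (abs_pow_apply_le g l a i) (abs_pow_apply_le g (k - 1 - l) j b)
      (abs_nonneg _) (pow_nonneg (opN_nonneg g) _)
    have h2 := mul_le_mul (abs_pow_apply_le g l a j) (abs_pow_apply_le g (k - 1 - l) i b)
      (abs_nonneg _) (pow_nonneg (opN_nonneg g) _)
    linarith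
  have hsum : ∀ (g : Dis n) i j, |∑ a, ((wig g) ^ k) j a * corr β g a i| ≤ n * (1 + opN g) ^ k := by
    intro g i j
    refine (abs_sum_le_sum_abs _ _).trans
      ((sum_le_sum (g := fun _ => (1 + opN g) ^ k) fun a _ => ?_).trans (le_of_eq (by simp)))
    rw [abs_mul]
    exact (mul_le_of_le_one_right (abs_nonneg _) (abs_corr_le β g a i)).trans
      ((abs_pow_apply_le g k j a).trans (opN_pow_le g le_rfl))
  have hmu : ∀ g : Dis n, |mu β m g| ≤ (1 + opN g) ^ m := fun g =>
    (abs_mu_le β m g).trans (opN_pow_le g le_rfl)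
  have hwm : ∀ g : Dis n, |wt β L g * mu β m g| ≤ (1 + opN g) ^ m := fun g => by
    rw [abs_mul, abs_of_nonneg (wt_nonneg β L g)]
    exact (mul_le_of_le_one_left (abs_nonneg _) (wt_le_one β L g)).trans (hmu g)
  have hHb : ∀ i j g, |H i j g| ≤ n * (1 + opN g) ^ (m + k) := fun i j g => by
    simp only [hH]
    rw [abs_mul]
    refine (mul_le_mul (hsum g i j) (hwm g) (abs_nonneg _)
      (mul_nonneg hn'.le (hu0 g k))).trans (le_of_eq ?_)
    rw [pow_add]; ring
  have hGb : ∀ i j a b g, |GH i j g a b|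
      ≤ (n * ((2 * |β| + 2 * m) + L * (2 * |β|)) + n * (2 * |β| + 2 * k))
        * (1 + opN g) ^ (m + k) := by
    intro i j a b g
    simp only [hGH, Matrix.add_apply, Matrix.smul_apply, Matrix.sum_apply, smul_eq_mul]
    refine (abs_add_le _ _).trans ?_
    rw [abs_mul, abs_mul]
    have h0 : |wt β L g * gradMu β m g a b + mu β m g * gradWt β L g a b|
        ≤ ((2 * |β| + 2 * m) + L * (2 * |β|)) * (1 + opN g) ^ m := by
      refine (abs_add_le _ _).trans ?_
      rw [abs_mul, abs_mul, abs_of_nonneg (wt_nonneg β L g), add_mul, mul_comm ((L:ℝ) * _)]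
      exact add_le_add ((mul_le_of_le_one_left (abs_nonneg _) (wt_le_one β L g)).trans
        (abs_gradMu_le β m g a b))
        (mul_le_mul (hmu g) (abs_gradWt_le β L g a b) (abs_nonneg _) (hu0 g m))
    have h1 := mul_le_mul (hsum g i j) h0 (abs_nonneg _) (mul_nonneg hn'.le (hu0 g k))
    have h2 : |∑ c, (((wig g) ^ k) j c * gradExp β g (fun x => spin (x c) * spin (x i)) a b
        + corr β g c i * gradPow g k j c a b)| ≤ n * ((2 * |β| + 2 * k) * (1 + opN g) ^ k) := by
      refine (abs_sum_le_sum_abs _ _).trans ((sum_le_sum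
        (g := fun _ => (2 * |β| + 2 * k) * (1 + opN g) ^ k) fun c _ => ?_).trans
          (le_of_eq (by simp)))
      refine (abs_add_le _ _).trans ?_
      rw [abs_mul, abs_mul]
      have q1 : |gradExp β g (fun x => spin (x c) * spin (x i)) a b| ≤ 2 * |β| := by
        rw [gradExp, Matrix.of_apply, abs_mul, mul_comm 2]
        refine mul_le_mul_of_nonneg_left ((abs_sub _ _).trans ?_) (abs_nonneg β)
        have e1 : |gExp β g fun x => spin (x c) * spin (x i) * (spin (x a) * spin (x b))| ≤ 1 :=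
          abs_gExp_le β g fun x => by simp [abs_mul, abs_spin]
        have e2 : |gExp β g (fun x => spin (x c) * spin (x i)) * corr β g a b| ≤ 1 := by
          rw [abs_mul]
          exact mul_le_one₀ (abs_corr_le β g c i) (abs_nonneg _) (abs_corr_le β g a b)
        linarith
      have q2' := mul_le_mul ((abs_pow_apply_le g k j c).trans (opN_pow_le g le_rfl)) q1
        (abs_nonneg _) (hu0 g k)
      have q3 := (mul_le_of_le_one_left (abs_nonneg _) (abs_corr_le β g c i)).trans (hgp g j c a b)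
      linarith
    have h3 := mul_le_mul (hwm g) h2 (abs_nonneg _) (hu0 g m)
    refine (add_le_add h1 h3).trans (le_of_eq ?_)
    rw [pow_add]; ring
  set S : Dis n → ℝ := fun g => offSum (fun i j => GH i j g i j) / (n : ℝ) ^ 2 with hS
  have hiG : ∀ i j, Integrable (fun g => GH i j g i j) γ := fun i j =>
    hpoly ((hHg i j).2.1 i j) fun g => hGb i j i j g
  have hiG' : ∀ i j, Integrable (fun g => if i = j then (0:ℝ) else GH i j g i j) γ := fun i j => by
    by_cases hij : i = j
    · simp [hij]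
    · simpa [hij] using hiG i j
  have hiW : ∀ i j, Integrable (fun g => wig g i j * H i j g) γ := fun i j => by
    refine hpoly (B := n) (p := (m + k) + 1) ((hasGrad_wig i j).1.mul (hHg i j).1) fun g => ?_
    rw [abs_mul, pow_succ]
    have h1 : |wig g i j| ≤ 1 + opN g := by
      have := abs_pow_apply_le g 1 i j
      rw [pow_one, pow_one] at this
      linarith
    have := mul_le_mul h1 (hHb i j g) (abs_nonneg _) (one_add_opN_nonneg g)
    linarith
  have hiS : Integrable S γ :=
    Integrable.div_const (integrable_finsetSum _ fun i _ => integrable_finsetSum _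
      fun j _ => hiG' i j) _
  have key : ∫ g, wt β L g * mu β m g * mu β (k + 1) g ∂γ = ∫ g, S g ∂γ := by
    have e : ∀ g, wt β L g * mu β m g * mu β (k + 1) g
        = (∑ i, ∑ j, wig g i j * H i j g) / n := fun g => by
      rw [mu_eq β (k + 1), pow_succ', Matrix.mul_assoc, mul_div_assoc']
      simp only [Matrix.mul_apply, hH, mul_sum, sum_mul]
      congr 1
      exact sum_congr rfl fun i _ => sum_congr rfl fun j _ => sum_congr rfl fun a _ => by ring
    simp only [e, hS, offSum]
    rw [integral_div, integral_div,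
      integral_finsetSum _ fun i _ => integrable_finsetSum _ fun j _ => hiW i j,
      integral_finsetSum _ fun i _ => integrable_finsetSum _ fun j _ => hiG' i j,
      sum_div, sum_div]
    refine sum_congr rfl fun i _ => ?_
    rw [integral_finsetSum _ fun j _ => hiW i j, integral_finsetSum _ fun j _ => hiG' i j,
      sum_div, sum_div]
    refine sum_congr rfl fun j _ => ?_
    rw [integral_wig_mul (hHg i j) (PolyGrowth.of_opN (hHb i j))
      (fun a b => PolyGrowth.of_opN fun g => hGb i j a b g)]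
    by_cases hij : i = j
    · simp [hij]
    · simp only [if_neg hij]
      rw [sq, div_div]
  set T : Dis n → ℝ := fun g => β * (wt β L g * mu β m g * mu β k g)
    + ∑ l ∈ range k, wt β L g * mu β m g * mu β (k - 1 - l) g * traceMom l g
  have hiT : Integrable T γ :=
    ((((isTest_wt β L).mul (isTest_mu β m)).mul (isTest_mu β k)).integrable n).const_mul β |>.add
      (integrable_finsetSum _ fun l _ => ((((isTest_wt β L).mul (isTest_mu β m)).mul
        (isTest_mu β (k - 1 - l))).mul (isTest_traceMom l)).integrable n)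
  have hpt : ∀ g, |S g - T g|
      ≤ (11 * |β| / r + (3 * k + 4 * m) / √n) * (1 + opN g) ^ (m + k) := by
    intro g
    set C := corr β g
    set u := q2 β g
    set N := opN g
    set A := offSum fun i j => ((wig g) ^ k * C) j i *
        gExp β g (fun x => (overlap β g x - u) * (spin (x i) * spin (x j))) with hA
    set B := offSum (fun i j => ((wig g) ^ k * C) j j - ((wig g) ^ k * C) j i * C i j) with hB
    set P : ℕ → ℝ := fun l => offSum (fun i j => ((wig g) ^ l) j i
        * ((wig g) ^ (k - 1 - l) * C) j i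
        + ((wig g) ^ l) j j * ((wig g) ^ (k - 1 - l) * C) i i) with hP
    set v := mu β m g
    set D := offSum fun i j => ((wig g) ^ k * C) j i * gradMu β m g i j with hD
    have e1 : offSum (fun i j => GH i j g i j)
        = wt β L g * D + v * (-((L : ℝ) * (1 - u) ^ (L - 1)) * (2 * β) * A)
          + wt β L g * v * β * B + wt β L g * v * ∑ l ∈ range k, P l := by
      simp only [hA, hB, hP, hD, offSum, mul_sum]
      rw [sum_comm (s := range k), ← sum_add_distrib, ← sum_add_distrib, ← sum_add_distrib]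
      refine sum_congr rfl fun i _ => ?_
      rw [sum_comm (s := range k), ← sum_add_distrib, ← sum_add_distrib, ← sum_add_distrib]
      refine sum_congr rfl fun j _ => ?_
      by_cases hij : i = j
      · simp [hij]
      simp only [if_neg hij]
      show (∑ a, ((wig g) ^ k) j a * C a i)
          * (wt β L g * gradMu β m g i j + v * gradWt β L g i j)
        + wt β L g * v * (∑ a, (((wig g) ^ k) j a • gradExp β g (fun x => spin (x a) * spin (x i))
          + C a i • gradPow g k j a)) i j = _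
      simp only [Matrix.sum_apply, Matrix.add_apply, Matrix.smul_apply, smul_eq_mul]
      have eE : ∀ a, gradExp β g (fun x => spin (x a) * spin (x i)) i j
          = β * (C a j - C a i * C i j) := fun a => by
        simp only [gradExp, Matrix.of_apply, C, corr]
        rw [show (fun x : Fin n → Bool => spin (x a) * spin (x i) * (spin (x i) * spin (x j)))
          = fun x => spin (x a) * spin (x j) from funext fun x => by
            rw [mul_assoc, ← mul_assoc (spin (x i)), spin_sq, one_mul]]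
      simp only [eE, gradWt, gradQ2, Matrix.smul_apply, Matrix.of_apply, smul_eq_mul, gradPow,
        if_neg hij, Matrix.mul_apply, sum_add_distrib, mul_add, mul_sum, sum_mul, mul_sub,
        sub_mul, sum_sub_distrib]
      rw [sum_comm (s := range k), sum_comm (s := range k)]
      refine (add_assoc _ _ _).symm.trans (congrArg₂ (· + ·) (congrArg₂ (· + ·)
        (congrArg₂ (· + ·) ?_ ?_) (congrArg₂ (· - ·) ?_ ?_)) (congrArg₂ (· + ·) ?_ ?_))
      · exact sum_congr rfl fun a _ => by ring
      · exact sum_congr rfl fun a _ => by simp only [u]; ring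
      · exact sum_congr rfl fun a _ => by ring
      · exact sum_congr rfl fun a _ => by ring
      · exact sum_congr rfl fun a _ => sum_congr rfl fun l _ => by ring
      · exact sum_congr rfl fun a _ => sum_congr rfl fun l _ => by ring
    have hwu : wt β L g * u ≤ 1 / r := by
      have := mul_one_sub_pow_le (q2_nonneg β g) (q2_le_one β g) (M := L) (by omega)
      rw [mul_comm] at this
      refine this.trans (one_div_le_one_div_of_le (by linarith) ?_)
      have : r ≤ L := by
        have := Nat.le_self_pow (show 4 ≠ 0 by norm_num) r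
        omega
      exact_mod_cast this
    have hA1 : |-((L : ℝ) * (1 - u) ^ (L - 1)) * (2 * β) * A|
        ≤ 6 * |β| / r * (N ^ k * (n : ℝ) ^ 2) := by
      have h5 := fifth_bound (q4_nonneg β g) (by rw [q4_four]; exact q2_le_one β g) hr
      rw [q4_four] at h5
      have hL1 : L - 1 = 5 * r ^ 4 := by omega
      rw [abs_mul, abs_mul, abs_neg, abs_mul (2:ℝ), abs_two, hL1,
        abs_of_nonneg (mul_nonneg (Nat.cast_nonneg L)
          (pow_nonneg (sub_nonneg.2 (q2_le_one β g)) _))]
      refine (mul_le_mul_of_nonneg_left (weight_term β g k)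
        (by have := pow_nonneg (sub_nonneg.2 (q2_le_one β g)) (5 * r ^ 4); positivity)).trans ?_
      have := mul_le_mul_of_nonneg_left h5 (show 0 ≤ 4 * |β| * (N ^ k * (n : ℝ) ^ 2) by
        positivity [opN_nonneg g])
      refine le_of_eq_of_le ?_ (this.trans (le_of_eq (by ring)))
      simp only [hLdef, N]
      push_cast
      ring
    have hB1 : |wt β L g * β * B - β * (wt β L g * mu β k g) * (n : ℝ) ^ 2|
        ≤ |β| / r * (N ^ k * (n : ℝ) ^ 2) := by
      rw [show wt β L g * β * B - β * (wt β L g * mu β k g) * (n : ℝ) ^ 2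
        = β * wt β L g * (B - (n : ℝ) ^ 2 * mu β k g) by ring, abs_mul, abs_mul,
        abs_of_nonneg (wt_nonneg β L g)]
      refine (mul_le_mul_of_nonneg_left (corr_term β g k) (by
        have := wt_nonneg β L g; positivity)).trans ?_
      have := mul_le_mul_of_nonneg_left hwu (show 0 ≤ |β| * (N ^ k * (n : ℝ) ^ 2) by
        positivity [opN_nonneg g])
      exact le_of_eq_of_le (by ring) (this.trans (le_of_eq (by ring)))
    have hP1 : |wt β L g * ∑ l ∈ range k, P l
          - (∑ l ∈ range k, wt β L g * mu β (k - 1 - l) g * traceMom l g) * (n : ℝ) ^ 2|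
        ≤ k * (3 * n * √n * (1 + N) ^ k) := by
      rw [mul_sum, sum_mul, ← sum_sub_distrib]
      refine (abs_sum_le_sum_abs _ _).trans ((sum_le_sum
        (g := fun _ => 3 * n * √n * (1 + N) ^ k) fun l hl => ?_).trans (le_of_eq (by simp)))
      rw [mem_range] at hl
      rw [show wt β L g * P l - wt β L g * mu β (k - 1 - l) g * traceMom l g * (n : ℝ) ^ 2
        = wt β L g * (P l - (n : ℝ) ^ 2 * (mu β (k - 1 - l) g * traceMom l g)) by ring,
        abs_mul, abs_of_nonneg (wt_nonneg β L g)]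
      refine (mul_le_of_le_one_left (abs_nonneg _) (wt_le_one β L g)).trans
        ((power_term β g l (k - 1 - l)).trans ?_)
      exact mul_le_mul_of_nonneg_left (opN_pow_le g (by omega)) (by positivity)
    have hD1 : |wt β L g * D| ≤ 4 * |β| / r * ((1 + N) ^ (m + k) * (n : ℝ) ^ 2)
        + 4 * m * n * (1 + N) ^ (m + k) := by
      have hw := wt_nonneg β L g
      have hsu : wt β L g * √u ≤ 1 / r := by
        refine (abs_le_of_sq_le_sq' ?_ (by positivity)).2
        have h1 := mul_one_sub_pow_le (q2_nonneg β g) (q2_le_one β g) (M := L) (by omega)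
        have h2 : (1:ℝ) / L ≤ (1 / r) ^ 2 := by
          rw [div_pow, one_pow]
          refine one_div_le_one_div_of_le (by positivity) ?_
          have h3 : r ^ 2 ≤ r ^ 4 := Nat.pow_le_pow_right hr (by norm_num)
          have : r ^ 2 ≤ L := by omega
          exact_mod_cast this
        rw [mul_pow, sq_sqrt (q2_nonneg β g)]
        refine le_trans ?_ (h1.trans h2)
        rw [mul_comm]
        exact mul_le_mul_of_nonneg_left (pow_le_of_le_one hw (wt_le_one β L g) two_ne_zero)
          (q2_nonneg β g)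
      rw [abs_mul, abs_of_nonneg hw]
      refine (mul_le_mul_of_nonneg_left (moment_grad_term β g k m hn) hw).trans ?_
      rw [mul_add]
      refine add_le_add ?_ (mul_le_of_le_one_left (by positivity [opN_nonneg g])
        (wt_le_one β L g))
      have := mul_le_mul_of_nonneg_left hsu
        (show 0 ≤ 4 * |β| * (1 + N) ^ (m + k) * (n : ℝ) ^ 2 by positivity [opN_nonneg g])
      exact le_of_eq_of_le (by ring) (this.trans (le_of_eq (by ring)))
    have e3 : S g - T g = (wt β L g * D + v * ((-((L : ℝ) * (1 - u) ^ (L - 1)) * (2 * β) * A)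
        + (wt β L g * β * B - β * (wt β L g * mu β k g) * (n : ℝ) ^ 2)
        + (wt β L g * ∑ l ∈ range k, P l
          - (∑ l ∈ range k, wt β L g * mu β (k - 1 - l) g * traceMom l g) * (n : ℝ) ^ 2)))
          / (n : ℝ) ^ 2 := by
      have hsw : ∑ l ∈ range k, wt β L g * mu β m g * mu β (k - 1 - l) g * traceMom l g
          = v * ∑ l ∈ range k, wt β L g * mu β (k - 1 - l) g * traceMom l g := by
        rw [mul_sum]; exact sum_congr rfl fun l _ => by simp only [v]; ring
      simp only [hS, T]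
      rw [e1, hsw]
      field_simp
      ring
    rw [e3, abs_div, abs_of_nonneg (sq_nonneg (n:ℝ)), div_le_iff₀ (by positivity)]
    refine (abs_add_le _ _).trans ?_
    rw [abs_mul v]
    have hNk : N ^ k * (n : ℝ) ^ 2 ≤ (1 + N) ^ k * (n : ℝ) ^ 2 :=
      mul_le_mul_of_nonneg_right (opN_pow_le g le_rfl) (sq_nonneg _)
    have m1 := mul_le_mul_of_nonneg_left hNk (show (0:ℝ) ≤ 7 * |β| / r by positivity)
    have hs : √(n:ℝ) * √n = n := Real.mul_self_sqrt hn'.le
    have hsn : 0 < √(n:ℝ) := Real.sqrt_pos.2 hn'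
    have e5 : 6 * |β| / r * (N ^ k * (n : ℝ) ^ 2) + |β| / r * (N ^ k * (n : ℝ) ^ 2)
        = 7 * |β| / r * (N ^ k * (n : ℝ) ^ 2) := by ring
    have hrest := ((abs_add_three _ _ _).trans (add_le_add (add_le_add hA1 hB1) hP1)).trans
      (show _ ≤ (7 * |β| / r * (n : ℝ) ^ 2 + k * (3 * n * √n)) * (1 + N) ^ k by linarith)
    have hrest' := mul_le_mul (hmu g) hrest (abs_nonneg _) (hu0 g m)
    replace hrest' := hrest'.trans (le_of_eq (show (1 + opN g) ^ m
        * ((7 * |β| / r * (n : ℝ) ^ 2 + k * (3 * n * √n)) * (1 + N) ^ k)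
        = (7 * |β| / r * (n : ℝ) ^ 2 + k * (3 * n * √n)) * (1 + N) ^ (m + k) by
      rw [pow_add]; ring))
    have hs1 : (1:ℝ) ≤ √n := Real.one_le_sqrt.2 (Nat.one_le_cast.2 hn)
    have g1 := mul_le_mul_of_nonneg_left hs1
      (show 0 ≤ 4 * (m:ℝ) * n * (1 + N) ^ (m + k) by positivity [opN_nonneg g])
    have e4 : (3 * (k:ℝ) + 4 * m) / √n * ((1 + N) ^ (m + k) * (n : ℝ) ^ 2)
        = (3 * k + 4 * m) * n * √n * (1 + N) ^ (m + k) := by
      rw [show (n : ℝ) ^ 2 = n * (√n * √n) by rw [hs]; ring]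
      field_simp
    simp only [v] at hrest' ⊢
    refine (add_le_add hD1 hrest').trans ?_
    rw [mul_assoc ((11 * |β| / r + (3 * (k:ℝ) + 4 * m) / √n)), add_mul (11 * |β| / (r:ℝ)), e4]
    generalize (1 + N) ^ (m + k) = U at g1 ⊢
    generalize √(n:ℝ) = q at g1 ⊢
    clear * - g1
    ring_nf
    ring_nf at g1
    linarith
  rw [key, ← integral_sub hiS hiT]
  calc |∫ g, (S g - T g) ∂γ| ≤ ∫ g, |S g - T g| ∂γ := abs_integral_le_integral_abs
    _ ≤ ∫ g, (11 * |β| / r + (3 * k + 4 * m) / √n) * (1 + opN g) ^ (m + k) ∂γ :=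
        integral_mono (hiS.sub hiT).abs ((integrable_opN_pow _).const_mul _) hpt
    _ = _ := integral_const_mul _ _

/-! ### The limiting recursion -/

/-- Limits of the weighted moments at vanishing overlap. -/
noncomputable def mSeq (β : ℝ) : ℕ → ℝ
  | 0 => 1
  | k + 1 => β * mSeq β k + ∑ l : Fin k, catC l * mSeq β (k - 1 - l)

lemma mSeq_succ (β : ℝ) (k : ℕ) :
    mSeq β (k + 1) = β * mSeq β k + ∑ l ∈ range k, catC l * mSeq β (k - 1 - l) := by
  rw [mSeq, Fin.sum_univ_eq_sum_range fun l => catC l * mSeq β (k - 1 - l)]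

lemma catC_two_add (k : ℕ) :
    catC (k + 2) = ∑ a ∈ range (k + 1), catC a * catC (k - a) := by
  rw [catC, Fin.sum_univ_eq_sum_range fun a => catC a * catC (k - a)]

lemma catC_nonneg : ∀ k, 0 ≤ catC k := by
  intro k
  induction k using Nat.strong_induction_on with
  | _ k ih =>
    match k with
    | 0 => simp [catC]
    | 1 => simp [catC]
    | k + 2 =>
      rw [catC_two_add]
      exact sum_nonneg fun a ha => by
        rw [mem_range] at ha
        exact mul_nonneg (ih a (by omega)) (ih (k - a) (by omega))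

theorem mu_limit (β : ℝ) (m k : ℕ) : ∃ C : ℝ, 0 ≤ C ∧ ∀ r : ℕ, 1 ≤ r → ∀ᶠ n : ℕ in atTop,
    |∫ g : Dis n, wt β (5 * r ^ 4 + 1) g * mu β m g * mu β k g ∂gauss (Fin n × Fin n)
      - mSeq β k * ∫ g : Dis n, wt β (5 * r ^ 4 + 1) g * mu β m g ∂gauss (Fin n × Fin n)|
      ≤ C / r := by
  induction k using Nat.strong_induction_on with
  | _ k ih =>
    match k with
    | 0 =>
      refine ⟨0, le_rfl, fun r _ => ?_⟩
      filter_upwards [eventually_gt_atTop 0] with n hn
      have : ∀ g : Dis n, mu β 0 g = 1 := fun g => by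
        simp [mu_eq, corr_self, hn.ne']
      simp [this, mSeq]
    | k + 1 =>
      choose! C hC0 hC using ih
      obtain ⟨Cb, hCb0, hCb⟩ := moment_bound (m + k)
      refine ⟨|β| * C k + ∑ l ∈ range k, |catC l| * C (k - 1 - l) + 11 * |β| * Cb + 2, ?_,
        fun r hr => ?_⟩
      · have h1 := hC0 k (by omega)
        have h2 : 0 ≤ ∑ l ∈ range k, |catC l| * C (k - 1 - l) := sum_nonneg fun l _ =>
          mul_nonneg (abs_nonneg _) (hC0 _ (by omega))
        positivity
      set L := 5 * r ^ 4 + 1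
      have hF : ∀ p, IsTest fun n (g : Dis n) => wt β L g * mu β m g * mu β p g := fun p =>
        ((isTest_wt β L).mul (isTest_mu β m)).mul (isTest_mu β p)
      have hr' : (0:ℝ) < r := Nat.cast_pos.2 hr
      have hlim : Tendsto (fun n : ℕ => (3 * (k:ℝ) + 4 * m) / √(n:ℝ) * Cb
          + ∑ l ∈ range k,
            |∫ g : Dis n, wt β L g * mu β m g * mu β (k - 1 - l) g * traceMom l g
              ∂gauss (Fin n × Fin n)
            - catC l * ∫ g : Dis n, wt β L g * mu β m g * mu β (k - 1 - l) g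
              ∂gauss (Fin n × Fin n)|)
          atTop (𝓝 0) := by
        have h1 := ((tendsto_const_nhds (x := 3 * (k:ℝ) + 4 * m)).div_atTop
          (Real.tendsto_sqrt_atTop.comp tendsto_natCast_atTop_atTop)).mul_const Cb
        have h2 := tendsto_finsetSum (range k) fun l _ =>
          (traceMom_limit l _ (hF (k - 1 - l))).abs
        simpa using h1.add h2
      filter_upwards [eventually_gt_atTop 0, hCb, hlim.eventually_le_const (one_div_pos.2 hr'),
        (eventually_all_finset (range (k + 1))).2 fun p hp => hC p (mem_range.1 hp) r hr]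
        with n hn hCbn hsmall hp
      set γ := gauss (Fin n × Fin n)
      set W := ∫ g : Dis n, wt β L g * mu β m g ∂γ
      have h1 := mu_step β hr hn m k
      have hiT := fun l => ((hF (k - 1 - l)).mul (isTest_traceMom l)).integrable n
      rw [integral_add (((hF k).integrable n).const_mul β)
          (integrable_finsetSum _ fun l _ => hiT l),
        integral_const_mul, integral_finsetSum _ fun l _ => hiT l] at h1
      have h2 : |β * ∫ g, wt β L g * mu β m g * mu β k g ∂γ - β * (mSeq β k * W)|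
          ≤ |β| * (C k / r) := by
        rw [← mul_sub, abs_mul]
        exact mul_le_mul_of_nonneg_left (hp k (mem_range.2 (by omega))) (abs_nonneg _)
      have h3 : ∀ l ∈ range k, |∫ g, wt β L g * mu β m g * mu β (k - 1 - l) g * traceMom l g ∂γ
          - catC l * mSeq β (k - 1 - l) * W|
          ≤ |∫ g, wt β L g * mu β m g * mu β (k - 1 - l) g * traceMom l g ∂γ
              - catC l * ∫ g, wt β L g * mu β m g * mu β (k - 1 - l) g ∂γ|
            + |catC l| * (C (k - 1 - l) / r) := fun l hl => by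
        rw [mem_range] at hl
        refine (abs_sub_le _ (catC l * ∫ g, wt β L g * mu β m g * mu β (k - 1 - l) g ∂γ) _).trans
          (add_le_add le_rfl ?_)
        rw [mul_assoc, ← mul_sub, abs_mul]
        exact mul_le_mul_of_nonneg_left (hp _ (mem_range.2 (by omega))) (abs_nonneg _)
      have h4 := (abs_sum_le_sum_abs _ _).trans (sum_le_sum h3)
      rw [sum_add_distrib, sum_sub_distrib, ← sum_mul] at h4
      have h5 : (11 * |β| / r + (3 * k + 4 * m) / √(n:ℝ)) * ∫ g : Dis n, (1 + opN g) ^ (m + k) ∂γ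
          ≤ 11 * |β| * Cb / r + (3 * k + 4 * m) / √(n:ℝ) * Cb := by
        refine (mul_le_mul_of_nonneg_left hCbn (by positivity)).trans (le_of_eq ?_)
        ring
      have e6 : ∑ l ∈ range k, |catC l| * (C (k - 1 - l) / r)
          = (∑ l ∈ range k, |catC l| * C (k - 1 - l)) / r := by
        rw [sum_div]; exact sum_congr rfl fun l _ => by ring
      rw [mSeq_succ, add_mul]
      rw [e6] at h4
      have t1 := abs_le.1 (h1.trans h5)
      have t2 := abs_le.1 h2
      have t4 := abs_le.1 h4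
      have e7 : (|β| * C k + ∑ l ∈ range k, |catC l| * C (k - 1 - l) + 11 * |β| * Cb + 2) / (r:ℝ)
          = |β| * (C k / r) + (∑ l ∈ range k, |catC l| * C (k - 1 - l)) / r + 11 * |β| * Cb / r
            + 2 * (1 / r) := by ring
      rw [e7, abs_le]
      constructor <;> linarith [one_div_pos.2 hr']

/-- The unweighted case of `mu_limit`. -/
theorem mu_limit_zero (β : ℝ) (k : ℕ) : ∃ C : ℝ, 0 ≤ C ∧ ∀ r : ℕ, 1 ≤ r → ∀ᶠ n : ℕ in atTop,
    |∫ g : Dis n, wt β (5 * r ^ 4 + 1) g * mu β k g ∂gauss (Fin n × Fin n)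
      - mSeq β k * ∫ g : Dis n, wt β (5 * r ^ 4 + 1) g ∂gauss (Fin n × Fin n)| ≤ C / r := by
  obtain ⟨C, hC0, hC⟩ := mu_limit β 0 k
  refine ⟨C, hC0, fun r hr => ?_⟩
  filter_upwards [hC r hr, eventually_gt_atTop 0] with n hn hn0
  have : ∀ g : Dis n, mu β 0 g = 1 := fun g => by simp [mu_eq, corr_self, hn0.ne']
  simpa [this] using hn

/-! ### Growth beyond the spectral edge -/

/-- Partial sums of the resolvent of the semicircle law. -/
noncomputable def stiel (r : ℝ) (K : ℕ) : ℝ := ∑ l ∈ range K, catC l / r ^ (l + 1)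

lemma stiel_step {r : ℝ} (hr : 0 < r) (K : ℕ) :
    1 + stiel r K ^ 2 ≤ r * stiel r (2 * K + 2) := by
  have e : r * stiel r (2 * K + 2)
      = 1 + ∑ j ∈ range (2 * K), ∑ a ∈ range (j + 1), catC a * catC (j - a) / r ^ (j + 2) := by
    rw [stiel, sum_range_succ', sum_range_succ', mul_add, mul_add, mul_sum, add_comm (1:ℝ)]
    congr 1
    · rw [show catC (0 + 1) = 0 by simp [catC], zero_div, mul_zero, add_zero]
      refine sum_congr rfl fun j _ => ?_
      rw [show j + 1 + 1 = j + 2 from rfl, catC_two_add, ← sum_div, pow_succ r (j + 2)]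
      field_simp
    · simp [catC]; field_simp
  rw [e, stiel, sq, sum_mul_sum, ← sum_product', sum_sigma']
  refine add_le_add le_rfl ?_
  have himg := sum_image (s := range K ×ˢ range K)
    (g := fun p : ℕ × ℕ => (⟨p.1 + p.2, p.1⟩ : Σ _ : ℕ, ℕ))
    (f := fun x : Σ _ : ℕ, ℕ => catC x.2 * catC (x.1 - x.2) / r ^ (x.1 + 2))
    (fun p _ q _ h => by
      simp only [Sigma.mk.injEq, heq_eq_eq] at h
      exact Prod.ext h.2 (by omega))
  refine le_of_eq_of_le ((sum_congr rfl fun p _ => ?_).trans himg.symm)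
    (sum_le_sum_of_subset_of_nonneg ?_ fun x _ _ =>
      div_nonneg (mul_nonneg (catC_nonneg _) (catC_nonneg _)) (pow_nonneg hr.le _))
  · simp only [Nat.add_sub_cancel_left]
    rw [div_mul_div_comm, ← pow_add, show p.1 + 1 + (p.2 + 1) = p.1 + p.2 + 2 by ring]
  · intro x hx
    simp only [mem_image, mem_product, mem_range] at hx
    obtain ⟨p, ⟨h1, h2⟩, rfl⟩ := hx
    simp only [mem_sigma, mem_range]
    omega

lemma exists_stiel_gt {β r : ℝ} (hβ : 1 < β) (hr : 0 < r) (hr1 : r < β + 1 / β) :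
    ∃ K, r - β < stiel r K := by
  by_contra h
  simp only [not_exists, not_lt] at h
  have hmono : Monotone (stiel r) := monotone_nat_of_le_succ fun K => by
    rw [stiel, stiel, sum_range_succ]
    exact le_add_of_nonneg_right (div_nonneg (catC_nonneg _) (pow_nonneg hr.le _))
  have hbdd : BddAbove (Set.range (stiel r)) := ⟨r - β, by rintro _ ⟨K, rfl⟩; exact h K⟩
  set G := ⨆ K, stiel r K
  have hG : G ≤ r - β := ciSup_le h
  have hlim : Tendsto (fun K => 1 + stiel r K ^ 2) atTop (𝓝 (1 + G ^ 2)) :=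
    ((tendsto_atTop_ciSup hmono hbdd).pow 2).const_add 1
  have h1 : 1 + G ^ 2 ≤ r * G := le_of_tendsto' hlim fun K =>
    (stiel_step hr K).trans (mul_le_mul_of_nonneg_left (le_ciSup hbdd _) hr.le)
  have hb : 1 / β < β := by
    rw [div_lt_iff₀ (by linarith)]
    exact lt_trans hβ (lt_mul_of_one_lt_left (by linarith) hβ)
  have h2 : 0 < β ^ 2 - r * β + 1 := by
    have := mul_lt_mul_of_pos_right hr1 (show 0 < β by linarith)
    rw [add_mul, div_mul_cancel₀ _ (by linarith : β ≠ 0)] at this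
    linarith
  have h3 : 0 ≤ (r - β - G) * (r - (r - β) - G) :=
    mul_nonneg (by linarith) (by linarith)
  linarith

lemma pow_le_mSeq {β : ℝ} (hβ : 0 ≤ β) : ∀ k, β ^ k ≤ mSeq β k := by
  intro k
  induction k using Nat.strong_induction_on with
  | _ k ih =>
    match k with
    | 0 => simp [mSeq]
    | k + 1 =>
      rw [mSeq_succ, pow_succ']
      refine le_add_of_le_of_nonneg (mul_le_mul_of_nonneg_left (ih k (by omega)) hβ)
        (sum_nonneg fun l _ => mul_nonneg (catC_nonneg l) ?_)
      exact (pow_nonneg hβ _).trans (ih _ (by omega))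

lemma mSeq_grows {β : ℝ} (hβ : 1 < β) : ∃ ε : ℝ, 0 < ε ∧ ε ≤ 1 ∧ ∃ k,
    (2 + 4 * ε) ^ k + 3 ≤ mSeq β k := by
  have hs : 2 < β + 1 / β := by
    have hb : 0 < β := by linarith
    have h := mul_pos (sub_pos.2 hβ) (sub_pos.2 hβ)
    have e : β + 1 / β - 2 = (β - 1) * (β - 1) / β := by field_simp; ring
    have := div_pos h hb
    linarith
  set r := (2 + (β + 1 / β)) / 2 with hrdef
  have hr2 : 2 < r := by rw [hrdef]; linarith
  have hr0 : 0 < r := by linarith
  obtain ⟨K, hK⟩ := exists_stiel_gt hβ hr0 (by rw [hrdef]; linarith)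
  have hcoef : r < β + stiel r K := by linarith
  set γ := 1 / r ^ (K + 1) with hγdef
  have hγ : 0 < γ := by positivity
  have hlow : ∀ k, γ * r ^ k ≤ mSeq β k := by
    intro k
    induction k using Nat.strong_induction_on with
    | _ k ih =>
      rcases le_or_gt k (K + 1) with hk | hk
      · refine le_trans ?_ ((one_le_pow₀ hβ.le).trans (pow_le_mSeq (by linarith) k))
        rw [hγdef, div_mul_eq_mul_div, one_mul, div_le_one (by positivity)]
        exact pow_le_pow_right₀ (by linarith) hk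
      obtain ⟨j, rfl⟩ : ∃ j, k = j + 1 := ⟨k - 1, by omega⟩
      rw [mSeq_succ]
      have h1 := mul_le_mul_of_nonneg_left (ih j (by omega)) (show (0:ℝ) ≤ β by linarith)
      have h2 : ∑ l ∈ range K, catC l * (γ * r ^ (j - 1 - l))
          ≤ ∑ l ∈ range j, catC l * mSeq β (j - 1 - l) := by
        refine (sum_le_sum fun l _ => mul_le_mul_of_nonneg_left (ih _ (by omega))
          (catC_nonneg l)).trans (sum_le_sum_of_subset_of_nonneg
            (range_subset_range.2 (by omega)) fun l _ _ => mul_nonneg (catC_nonneg l)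
              ((pow_nonneg (by linarith) _).trans (pow_le_mSeq (by linarith) _)))
      have e : ∑ l ∈ range K, catC l * (γ * r ^ (j - 1 - l)) = γ * r ^ j * stiel r K := by
        rw [stiel, mul_sum]
        refine sum_congr rfl fun l hl => ?_
        rw [mem_range] at hl
        rw [show r ^ j = r ^ (j - 1 - l) * r ^ (l + 1) by rw [← pow_add]; congr 1; omega]
        field_simp
      have h3 := mul_le_mul_of_nonneg_left hcoef.le (show 0 ≤ γ * r ^ j by positivity)
      rw [pow_succ]
      linarith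
  refine ⟨min 1 ((r - 2) / 8), lt_min one_pos (by linarith), min_le_left _ _, ?_⟩
  set Λ := 2 + 4 * min 1 ((r - 2) / 8)
  have hΛ : Λ < r := by
    have := min_le_right 1 ((r - 2) / 8)
    simp only [Λ]
    linarith
  have hΛ1 : 1 ≤ Λ := by
    have : 0 ≤ min 1 ((r - 2) / 8) := le_min zero_le_one (by linarith)
    simp only [Λ]
    linarith
  obtain ⟨k, hk⟩ := pow_unbounded_of_one_lt (4 / γ) (y := r / Λ)
    ((one_lt_div (by linarith)).2 hΛ)
  refine ⟨k, le_trans ?_ (hlow k)⟩
  rw [div_pow, div_lt_div_iff₀ hγ (by positivity)] at hk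
  have := one_le_pow₀ hΛ1 (n := k)
  linarith

/-- Above the critical temperature the squared overlap stays away from zero. -/
theorem overlap_pos {β : ℝ} (hβ : 1 < β) {η : ℝ} (hη : 0 < η) :
    ∃ δ > 0, ∀ᶠ n : ℕ in atTop,
      (gauss (Fin n × Fin n)).real {g : Dis n | q2 β g ≤ δ} ≤ η := by
  obtain ⟨ε, hε, hε1, k, hk⟩ := mSeq_grows hβ
  obtain ⟨C, hC0, hC⟩ := mu_limit_zero β k
  obtain ⟨r, hr⟩ := exists_nat_ge (max 1 (2 * (C + 1) / η))
  have hr1 : 1 ≤ r := Nat.one_le_cast.1 ((le_max_left _ _).trans hr)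
  have hr' : (0:ℝ) < r := Nat.cast_pos.2 hr1
  set L := 5 * r ^ 4 + 1
  have hL : (0:ℝ) < L := Nat.cast_pos.2 (by omega)
  refine ⟨1 / (2 * L), by positivity, ?_⟩
  filter_upwards [hC r hr1, (tail_moment hε hε1 k).eventually_le_const (one_div_pos.2 hr')]
    with n hn htail
  set γ := gauss (Fin n × Fin n)
  set Λ := 2 + 4 * ε
  set T := {g : Dis n | Λ < opN g}
  have hT : MeasurableSet T := measurableSet_lt measurable_const continuous_opN.measurable
  set W := ∫ g : Dis n, wt β L g ∂γ
  have hW : 0 ≤ W := integral_nonneg fun g => wt_nonneg β L g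
  have hi1 := ((isTest_wt β L).integrable n).const_mul (Λ ^ k)
  have hi2 := (integrable_opN_pow (n := n) k).indicator hT
  have hup : ∫ g, wt β L g * mu β k g ∂γ ≤ Λ ^ k * W + 1 / r := by
    have hpt : ∀ g : Dis n, wt β L g * mu β k g
        ≤ Λ ^ k * wt β L g + T.indicator (fun g => (1 + opN g) ^ k) g := fun g => by
      have hw := wt_nonneg β L g
      have hm := (le_abs_self _).trans (abs_mu_le β k g)
      by_cases hg : g ∈ T
      · rw [Set.indicator_of_mem hg]
        have h1 := mul_le_mul_of_nonneg_left (hm.trans (opN_pow_le g le_rfl)) hw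
        have h2 := mul_le_of_le_one_left (pow_nonneg (one_add_opN_nonneg g) k) (wt_le_one β L g)
        have h3 : 0 ≤ Λ ^ k * wt β L g := mul_nonneg (by positivity) hw
        linarith
      · rw [Set.indicator_of_notMem hg, add_zero]
        simp only [T, Set.mem_setOf_eq, not_lt] at hg
        rw [mul_comm (Λ ^ k)]
        exact mul_le_mul_of_nonneg_left (hm.trans (pow_le_pow_left₀ (opN_nonneg g) hg k)) hw
    refine (integral_mono (((isTest_wt β L).mul (isTest_mu β k)).integrable n)
      (hi1.add hi2) hpt).trans ?_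
    simp only [Pi.add_apply]
    rw [integral_add hi1 hi2, integral_const_mul, integral_indicator hT]
    linarith
  have hWb : W ≤ (C + 1) / r := by
    have h1 := (abs_le.1 hn).1
    have h2 := mul_le_mul_of_nonneg_right hk hW
    rw [add_div]
    linarith
  have hsub : ∀ g : Dis n, q2 β g ≤ 1 / (2 * L) → 1 / 2 ≤ wt β L g := fun g hg => by
    have h2L : 1 / (2 * (L:ℝ)) ≤ 1 := by
      rw [div_le_one (by positivity)]
      have : (1:ℝ) ≤ L := Nat.one_le_cast.2 (by omega)
      linarith
    have h1 := one_add_mul_le_pow (a := -(1 / (2 * (L:ℝ)))) (by linarith) L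
    have e : (L:ℝ) * (1 / (2 * L)) = 1 / 2 := by field_simp
    refine le_trans ?_ ((h1).trans (pow_le_pow_left₀ (by linarith) (by linarith) L))
    linarith
  have hmk := mul_meas_ge_le_integral_of_nonneg (μ := γ)
    (Eventually.of_forall fun g => wt_nonneg β L g) ((isTest_wt β L).integrable n) (1 / 2)
  have hmono := measureReal_mono (μ := γ) (s₁ := {g : Dis n | q2 β g ≤ 1 / (2 * (L:ℝ))})
    (s₂ := {g : Dis n | 1 / 2 ≤ wt β L g}) hsub
  have hfin : (C + 1) / r ≤ η / 2 := by
    have := (le_max_right _ _).trans hr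
    rw [div_le_iff₀ hη] at this
    rw [div_le_iff₀ hr']
    linarith
  linarith

end Vale.Agent.P150
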