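import Mathlib
import Vale.Agent.P150.Overlap

/-!
# A relaxation time linear in `n` above the critical temperature
-/

namespace Vale.Agent.P150

open MeasureTheory ProbabilityTheory Finset Function Real Matrix Filter
open scoped ENNReal Topology

/-! ### From a Rayleigh quotient to slow mixing -/

section General

variable {ι : Type*} [Fintype ι] [DecidableEq ι] {J : ι → ι → ℝ} {h : ι → ℝ}

lemma semigroup_eq_sum (ρ : (ι → Bool) → ℝ) (t : ℝ) (G : (ι → Bool) → ℝ) (x : ι → Bool) :
    semigroup ρ t G x = ∑ y, transProb ρ t x y * G y := by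
  have : G = ∑ y, G y • (Pi.single y (1:ℝ) : (ι → Bool) → ℝ) := by
    funext z; simp [Finset.sum_apply, Pi.single_apply]
  conv_lhs => rw [this, map_sum]
  simp only [map_smul, Finset.sum_apply, Pi.smul_apply, smul_eq_mul, transProb]
  exact sum_congr rfl fun y _ => mul_comm _ _

lemma abs_semigroup_le_half {ρ f : (ι → Bool) → ℝ} {t B : ℝ} (hf : mean ρ f = 0)
    (hB : ∀ x, |f x| ≤ B) {x : ι → Bool} (htv : tvDist ρ t x ≤ 1 / 4) :
    |semigroup ρ t f x| ≤ B / 2 := by
  have hB0 : 0 ≤ B := (abs_nonneg _).trans (hB x)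
  have e : semigroup ρ t f x = ∑ y, (transProb ρ t x y - ρ y) * f y := by
    simp only [sub_mul, sum_sub_distrib]
    rw [← semigroup_eq_sum, show ∑ y, ρ y * f y = 0 from hf, sub_zero]
  rw [e]
  refine (abs_sum_le_sum_abs _ _).trans ?_
  calc ∑ y, |(transProb ρ t x y - ρ y) * f y|
      ≤ ∑ y, |transProb ρ t x y - ρ y| * B := sum_le_sum fun y _ => by
        rw [abs_mul]; exact mul_le_mul_of_nonneg_left (hB y) (abs_nonneg _)
    _ = (2 * tvDist ρ t x) * B := by rw [← sum_mul, tvDist]; ring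
    _ ≤ B / 2 := by
        have := mul_le_mul_of_nonneg_right htv hB0
        linarith

/-- A small Rayleigh quotient `r` keeps some start unmixed up to time `1 / (2 r)`. -/
lemma exists_tv_gt_of_rayleigh (hsymm : ∀ i j, J i j = J j i) (hdiag : ∀ i, J i i = 0)
    {f : (ι → Bool) → ℝ} (hf : mean (gibbs J h) f = 0)
    (hV : 0 < mean (gibbs J h) fun x => f x ^ 2) {r : ℝ}
    (hr : dirichlet (gibbs J h) f ≤ r * mean (gibbs J h) fun x => f x ^ 2) {t : ℝ} (ht : 0 ≤ t)
    (hrt : r * t ≤ 1 / 2) : ∃ x, 1 / 4 < tvDist (gibbs J h) t x := by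
  by_contra hcon
  simp only [not_exists, not_lt] at hcon
  set μ := gibbs J h
  set B := ∑ x, |f x| with hBdef
  have hB : ∀ x, |f x| ≤ B := fun x =>
    single_le_sum (f := fun x => |f x|) (fun y _ => abs_nonneg _) (mem_univ x)
  have hit : ∀ k : ℕ, mean μ (semigroup μ (k * t) f) = 0 ∧
      ∀ x, |semigroup μ (k * t) f x| ≤ B / 2 ^ k := by
    intro k
    refine ⟨by rw [mean_semigroup hsymm hdiag]; exact hf, ?_⟩
    induction k with
    | zero => simpa [semigroup_zero] using hB
    | succ k ih =>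
      intro x
      rw [show ((k + 1 : ℕ) : ℝ) * t = t + k * t by push_cast; ring, semigroup_add,
        pow_succ, ← div_div]
      exact abs_semigroup_le_half (by rw [mean_semigroup hsymm hdiag]; exact hf) ih (hcon x)
  have hne : f ≠ 0 := by
    rintro rfl
    simp [mean] at hV
  have hexp : exp (1 / 2 : ℝ) < 2 := by
    have h1 : exp (1 / 2 : ℝ) ^ 2 < 2 ^ 2 := by
      rw [← exp_nat_mul]
      norm_num
      linarith [exp_one_lt_d9]
    exact lt_of_pow_lt_pow_left₀ 2 (by norm_num) h1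
  set V := mean μ fun x => f x ^ 2
  obtain ⟨k, hk⟩ := pow_unbounded_of_one_lt (B * B / V)
    (y := 2 / exp (1 / 2 : ℝ)) ((one_lt_div (exp_pos _)).2 hexp)
  have h1 := mean_sq_semigroup_ge (h := h) hsymm hdiag hne hr
    (mul_nonneg (Nat.cast_nonneg k) ht)
  have h2 : mean μ (fun x => f x * semigroup μ (k * t) f x) ≤ B * (B / 2 ^ k) := by
    calc mean μ (fun x => f x * semigroup μ (k * t) f x)
        ≤ ∑ x, μ x * (B * (B / 2 ^ k)) := sum_le_sum fun x _ => by
          refine mul_le_mul_of_nonneg_left ((le_abs_self _).trans ?_) (gibbs_pos x).le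
          rw [abs_mul]
          exact mul_le_mul (hB x) ((hit k).2 x) (abs_nonneg _) ((abs_nonneg _).trans (hB x))
      _ = _ := by rw [← sum_mul, gibbs_sum, one_mul]
  have h3 : (exp (1 / 2 : ℝ))⁻¹ ^ k * V ≤ exp (-r * (k * t)) * V := by
    refine mul_le_mul_of_nonneg_right ?_ hV.le
    rw [← exp_neg, ← exp_nat_mul]
    refine exp_le_exp.2 ?_
    have := mul_le_mul_of_nonneg_left hrt (Nat.cast_nonneg (α := ℝ) k)
    linarith
  have h4 := h3.trans (h1.trans h2)
  rw [div_pow, div_lt_div_iff₀ hV (pow_pos (exp_pos _) k)] at hk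
  rw [inv_pow, ← div_eq_inv_mul, mul_div_assoc', div_le_div_iff₀ (pow_pos (exp_pos _) k)
    (by positivity)] at h4
  linarith

end General

/-! ### A test observable from the correlation matrix -/

variable {n : ℕ}

lemma gExp_linObs (β : ℝ) (g : Dis n) (a : Fin n → ℝ) : gExp β g (linObs a) = 0 := by
  set ρ := gibbs (skCoupling β g) 0
  let e : (Fin n → Bool) ≃ (Fin n → Bool) := Involutive.toPerm (fun x k => !x k) fun x => by simp
  have h1 := e.sum_comp (fun x => ρ x * linObs a x)
  have h2 : ∀ x, ρ (e x) * linObs a (e x) = -(ρ x * linObs a x) := fun x => by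
    change gibbs (skCoupling β g) 0 (fun k => !x k) * linObs a (fun k => !x k) = _
    rw [gibbs_flip (J := skCoupling β g) (h := 0) (fun _ => rfl), ← mul_neg]
    congr 1
    simp only [linObs, ← sum_neg_distrib]
    exact sum_congr rfl fun i _ => by cases x i <;> simp [spin]
  simp only [h2, sum_neg_distrib] at h1
  simp only [gExp, mean]
  linarith

lemma gExp_linObs_sq (β : ℝ) (g : Dis n) (a : Fin n → ℝ) :
    gExp β g (fun x => linObs a x ^ 2) = ∑ i, ∑ j, a i * a j * corr β g i j := by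
  simp only [linObs, sq, sum_mul_sum]
  rw [gExp_sum]
  refine sum_congr rfl fun i _ => ?_
  rw [gExp_sum]
  refine sum_congr rfl fun j _ => ?_
  rw [show (fun x : Fin n → Bool => a i * spin (x i) * (a j * spin (x j)))
    = fun x => a i * a j * (spin (x i) * spin (x j)) from funext fun x => by ring, gExp_smul]
  rfl

lemma exists_column (β : ℝ) (g : Dis n) (hn : 0 < n) :
    ∃ a : Fin n → ℝ, 1 ≤ ∑ k, a k ^ 2 ∧
      (n : ℝ) * q2 β g * ∑ k, a k ^ 2 ≤ gExp β g fun x => linObs a x ^ 2 := by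
  set C := corr β g
  set col : Fin n → Fin n → ℝ := fun i k => C k i
  have hsum : ∀ i, 1 ≤ ∑ k, col i k ^ 2 := fun i => by
    refine le_trans ?_ (single_le_sum (f := fun k => col i k ^ 2) (fun k _ => sq_nonneg _)
      (mem_univ i))
    simp [col, C, corr_self]
  have hfrob : ∑ i, ∑ k, col i k ^ 2 = frob C := sum_comm
  set T := ∑ i, gExp β g fun x => linObs (col i) x ^ 2
  have hT : frob C ^ 2 ≤ n * T := by
    have e : frob C = gExp β g fun x => ∑ i, spin (x i) * linObs (col i) x := by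
      rw [gExp_sum, ← hfrob]
      refine sum_congr rfl fun i _ => ?_
      simp only [linObs, mul_sum]
      rw [gExp_sum]
      refine sum_congr rfl fun k _ => ?_
      rw [show (fun x : Fin n → Bool => spin (x i) * (col i k * spin (x k)))
        = fun x => col i k * (spin (x k) * spin (x i)) from funext fun x => by ring, gExp_smul, sq]
      rfl
    rw [e]
    refine (sq_gExp_le β g _).trans ((gExp_mono β g
      (Ψ := fun x => (n:ℝ) * ∑ i, linObs (col i) x ^ 2) fun x => ?_).trans (le_of_eq ?_))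
    · refine (sum_mul_sq_le_sq_mul_sq univ (fun i => spin (x i)) fun i => linObs (col i) x).trans
        (le_of_eq ?_)
      simp [sq, spin_sq]
    · rw [gExp_smul, gExp_sum]
  have hfq : frob C = (n : ℝ) ^ 2 * q2 β g := by
    rw [frob_corr_eq, mul_pow, sq_sqrt (q2_nonneg β g)]
  have htot : ∑ i, (n : ℝ) * q2 β g * ∑ k, col i k ^ 2 ≤ T := by
    rw [← mul_sum, hfrob]
    have hn' : (0:ℝ) < n := Nat.cast_pos.2 hn
    refine le_of_mul_le_mul_left ?_ hn'
    refine le_of_eq_of_le ?_ hT
    rw [hfq]; ring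
  obtain ⟨i, -, hi⟩ := exists_le_of_sum_le ⟨⟨0, hn⟩, mem_univ _⟩ htot
  exact ⟨col i, hsum i, hi⟩

lemma slow_of_q2 {β : ℝ} {g : Dis n} {δ : ℝ} (hδ : 0 < δ) (hn : 0 < n) (hq : δ < q2 β g) :
    (∃ f, 0 < Vale.Agent.P150.variance (gibbs (skCoupling β g) 0) f ∧
      δ / 2 * n * dirichlet (gibbs (skCoupling β g) 0) f
        ≤ Vale.Agent.P150.variance (gibbs (skCoupling β g) 0) f) ∧
    ∀ t : ℝ, 0 ≤ t → t ≤ δ / 2 * n →
      ∃ x, 1 / 4 < tvDist (gibbs (skCoupling β g) 0) t x := by
  obtain ⟨a, ha1, ha⟩ := exists_column β g hn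
  set μ := gibbs (skCoupling β g) 0
  set f := linObs a
  have hm : mean μ f = 0 := gExp_linObs β g a
  have hn' : (0:ℝ) < n := Nat.cast_pos.2 hn
  set V := mean μ fun x => f x ^ 2
  have hV1 : n * δ * ∑ k, a k ^ 2 ≤ V := by
    refine le_trans ?_ ha
    gcongr
  have hD := dirichlet_linObs_le (skCoupling_symm β g) (skCoupling_self β g) 0 a
  have hV : 0 < V := lt_of_lt_of_le (mul_pos (mul_pos hn' hδ) (by linarith)) hV1
  have hDV : n * δ * dirichlet μ f ≤ V :=
    (mul_le_mul_of_nonneg_left hD (by positivity)).trans hV1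
  have hvar : Vale.Agent.P150.variance μ f = V := by
    simp only [Vale.Agent.P150.variance, hm, sub_zero]
    rfl
  refine ⟨⟨f, hvar ▸ hV, ?_⟩, fun t ht htn => ?_⟩
  · rw [hvar]
    linarith
  · refine exists_tv_gt_of_rayleigh (skCoupling_symm β g) (skCoupling_self β g) hm hV
      (r := 1 / (n * δ)) ?_ ht ?_
    · rw [div_mul_eq_mul_div, one_mul, le_div_iff₀ (by positivity), mul_comm]
      exact hDV
    · rw [div_mul_eq_mul_div, one_mul, div_le_iff₀ (by positivity)]
      linarith

/-! ### Main statement -/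

theorem slow_above_one {β : ℝ} (hβ : 1 < β) :
    (∀ η : ℝ, 0 < η → ∃ a > 0, ∀ᶠ n : ℕ in atTop, ENNReal.ofReal (1 - η) ≤
      Measure.pi (fun _ : Fin n × Fin n => gaussianReal 0 1)
        {g | (∃ f, 0 < Vale.Agent.P150.variance (gibbs (skCoupling β g) 0) f ∧
            a * n * dirichlet (gibbs (skCoupling β g) 0) f
              ≤ Vale.Agent.P150.variance (gibbs (skCoupling β g) 0) f) ∧
          ∀ t : ℝ, 0 ≤ t → t ≤ a * n →
            ∃ x, 1 / 4 < tvDist (gibbs (skCoupling β g) 0) t x}) ∧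
    ∀ M κ : ℝ, 0 < κ → Tendsto (fun n : ℕ =>
      Measure.pi (fun _ : Fin n × Fin n => gaussianReal 0 1)
        {g | (∃ f, 0 < Vale.Agent.P150.variance (gibbs (skCoupling β g) 0) f ∧
            dirichlet (gibbs (skCoupling β g) 0) f
              ≤ κ * Vale.Agent.P150.variance (gibbs (skCoupling β g) 0) f) ∧
          ∀ t : ℝ, 0 ≤ t → t ≤ M * Real.log n →
            ∃ x, 1 / 4 < tvDist (gibbs (skCoupling β g) 0) t x})
      atTop (𝓝 1) := by
  have first : ∀ η : ℝ, 0 < η → ∃ a > 0, ∀ᶠ n : ℕ in atTop, ENNReal.ofReal (1 - η) ≤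
      Measure.pi (fun _ : Fin n × Fin n => gaussianReal 0 1)
        {g | (∃ f, 0 < Vale.Agent.P150.variance (gibbs (skCoupling β g) 0) f ∧
            a * n * dirichlet (gibbs (skCoupling β g) 0) f
              ≤ Vale.Agent.P150.variance (gibbs (skCoupling β g) 0) f) ∧
          ∀ t : ℝ, 0 ≤ t → t ≤ a * n →
            ∃ x, 1 / 4 < tvDist (gibbs (skCoupling β g) 0) t x} := by
    intro η hη
    obtain ⟨δ, hδ, hev⟩ := overlap_pos hβ hη
    refine ⟨δ / 2, by positivity, ?_⟩
    filter_upwards [hev, eventually_gt_atTop 0] with n hn hn0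
    have hmeas : MeasurableSet {g : Dis n | q2 β g ≤ δ} :=
      measurableSet_le (hasGrad_q2 β).1.measurable measurable_const
    refine le_trans ?_ (measure_mono (μ := gauss (Fin n × Fin n))
      (s := {g : Dis n | q2 β g ≤ δ}ᶜ) fun g hg => slow_of_q2 hδ hn0 (not_le.1 hg))
    rw [← ofReal_measureReal (μ := gauss (Fin n × Fin n)), probReal_compl_eq_one_sub hmeas]
    exact ENNReal.ofReal_le_ofReal (by linarith)
  refine ⟨first, fun M κ hκ => tendsto_order.2 ⟨fun b hb => ?_, fun b hb => ?_⟩⟩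
  · have hb1 : b ≠ ⊤ := ne_top_of_lt hb
    have hb2 : b.toReal < 1 := by
      simpa using (ENNReal.toReal_lt_toReal hb1 ENNReal.one_ne_top).2 hb
    obtain ⟨a, ha, hev⟩ := first ((1 - b.toReal) / 2) (by linarith)
    have hlog : Tendsto (fun n : ℕ => M * (Real.log n / n)) atTop (𝓝 0) := by
      have h1 : Tendsto (fun x : ℝ => Real.log x / x) atTop (𝓝 0) :=
        Real.isLittleO_log_id_atTop.tendsto_div_nhds_zero
      simpa using (h1.comp tendsto_natCast_atTop_atTop).const_mul M
    have hbig : ∀ᶠ n : ℕ in atTop, 1 ≤ κ * a * n :=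
      (tendsto_natCast_atTop_atTop.const_mul_atTop (mul_pos hκ ha)).eventually_ge_atTop 1
    filter_upwards [hev, hlog.eventually_le_const ha, hbig, eventually_gt_atTop 0]
      with n hn hlogn hκn hn0
    have hn' : (0:ℝ) < n := Nat.cast_pos.2 hn0
    refine lt_of_lt_of_le ?_ (hn.trans (measure_mono ?_))
    · exact (ENNReal.lt_ofReal_iff_toReal_lt hb1).2 (by linarith)
    · rintro g ⟨⟨f, hV, hfV⟩, htv⟩
      refine ⟨⟨f, hV, ?_⟩, fun t ht htl => htv t ht (htl.trans ?_)⟩
      · have h1 := mul_le_mul_of_nonneg_right hκn hV.le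
        refine le_of_mul_le_mul_left ?_ (mul_pos ha hn')
        linarith
      · rw [← mul_div_assoc, div_le_iff₀ hn'] at hlogn
        exact hlogn
  · exact Eventually.of_forall fun n => lt_of_le_of_lt prob_le_one hb

end Vale.Agent.P150
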