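import Mathlib
import Vale.Agent.P150.SlowMixing

/-!
# The spectral gap vanishes at the critical temperature

When the overlap is small the moments `tr (W ^ k C) / n` concentrate at `m_k`. At `β = 1` the
ratio `m_k / c_k` to the semicircle moments is unbounded over even `k`, while a spectral gap `κ`
would bound it by `1 / κ`.
-/

namespace Vale.Agent.P150

open MeasureTheory ProbabilityTheory Finset Function Real Matrix Filter
open scoped ENNReal Topology

/-! ### The limiting moments at the critical point -/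

lemma catC_eq_mSeq (β : ℝ) : ∀ k, catC k = (1 + β ^ 2) * mSeq β k - β * mSeq β (k + 1) := by
  intro k
  induction k using Nat.strong_induction_on with
  | _ k ih =>
    match k with
    | 0 => simp [catC, mSeq]; ring
    | k + 1 =>
      have hc : catC (k + 1) = ∑ l ∈ range k, catC l * catC (k - 1 - l) := by
        rcases k with _ | k
        · simp [catC]
        · exact catC_two_add k
      have hS : ∑ l ∈ range (k + 1), catC l * mSeq β (k + 1 - 1 - l)
          = ∑ l ∈ range k, catC l * mSeq β (k - 1 - l + 1) + catC k := by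
        rw [sum_range_succ]
        congr 1
        · refine sum_congr rfl fun l hl => ?_
          rw [mem_range] at hl
          congr 2
          omega
        · simp [mSeq]
      have hd : ∑ l ∈ range k, catC l * catC (k - 1 - l)
          = (1 + β ^ 2) * ∑ l ∈ range k, catC l * mSeq β (k - 1 - l)
            - β * ∑ l ∈ range k, catC l * mSeq β (k - 1 - l + 1) := by
        rw [mul_sum, mul_sum, ← sum_sub_distrib]
        refine sum_congr rfl fun l hl => ?_
        rw [mem_range] at hl
        rw [ih (k - 1 - l) (by omega)]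
        ring
      rw [hc, hd, mSeq_succ β (k + 1), hS, mSeq_succ β k]
      have h0 := ih k (by omega)
      rw [mSeq_succ β k] at h0
      rw [h0]
      ring

lemma exists_ratio {K : ℝ} (hK : 1 ≤ K) : ∃ j, K * catC (2 * j) + K ≤ mSeq 1 (2 * j) := by
  by_contra h
  simp only [not_exists, not_le] at h
  have hpos : ∀ k, 0 ≤ mSeq 1 k := fun k =>
    (pow_nonneg zero_le_one k).trans (pow_le_mSeq zero_le_one k)
  have hid : ∀ k, catC k = 2 * mSeq 1 k - mSeq 1 (k + 1) := fun k => by
    have := catC_eq_mSeq 1 k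
    linarith
  set s := √(4 - 1 / K) with hsdef
  have hK1 : 1 / K ≤ 1 := (div_le_one (by linarith)).2 hK
  have hK0 : 0 < 1 / K := by positivity
  have hs2 : s ^ 2 = 4 - 1 / K := sq_sqrt (by linarith)
  have hs1 : 1 ≤ s := Real.one_le_sqrt.2 (by linarith)
  have hslt : s < 2 := by
    rw [hsdef, Real.sqrt_lt' (by norm_num)]
    linarith
  have hM : ∀ j, mSeq 1 (2 * j) ≤ 2 * K * s ^ (2 * j) := by
    intro j
    induction j with
    | zero => simp [mSeq]; linarith
    | succ j ih =>
      have h1 := hid (2 * j)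
      have h2 := hid (2 * j + 1)
      have h3 := catC_nonneg (2 * j + 1)
      have h4 : (mSeq 1 (2 * j) - K) / K ≤ catC (2 * j) := by
        rw [div_le_iff₀ (by linarith)]
        linarith [h j]
      rw [sub_div, div_self (by linarith : K ≠ 0)] at h4
      have h5 := mul_le_mul_of_nonneg_left ih (show (0:ℝ) ≤ 4 - 2 / K by
        linarith [show 2 / K = 2 * (1 / K) by ring])
      have h6 : (1:ℝ) ≤ s ^ (2 * j) := one_le_pow₀ hs1
      rw [show 2 * (j + 1) = 2 * j + 1 + 1 by ring]
      rw [show s ^ (2 * j + 1 + 1) = s ^ (2 * j) * (4 - 1 / K) by rw [← hs2, ← pow_add]]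
      have h7 : (4 - 2 / K) * (2 * K * s ^ (2 * j)) + 2 * s ^ (2 * j)
          = 2 * K * (s ^ (2 * j) * (4 - 1 / K)) := by
        field_simp
        ring
      have h8 : (4 - 2 / K) * mSeq 1 (2 * j) = 4 * mSeq 1 (2 * j) - 2 * (mSeq 1 (2 * j) / K) := by
        ring
      linarith
  have hc : ∀ l, catC l ≤ 8 * K * s ^ l := by
    intro l
    have h1 := hid l
    have h2 := hpos (l + 1)
    rcases Nat.even_or_odd' l with ⟨j, rfl | rfl⟩
    · have h3 : 0 ≤ K * s ^ (2 * j) := by positivity
      linarith [hM j]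
    · have h3 := hid (2 * j)
      have h4 := catC_nonneg (2 * j)
      have h5 := mul_le_mul_of_nonneg_left hs1 (show 0 ≤ K * s ^ (2 * j) by positivity)
      rw [pow_succ]
      linarith [hM j]
  set r := (s + 2) / 2 with hrdef
  have hrs : s < r := by rw [hrdef]; linarith
  have hr0 : 0 < r := by linarith
  set B := 8 * K / (r - s) with hBdef
  have hB : ∀ L, stiel r L ≤ B - B * (s / r) ^ L := by
    intro L
    induction L with
    | zero => simp [stiel]
    | succ L ih =>
      rw [stiel, sum_range_succ]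
      have h1 : catC L / r ^ (L + 1) ≤ B * (s / r) ^ L - B * (s / r) ^ (L + 1) := by
        have hgen : ∀ x : ℝ, 0 < x → s < x → 8 * K * s ^ L / x ^ (L + 1)
            = 8 * K / (x - s) * (s / x) ^ L - 8 * K / (x - s) * (s / x) ^ (L + 1) := by
          intro x hx hxs
          have hne : x - s ≠ 0 := by linarith
          rw [div_pow, div_pow, pow_succ, pow_succ]
          field_simp
        exact (div_le_div_of_nonneg_right (hc L) (pow_nonneg hr0.le _)).trans
          (le_of_eq (hgen r hr0 hrs))
      simp only [stiel] at ih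
      linarith
  have hbdd : BddAbove (Set.range (stiel r)) := ⟨B, by
    rintro _ ⟨L, rfl⟩
    have : 0 ≤ B * (s / r) ^ L := by
      have : 0 < r - s := by linarith
      positivity
    linarith [hB L]⟩
  have hmono : Monotone (stiel r) := monotone_nat_of_le_succ fun L => by
    rw [stiel, stiel, sum_range_succ]
    exact le_add_of_nonneg_right (div_nonneg (catC_nonneg _) (pow_nonneg hr0.le _))
  set G := ⨆ L, stiel r L
  have hlim : Tendsto (fun L => 1 + stiel r L ^ 2) atTop (𝓝 (1 + G ^ 2)) :=
    ((tendsto_atTop_ciSup hmono hbdd).pow 2).const_add 1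
  have h1 : 1 + G ^ 2 ≤ r * G := le_of_tendsto' hlim fun L =>
    (stiel_step hr0 L).trans (mul_le_mul_of_nonneg_left (le_ciSup hbdd _) hr0.le)
  have h2 := sq_nonneg (G - r / 2)
  have h3 : r ^ 2 < 2 ^ 2 := pow_lt_pow_left₀ (by rw [hrdef]; linarith) hr0.le two_ne_zero
  linarith

/-! ### Concentration of the moments when the overlap is small -/

lemma mu_sq_limit (β : ℝ) (k : ℕ) : ∃ C : ℝ, 0 ≤ C ∧ ∀ r : ℕ, 1 ≤ r → ∀ᶠ n : ℕ in atTop,
    ∫ g : Dis n, wt β (5 * r ^ 4 + 1) g * (mu β k g - mSeq β k) ^ 2
      ∂gauss (Fin n × Fin n) ≤ C / r := by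
  obtain ⟨C₁, hC₁, h₁⟩ := mu_limit β k k
  obtain ⟨C₀, hC₀, h₀⟩ := mu_limit_zero β k
  refine ⟨C₁ + |mSeq β k| * C₀, by positivity, fun r hr => ?_⟩
  filter_upwards [h₁ r hr, h₀ r hr] with n hn₁ hn₀
  set γ := gauss (Fin n × Fin n)
  set L := 5 * r ^ 4 + 1
  set m := mSeq β k
  have i1 := (((isTest_wt β L).mul (isTest_mu β k)).mul (isTest_mu β k)).integrable n
  have i2 := ((isTest_wt β L).mul (isTest_mu β k)).integrable n
  have i3 := (isTest_wt β L).integrable n
  have e : ∀ g : Dis n, wt β L g * (mu β k g - m) ^ 2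
      = wt β L g * mu β k g * mu β k g - 2 * m * (wt β L g * mu β k g) + m ^ 2 * wt β L g :=
    fun g => by ring
  simp only [e]
  have i12 : Integrable (fun g => wt β L g * mu β k g * mu β k g
      - 2 * m * (wt β L g * mu β k g)) γ := i1.sub (i2.const_mul _)
  rw [integral_add i12 (i3.const_mul _), integral_sub i1 (i2.const_mul _),
    integral_const_mul, integral_const_mul]
  set J1 := ∫ g, wt β L g * mu β k g * mu β k g ∂γ
  set J2 := ∫ g, wt β L g * mu β k g ∂γ
  set J3 := ∫ g, wt β L g ∂γ
  have t1 := (le_abs_self _).trans hn₁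
  have t0 : |m * (J2 - m * J3)| ≤ |m| * (C₀ / r) := by
    rw [abs_mul]
    exact mul_le_mul_of_nonneg_left hn₀ (abs_nonneg m)
  have t2 := (neg_le_abs _).trans t0
  rw [add_div, mul_div_assoc]
  linarith

lemma trace_sq_limit (β : ℝ) (L k : ℕ) : Tendsto (fun n : ℕ =>
    ∫ g : Dis n, wt β L g * (traceMom k g - catC k) ^ 2 ∂gauss (Fin n × Fin n)) atTop (𝓝 0) := by
  have hw := isTest_wt β L
  have h1 := traceMom_limit k _ (hw.mul (isTest_traceMom k))
  have h2 := (traceMom_limit k _ hw).const_mul (-catC k)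
  have h3 := h1.add h2
  rw [mul_zero, add_zero] at h3
  refine h3.congr fun n => ?_
  have i1 := ((hw.mul (isTest_traceMom k)).mul (isTest_traceMom k)).integrable n
  have i2 := (hw.mul (isTest_traceMom k)).integrable n
  have e : ∀ g : Dis n, wt β L g * (traceMom k g - catC k) ^ 2
      = wt β L g * traceMom k g * traceMom k g - 2 * catC k * (wt β L g * traceMom k g)
        + catC k ^ 2 * wt β L g := fun g => by ring
  simp only [e]
  have i12 : Integrable (fun g => wt β L g * traceMom k g * traceMom k g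
      - 2 * catC k * (wt β L g * traceMom k g)) (gauss (Fin n × Fin n)) :=
    i1.sub (i2.const_mul _)
  rw [integral_add i12 ((hw.integrable n).const_mul _),
    integral_sub i1 (i2.const_mul _), integral_const_mul, integral_const_mul]
  ring

/-! ### A spectral gap bounds the moments -/

variable {n : ℕ}

lemma mu_even_le_of_gap {β κ : ℝ} (hκ : 0 < κ) {g : Dis n} (j : ℕ)
    (hgap : ∀ f, 0 < Vale.Agent.P150.variance (gibbs (skCoupling β g) 0) f →
      κ * Vale.Agent.P150.variance (gibbs (skCoupling β g) 0) f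
        ≤ dirichlet (gibbs (skCoupling β g) 0) f) :
    κ * mu β (2 * j) g ≤ traceMom (2 * j) g := by
  set P := (wig g) ^ j with hP
  set col : Fin n → Fin n → ℝ := fun c a => P a c
  have hone : ∀ c, κ * (∑ a, ∑ b, col c a * col c b * corr β g a b) ≤ ∑ a, col c a ^ 2 := by
    intro c
    rw [← gExp_linObs_sq]
    have hm : mean (gibbs (skCoupling β g) 0) (linObs (col c)) = 0 := gExp_linObs β g (col c)
    have hv : Vale.Agent.P150.variance (gibbs (skCoupling β g) 0) (linObs (col c))
        = gExp β g fun x => linObs (col c) x ^ 2 := by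
      simp only [Vale.Agent.P150.variance, hm, sub_zero]
      rfl
    rw [← hv]
    rcases le_or_gt (Vale.Agent.P150.variance (gibbs (skCoupling β g) 0) (linObs (col c))) 0
      with h0 | h0
    · exact (mul_nonpos_of_nonneg_of_nonpos hκ.le h0).trans (sum_nonneg fun a _ => sq_nonneg _)
    · exact (hgap _ h0).trans
        (dirichlet_linObs_le (skCoupling_symm β g) (skCoupling_self β g) 0 _)
  have hsum := sum_le_sum (s := univ) fun c _ => hone c
  rw [← mul_sum] at hsum
  have e1 : ∑ c, ∑ a, ∑ b, col c a * col c b * corr β g a b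
      = gExp β g (quadObs ((wig g) ^ (2 * j))) := by
    rw [gExp_quadObs, two_mul, pow_add, sum_comm]
    refine sum_congr rfl fun a _ => ?_
    rw [sum_comm]
    refine sum_congr rfl fun b _ => ?_
    rw [Matrix.mul_apply, sum_mul]
    refine sum_congr rfl fun c _ => ?_
    simp only [col, hP]
    rw [wig_pow_apply_symm g j c b]
  have e2 : ∑ c, ∑ a, col c a ^ 2 = Matrix.trace ((wig g) ^ (2 * j)) := by
    rw [sum_comm, two_mul, pow_add, Matrix.trace]
    refine sum_congr rfl fun a _ => ?_
    rw [Matrix.diag_apply, Matrix.mul_apply]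
    refine sum_congr rfl fun c _ => ?_
    simp only [col, hP]
    rw [sq, wig_pow_apply_symm g j c a]
  rw [e1, e2] at hsum
  rw [mu, traceMom, ← mul_div_assoc]
  exact div_le_div_of_nonneg_right hsum (Nat.cast_nonneg n)

/-- At `β = 1` the spectral gap tends to zero in probability. -/
theorem gap_vanishes_critical (κ : ℝ) (hκ : 0 < κ) : Tendsto (fun n : ℕ =>
    Measure.pi (fun _ : Fin n × Fin n => gaussianReal 0 1)
      {g | ∃ f, 0 < Vale.Agent.P150.variance (gibbs (skCoupling 1 g) 0) f ∧
        dirichlet (gibbs (skCoupling 1 g) 0) f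
          ≤ κ * Vale.Agent.P150.variance (gibbs (skCoupling 1 g) 0) f})
    atTop (𝓝 1) := by
  have hκ1 : (0:ℝ) < 1 / κ := by positivity
  obtain ⟨j, hj⟩ := exists_ratio (K := 1 / κ + 2) (by linarith)
  set k := 2 * j
  obtain ⟨C, hC0, hC⟩ := mu_sq_limit 1 k
  refine tendsto_order.2 ⟨fun b hb => ?_, fun b hb =>
    Eventually.of_forall fun n => lt_of_le_of_lt prob_le_one hb⟩
  have hb1 : b ≠ ⊤ := ne_top_of_lt hb
  have hb2 : b.toReal < 1 := by
    simpa using (ENNReal.toReal_lt_toReal hb1 ENNReal.one_ne_top).2 hb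
  set η := (1 - b.toReal) / 2 with hηdef
  have hη : 0 < η := by rw [hηdef]; linarith
  obtain ⟨r, hr⟩ := exists_nat_ge (max 1 (4 * (C + 1) / η))
  have hr1 : 1 ≤ r := Nat.one_le_cast.1 ((le_max_left _ _).trans hr)
  have hr' : (0:ℝ) < r := Nat.cast_pos.2 hr1
  set L := 5 * r ^ 4 + 1
  have hL : (0:ℝ) < L := Nat.cast_pos.2 (by omega)
  set δ := 1 / (2 * (L:ℝ))
  have hδ : 0 < δ := by positivity
  have hbig : ∀ᶠ n : ℕ in atTop, 1 ≤ κ * (δ / 2) * n :=
    (tendsto_natCast_atTop_atTop.const_mul_atTop
      (mul_pos hκ (half_pos hδ))).eventually_ge_atTop 1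
  filter_upwards [hC r hr1, (trace_sq_limit 1 L k).eventually_le_const
    (show (0:ℝ) < η / 4 by linarith), hbig, eventually_gt_atTop 0] with n hn₁ hn₂ hκn hn0
  have hn' : (0:ℝ) < n := Nat.cast_pos.2 hn0
  set γ := gauss (Fin n × Fin n)
  set F₁ : Dis n → ℝ := fun g => wt 1 L g * (mu 1 k g - mSeq 1 k) ^ 2
  set F₂ : Dis n → ℝ := fun g => wt 1 L g * (traceMom k g - catC k) ^ 2
  have c1 : Continuous F₁ :=
    (hasGrad_wt 1 L).1.mul (((hasGrad_mu 1 k).1.sub continuous_const).pow 2)
  have c2 : Continuous F₂ := by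
    refine (hasGrad_wt 1 L).1.mul (((?_ : Continuous fun g : Dis n => traceMom k g).sub
      continuous_const).pow 2)
    simp only [traceMom, Matrix.trace, Matrix.diag_apply]
    exact (continuous_finsetSum _ fun a _ => (hasGrad_pow k a a).1).div_const _
  set Bad := {g : Dis n | 1 / 2 ≤ F₁ g} ∪ {g : Dis n | 1 / 2 ≤ F₂ g}
  have hBad : MeasurableSet Bad :=
    (measurableSet_le measurable_const c1.measurable).union
      (measurableSet_le measurable_const c2.measurable)
  refine lt_of_lt_of_le ?_ (measure_mono (μ := γ) (s := Badᶜ) ?_)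
  · rw [← ofReal_measureReal (μ := γ), probReal_compl_eq_one_sub hBad]
    refine (ENNReal.lt_ofReal_iff_toReal_lt hb1).2 ?_
    have hw : ∀ g : Dis n, 0 ≤ wt 1 L g := wt_nonneg 1 L
    have i1 : Integrable F₁ γ := by
      have e : F₁ = fun g => wt 1 L g * mu 1 k g * mu 1 k g
          - 2 * mSeq 1 k * (wt 1 L g * mu 1 k g) + mSeq 1 k ^ 2 * wt 1 L g := by
        funext g; simp only [F₁]; ring
      rw [e]
      exact (((((isTest_wt 1 L).mul (isTest_mu 1 k)).mul (isTest_mu 1 k)).integrable n).sub
        ((((isTest_wt 1 L).mul (isTest_mu 1 k)).integrable n).const_mul _)).add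
          (((isTest_wt 1 L).integrable n).const_mul _)
    have i2 : Integrable F₂ γ := by
      have e : F₂ = fun g => wt 1 L g * traceMom k g * traceMom k g
          - 2 * catC k * (wt 1 L g * traceMom k g) + catC k ^ 2 * wt 1 L g := by
        funext g; simp only [F₂]; ring
      rw [e]
      exact (((((isTest_wt 1 L).mul (isTest_traceMom k)).mul (isTest_traceMom k)).integrable n).sub
        ((((isTest_wt 1 L).mul (isTest_traceMom k)).integrable n).const_mul _)).add
          (((isTest_wt 1 L).integrable n).const_mul _)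
    have m1 := mul_meas_ge_le_integral_of_nonneg (μ := γ) (f := F₁)
      (Eventually.of_forall fun g => mul_nonneg (hw g) (sq_nonneg _)) i1 (1 / 2)
    have m2 := mul_meas_ge_le_integral_of_nonneg (μ := γ) (f := F₂)
      (Eventually.of_forall fun g => mul_nonneg (hw g) (sq_nonneg _)) i2 (1 / 2)
    have hu := measureReal_union_le (μ := γ) {g : Dis n | 1 / 2 ≤ F₁ g} {g | 1 / 2 ≤ F₂ g}
    have hCr : C / r ≤ η / 4 := by
      have := (le_max_right _ _).trans hr
      rw [div_le_iff₀ hη] at this
      rw [div_le_iff₀ hr']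
      linarith
    linarith
  intro g hg
  simp only [Bad, Set.mem_compl_iff, Set.mem_union, not_or] at hg
  have hg1 : F₁ g < 1 / 2 := not_le.1 hg.1
  have hg2 : F₂ g < 1 / 2 := not_le.1 hg.2
  rcases le_or_gt (q2 1 g) δ with hq | hq
  · by_contra hcon
    have hgap : ∀ f, 0 < Vale.Agent.P150.variance (gibbs (skCoupling 1 g) 0) f →
        κ * Vale.Agent.P150.variance (gibbs (skCoupling 1 g) 0) f
          ≤ dirichlet (gibbs (skCoupling 1 g) 0) f := fun f hf => by
      by_contra hf'
      exact hcon ⟨f, hf, (not_le.1 hf').le⟩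
    have hmu := mu_even_le_of_gap hκ j hgap
    have hw : 1 / 2 ≤ wt 1 L g := by
      have hδ1 : δ ≤ 1 := by
        rw [div_le_one (by positivity)]
        have : (1:ℝ) ≤ L := Nat.one_le_cast.2 (by omega)
        linarith
      have h1 := one_add_mul_le_pow (a := -δ) (by linarith) L
      have e : (L:ℝ) * δ = 1 / 2 := by simp only [δ]; field_simp
      refine le_trans ?_ (h1.trans (pow_le_pow_left₀ (by linarith) (by linarith) L))
      linarith
    have key : ∀ y : ℝ, wt 1 L g * y ^ 2 < 1 / 2 → |y| < 1 := fun y hy => by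
      by_contra hy'
      have h1 : 1 ≤ y ^ 2 := (one_le_sq_iff_one_le_abs y).2 (not_lt.1 hy')
      have h2 := mul_le_mul hw h1 zero_le_one (wt_nonneg 1 L g)
      linarith
    have a1 := (abs_lt.1 (key _ hg1)).1
    have a2 := (abs_lt.1 (key _ hg2)).2
    have h2 : κ * ((1 / κ + 2) * catC k + (1 / κ + 2) - 1) ≤ κ * mu 1 k g :=
      mul_le_mul_of_nonneg_left (by linarith) hκ.le
    have e : κ * ((1 / κ + 2) * catC k + (1 / κ + 2) - 1)
        = catC k + 1 + κ * (2 * catC k + 1) := by field_simp; ring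
    have h3 : 0 < κ * (2 * catC k + 1) := mul_pos hκ (by linarith [catC_nonneg k])
    linarith
  · obtain ⟨⟨f, hV, hfV⟩, -⟩ := slow_of_q2 hδ hn0 hq
    refine ⟨f, hV, ?_⟩
    have h1 := mul_le_mul_of_nonneg_right hκn hV.le
    refine le_of_mul_le_mul_left ?_ (mul_pos (half_pos hδ) hn')
    linarith

end Vale.Agent.P150
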